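import Vale.Agent.P284.H451.KLS

/-!
# P284 (helper553), module SEG: statement

`N` is a Hilbert weight on `K_Z^m`, locally `N = ‖v‖²`, immersive at one point.  The weight
`segN N = N · det Gram(v, ∂₁v, …, ∂ₙv)` on `K_Z^(m (n + 2) + 1)` is a Hilbert weight which is immersive
wherever it is nonzero (Segre embedding), and branches of an entire function `V` for `N` are branches of
the entire function `V ⊗ (V ∧ ∂₁V ∧ … ∧ ∂ₙV)` for `segN N`.
-/

open scoped Manifold ContDiff Topology ComplexOrder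
open Filter

noncomputable section

namespace Vale.Agent.P284.H553

open Vale.Agent.P272.K Vale.Agent.P272.KOD Vale.Agent.P284.H812 Vale.Agent.P284.H451

/-- the bordered complex Hessian `(N, ∂_j N; ∂_ī N, ∂_j ∂_ī N)` of a real function; for `N = ‖v‖²` it
is the Gram matrix of `v, ∂₁v, …, ∂ₙv` -/
def brd {n : ℕ} (N : Cm n → ℝ) (z : Cm n) : Matrix (Unit ⊕ Fin n) (Unit ⊕ Fin n) ℂ :=
  Matrix.fromBlocks (Matrix.of fun _ _ => (N z : ℂ)) (Matrix.of fun _ j => dz j (fun y => (N y : ℂ)) z)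
    (Matrix.of fun i _ => dzb i (fun y => (N y : ℂ)) z) (cHess N z).transpose

/-- the weight `N · det Gram(v, ∂₁v, …, ∂ₙv)` -/
def segN {n : ℕ} {Z : Type*} [TopologicalSpace Z] (N : Chart n Z → Cm n → ℝ) :
    Chart n Z → Cm n → ℝ :=
  fun e z => N e z * (brd (N e) z).det.re

/-- **Module SEG.** -/
def SegStmt : Prop :=
  ∀ (n m : ℕ) (Z : Type) [TopologicalSpace Z] [ChartedSpace (Cm n) Z] [IsManifold 𝓘(ℂ, Cm n) ω Z]
    (H : Type) [NormedAddCommGroup H] [InnerProductSpace ℂ H] [CompleteSpace H]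
    (N : Chart n Z → Cm n → ℝ) (_ : HMet n m Z H N) (_ : HImmAt n Z H N)
    (H' : Type) [NormedAddCommGroup H'] [InnerProductSpace ℂ H'] [CompleteSpace H']
    (V : Cm n → H') (_ : Differentiable ℂ V),
    ∃ (K : Type) (_ : NormedAddCommGroup K) (_ : InnerProductSpace ℂ K) (_ : CompleteSpace K)
      (K' : Type) (_ : NormedAddCommGroup K') (_ : InnerProductSpace ℂ K') (_ : CompleteSpace K')
      (V₁ : Cm n → K'),
      HMet n (m * (n + 2) + 1) Z K (segN N) ∧ HImm n Z K (segN N) ∧ HImmAt n Z K (segN N) ∧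
      Differentiable ℂ V₁ ∧
      (∀ ζ e f, IsBranch m N V ζ e f → IsBranch (m * (n + 2) + 1) (segN N) V₁ ζ e f) ∧
      (∀ ζ, V ζ ≠ 0 → (∀ (ξ : Cm n) (c : ℂ), fderiv ℂ V ζ ξ = c • V ζ → ξ = 0) → V₁ ζ ≠ 0) ∧
      (∀ e x, At e x → N e (e x) ≠ 0 → (∃ v : Cm n → H, AnalyticAt ℂ v (e x) ∧
        (∀ᶠ z in 𝓝 (e x), N e z = ‖v z‖ ^ 2) ∧
        ∀ (ξ : Cm n) (c : ℂ), fderiv ℂ v (e x) ξ = c • v (e x) → ξ = 0) → segN N e (e x) ≠ 0)

/-- SEG + KL + KO: an entire function has no branch, for a Hilbert weight which is immersive at one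
point, over a point at which the function itself is immersive. -/
def NoBranchStmt : Prop :=
  ∀ (n m : ℕ) (_ : 1 ≤ n) (_ : 1 ≤ m) (Z : Type) [TopologicalSpace Z] [T2Space Z]
    [CompactSpace Z] [ConnectedSpace Z] [ChartedSpace (Cm n) Z] [IsManifold 𝓘(ℂ, Cm n) ω Z]
    (w : Chart n Z → Cm n → ℝ) (_ : IsCanonicalMetric w)
    (_ : ∀ e x, At e x → (cHess (w e) (e x)).PosDef)
    (H : Type) [NormedAddCommGroup H] [InnerProductSpace ℂ H] [CompleteSpace H]
    (N : Chart n Z → Cm n → ℝ) (_ : HMet n m Z H N) (_ : HImmAt n Z H N)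
    (H' : Type) [NormedAddCommGroup H'] [InnerProductSpace ℂ H'] [CompleteSpace H']
    (V : Cm n → H') (_ : Differentiable ℂ V)
    (ζ : Cm n) (e : Chart n Z) (f : Cm n → Cm n) (_ : IsBranch m N V ζ e f) (_ : V ζ ≠ 0)
    (_ : ∀ (ξ : Cm n) (c : ℂ), fderiv ℂ V ζ ξ = c • V ζ → ξ = 0), False

end Vale.Agent.P284.H553
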