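import Vale.Agent.P284.H573.HForm
import Vale.Agent.P284.H248.Defs
import Mathlib.Topology.Covering.Basic

/-!
# P284 (helper553), T1', module LB: the saturated line bundle of a natural form (statements)

`v` is a Hilbert space valued form of type `(Λ^R T^*)^m` on a covering `p : E → X`, with the normal form
`v = (det (db ξ))^m γ(b)` at its good points. The line of `det (db ξ)` in `Λ^R T^*` is the same for all
good points over a point of `X`; it extends to a saturated line bundle `L → Ω^R_X`. The sections of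
`L^k` are the functions `s x e ξ` which are multiples of `(det (db ξ))^k` over the good points, and
locally bounded.
-/

open scoped Manifold ContDiff Topology
open Filter Set

noncomputable section

namespace Vale.Agent.P284.H553.LB

open Vale.Agent.P272.K Vale.Agent.P284.H573 Vale.Agent.P284.H248

variable {n : ℕ} {X E : Type} [TopologicalSpace X] [ChartedSpace (Cm n) X] [TopologicalSpace E]
  {H : Type} [NormedAddCommGroup H] [InnerProductSpace ℂ H]

/-- the points of `X` with a good point of `v` over them -/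
def GoodX (p : E → X) (R m : ℕ) (v : E → Chart n X → (Fin R → Cm n) → H) : Set X :=
  {x | ∃ y, p y = x ∧ GoodAt p R m v y}

/-- the matrix of `db` on the vectors `ξ` -/
abbrev DM {R : ℕ} (b : Cm n → Cm R) (z : Cm n) (ξ : Fin R → Cm n) : Matrix (Fin R) (Fin R) ℂ :=
  Matrix.of fun i j => fderiv ℂ b z (ξ j) i

/-- the complement of `G` is locally contained in the zero set of a holomorphic function -/
def ThinC (n : ℕ) {X : Type} [TopologicalSpace X] [ChartedSpace (Cm n) X] (G : Set X) : Prop :=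
  ∀ x (e : Chart n X), At e x → ∃ h : Cm n → ℂ, AnalyticAt ℂ h (e x) ∧
    (¬ ∀ᶠ z in 𝓝 (e x), h z = 0) ∧ ∀ᶠ x' in 𝓝 x, x' ∉ G → h (e x') = 0

/-- `s` is a section, over the good points, of the `k`-th power of the line of `v`, and it is locally
bounded. -/
structure LSec (p : E → X) (R m k : ℕ) (v : E → Chart n X → (Fin R → Cm n) → H)
    (s : X → Chart n X → (Fin R → Cm n) → ℂ) : Prop where
  nf : ∀ x ∈ GoodX p R m v, ∀ e, At e x → ∃ (y : E) (b : Cm n → Cm R) (γ : Cm R → H)
    (S : Cm n → ℂ), p y = x ∧ IsNF m p v y e b γ ∧ AnalyticAt ℂ S (e x) ∧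
      ∀ᶠ x' in 𝓝 x, ∀ ξ, s x' e ξ = (DM b (e x') ξ).det ^ k * S (e x')
  change : ∀ x ∈ GoodX p R m v, ∀ e e', At e x → At e' x → ∀ ξ, s x e ξ =
    s x e' (fun i => fderiv ℂ (fun z => e' (e.symm z)) (e x) (ξ i))
  bdd : ∀ x e, At e x → ∀ ξ, ∃ C : ℝ, ∀ᶠ x' in 𝓝 x, x' ∈ GoodX p R m v → ‖s x' e ξ‖ ≤ C

/-- The saturated line bundle and its sections. -/
def LBStmt : Prop :=
  ∀ (n R m : ℕ) (X E : Type) [TopologicalSpace X] [ChartedSpace (Cm n) X]
    [IsManifold 𝓘(ℂ, Cm n) ω X] [TopologicalSpace E] (p : E → X) (H : Type) [NormedAddCommGroup H]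
    [InnerProductSpace ℂ H] [CompleteSpace H] (v : E → Chart n X → (Fin R → Cm n) → H),
    IsCoveringMap p → Function.Surjective p → 1 ≤ m → HForm n R m p H v →
    ThinC n (GoodX p R m v) →
    ∃ (L : LineBundle n X) (φ : Mor L R),
      (∀ i e x, At e x → x ∈ L.U i → x ∈ GoodX p R m v → φ.form i e (e x) ≠ 0) ∧
      ∀ (k : ℕ) (s : X → Chart n X → (Fin R → Cm n) → ℂ), LSec p R m k v s →
        ∃ σ : Sec L k, ∀ i e x, At e x → x ∈ L.U i → x ∈ GoodX p R m v → ∀ ξ,
          s x e ξ = σ.f i x * φ.form i e (e x) ξ ^ k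

/-- The consumer form: `N + 1` sections of the `k`-th power of the line of `v` with `N` independent
ratios at one good point give `κ(X, L) ≥ N` for a line bundle `L` with a nonzero morphism to
`Ω^R_X`. -/
def IitStmt : Prop :=
  ∀ (n R m : ℕ) (X E : Type) [TopologicalSpace X] [ChartedSpace (Cm n) X]
    [IsManifold 𝓘(ℂ, Cm n) ω X] [TopologicalSpace E] (p : E → X) (H : Type) [NormedAddCommGroup H]
    [InnerProductSpace ℂ H] [CompleteSpace H] (v : E → Chart n X → (Fin R → Cm n) → H),
    IsCoveringMap p → Function.Surjective p → 1 ≤ m → HForm n R m p H v →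
    ThinC n (GoodX p R m v) → ∀ (k N : ℕ), 1 ≤ k →
    ∀ (s : Fin (N + 1) → X → Chart n X → (Fin R → Cm n) → ℂ), (∀ a, LSec p R m k v (s a)) →
    ∀ x ∈ GoodX p R m v, ∀ (e : Chart n X) (ξ : Fin R → Cm n), At e x → s 0 x e ξ ≠ 0 →
    (LinearIndependent ℂ fun a : Fin N =>
      fderiv ℂ (fun z => s a.succ (e.symm z) e ξ / s 0 (e.symm z) e ξ) (e x)) →
    ∃ (L : LineBundle n X) (φ : Mor L R), φ.Nonzero ∧ IitakaGE L N

end Vale.Agent.P284.H553.LB
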