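import Vale.Agent.P284.H553.Seg

/-!
# P284 (helper553), module SEG: proof, part 2
-/

open scoped Manifold ContDiff Topology ComplexOrder InnerProductSpace
open Filter Matrix

set_option linter.all false

noncomputable section

namespace Vale.Agent.P284.H553

open Vale.Agent.P272.K Vale.Agent.P272.KOD Vale.Agent.P284.H812 Vale.Agent.P284.H451
  Vale.Agent.P284.H213.KL

section
variable {n : ℕ} {H : Type*} [NormedAddCommGroup H] [InnerProductSpace ℂ H] [CompleteSpace H]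
  {H' : Type*} [NormedAddCommGroup H'] [InnerProductSpace ℂ H'] [CompleteSpace H']

lemma an_fderiv_apply {v : Cm n → H} {z : Cm n} (hv : AnalyticAt ℂ v z) (ξ : Cm n) :
    AnalyticAt ℂ (fun y => fderiv ℂ v y ξ) z :=
  ((ContinuousLinearMap.apply ℂ H ξ).analyticAt _).fun_comp hv.fderiv

lemma an_det {f : Cm n → Cm n} {z : Cm n} (hf : AnalyticAt ℂ f z) :
    AnalyticAt ℂ (fun y => (fderiv ℂ f y).det) z := by
  have h1 : (fun y => (fderiv ℂ f y).det) = fun y => ∑ σ : Equiv.Perm (Fin n),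
      ((Equiv.Perm.sign σ : ℤ) : ℂ) * ∏ i, (fderiv ℂ f y (Pi.single i 1)) (σ i) := by
    funext y
    rw [← Jm_det, Matrix.det_apply']
    rfl
  rw [h1]
  refine Finset.analyticAt_fun_sum _ fun σ _ => ?_
  refine analyticAt_const.mul (Finset.analyticAt_fun_prod _ fun i _ => ?_)
  exact ((ContinuousLinearMap.proj (R := ℂ) (φ := fun _ : Fin n => ℂ) (σ i)).analyticAt _).fun_comp
    (((ContinuousLinearMap.apply ℂ (Cm n) (Pi.single i (1 : ℂ))).analyticAt _).fun_comp hf.fderiv)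

/-- transformation rule of the Gram determinant -/
theorem grd_trans {m : ℕ} {f : Cm n → Cm n} {ζ : Cm n} (hf : AnalyticAt ℂ f ζ) {v : Cm n → H}
    (hv : AnalyticAt ℂ v (f ζ)) {V : Cm n → H'} (hV : AnalyticAt ℂ V ζ)
    (h : ∀ᶠ z in 𝓝 ζ, ‖v (f z)‖ ^ 2 * (‖(fderiv ℂ f z).det‖ ^ 2) ^ m = ‖V z‖ ^ 2) :
    (gm (frame V ζ)).det.re =
      (gm (frame v (f ζ))).det.re * (‖(fderiv ℂ f ζ).det‖ ^ 2) ^ (m * (n + 1) + 1) := by
  set g : Cm n → ℂ := fun z => (fderiv ℂ f z).det ^ m with hg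
  have hgan : AnalyticAt ℂ g ζ := (an_det hf).fun_pow m
  have hw : AnalyticAt ℂ (fun z => g z • v (f z)) ζ := hgan.fun_smul (hv.fun_comp hf)
  have h1 : brd (fun y => ‖V y‖ ^ 2) ζ = brd (fun y => ‖g y • v (f y)‖ ^ 2) ζ := by
    refine brd_congr ?_
    filter_upwards [h] with z hz
    rw [← hz, norm_smul, hg, norm_pow]
    ring
  rw [brd_normSq hV, brd_normSq hw] at h1
  rw [h1, frame_trans hf.differentiableAt hgan.differentiableAt hv.differentiableAt, gm_comb_det,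
    Matrix.det_fromBlocks_zero₂₁, Matrix.det_unique, Matrix.det_smul, Jm_det, Fintype.card_fin,
    mul_comm]
  congr 1
  simp only [Matrix.of_apply, hg, norm_mul, norm_pow]
  ring

/-- the map `z ↦ P (v z) (frame v z)` -/
lemma an_seg {K : Type} [NormedAddCommGroup K] [InnerProductSpace ℂ K] {H : Type}
    [NormedAddCommGroup H] [InnerProductSpace ℂ H] [CompleteSpace H] (W : WMap H (Unit ⊕ Fin n) K)
    {v : Cm n → H} {z : Cm n} (hv : AnalyticAt ℂ v z) :
    AnalyticAt ℂ (fun y => W.P (v y) (frame v y)) z := by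
  refine W.an v (frame v) z hv fun i => ?_
  rcases i with i | i
  · exact hv
  · exact an_fderiv_apply hv _

lemma norm_P {ι : Type} [Fintype ι] [DecidableEq ι] {K : Type} [NormedAddCommGroup K]
    [InnerProductSpace ℂ K] {H : Type} [NormedAddCommGroup H] [InnerProductSpace ℂ H]
    (W : WMap H ι K) (a : H) (u : ι → H) : ‖W.P a u‖ ^ 2 = ‖a‖ ^ 2 * (gm u).det.re := by
  have h1 : ((‖W.P a u‖ ^ 2 : ℝ) : ℂ) = ((‖a‖ ^ 2 : ℝ) : ℂ) * (gm u).det := by
    rw [ofReal_normSq, W.inner_P, ofReal_normSq]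
    rfl
  have h2 := congrArg Complex.re h1
  rwa [Complex.ofReal_re, Complex.re_ofReal_mul] at h2

/-- immersivity of `v ⊗ (v ∧ ∂v)` -/
theorem imm_seg {K : Type} [NormedAddCommGroup K] [InnerProductSpace ℂ K] [CompleteSpace K]
    {H : Type} [NormedAddCommGroup H] [InnerProductSpace ℂ H] [CompleteSpace H]
    (W : WMap H (Unit ⊕ Fin n) K) {v : Cm n → H} {z : Cm n} (hv : AnalyticAt ℂ v z)
    (h0 : (gm (frame v z)).det.re ≠ 0) (ξ : Cm n) (c : ℂ)
    (hξ : fderiv ℂ (fun y => W.P (v y) (frame v y)) z ξ = c • W.P (v z) (frame v z)) : ξ = 0 := by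
  have hli := (li_iff _).2 h0
  -- inner product with `P a (frame v z)`, `a ⊥ v z`
  have key : ∀ a : H, ⟪a, v z⟫_ℂ = 0 → ⟪a, fderiv ℂ v z ξ⟫_ℂ = 0 := by
    intro a ha
    set D : Cm n → ℂ := fun y => (Matrix.of fun i j => ⟪frame v z i, frame v y j⟫_ℂ).det with hD
    have hDan : DifferentiableAt ℂ D z := by
      have h1 : D = fun y => ∑ σ : Equiv.Perm (Unit ⊕ Fin n), ((Equiv.Perm.sign σ : ℤ) : ℂ) *
          ∏ i, ⟪frame v z (σ i), frame v y i⟫_ℂ := by
        funext y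
        rw [hD]
        simp only
        rw [Matrix.det_apply']
        rfl
      rw [h1]
      refine AnalyticAt.differentiableAt ?_
      refine Finset.analyticAt_fun_sum _ fun σ _ => ?_
      refine analyticAt_const.mul (Finset.analyticAt_fun_prod _ fun i _ => ?_)
      have h2 : AnalyticAt ℂ (fun y => frame v y i) z := by
        rcases i with i | i
        · exact hv
        · exact an_fderiv_apply hv _
      exact ((innerSL ℂ (frame v z (σ i))).analyticAt _).fun_comp h2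
    have hP : DifferentiableAt ℂ (fun y => W.P (v y) (frame v y)) z :=
      (an_seg W hv).differentiableAt
    have e1 : (fun y => ⟪W.P a (frame v z), W.P (v y) (frame v y)⟫_ℂ) =
        fun y => ⟪a, v y⟫_ℂ * D y := by
      funext y; rw [W.inner_P]
    have hL : HasFDerivAt (fun y => ⟪W.P a (frame v z), W.P (v y) (frame v y)⟫_ℂ)
        ((innerSL ℂ (W.P a (frame v z))).comp
          (fderiv ℂ (fun y => W.P (v y) (frame v y)) z)) z :=
      (innerSL ℂ (W.P a (frame v z))).hasFDerivAt.comp z hP.hasFDerivAt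
    have hR : HasFDerivAt (fun y => ⟪a, v y⟫_ℂ * D y)
        (⟪a, v z⟫_ℂ • fderiv ℂ D z +
          D z • ((innerSL ℂ a).comp (fderiv ℂ v z))) z :=
      ((innerSL ℂ a).hasFDerivAt.comp z hv.differentiableAt.hasFDerivAt).mul hDan.hasFDerivAt
    rw [← e1] at hR
    have e2 := congrArg (fun L : Cm n →L[ℂ] ℂ => L ξ) (hL.unique hR)
    simp only [ContinuousLinearMap.comp_apply, _root_.add_apply, _root_.smul_apply, smul_eq_mul,
      innerSL_apply_apply] at e2
    rw [hξ, inner_smul_right, W.inner_P, ha, zero_mul, mul_zero, zero_mul, zero_add] at e2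
    have h3 : D z ≠ 0 := by
      intro h4
      apply h0
      have h5 : (gm (frame v z)).det = D z := rfl
      rw [h5, h4]; simp
    exact (mul_eq_zero.1 e2.symm).resolve_left h3
  -- so `D_ξ v` is a multiple of `v`
  have hv0 : v z ≠ 0 := by
    intro h1
    exact hli.ne_zero (Sum.inl PUnit.unit) h1
  obtain ⟨c', hc'⟩ : ∃ c' : ℂ, fderiv ℂ v z ξ = c' • v z := by
    have hvv : ⟪v z, v z⟫_ℂ ≠ 0 := inner_self_ne_zero.2 hv0
    refine ⟨⟪v z, fderiv ℂ v z ξ⟫_ℂ / ⟪v z, v z⟫_ℂ, ?_⟩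
    set c' : ℂ := ⟪v z, fderiv ℂ v z ξ⟫_ℂ / ⟪v z, v z⟫_ℂ with hc
    set a : H := fderiv ℂ v z ξ - c' • v z with hadef
    have h1 : ⟪v z, a⟫_ℂ = 0 := by
      rw [hadef, inner_sub_right, inner_smul_right, hc, div_mul_cancel₀ _ hvv, sub_self]
    have h2 : ⟪a, v z⟫_ℂ = 0 := by
      rw [← inner_conj_symm, h1, map_zero]
    have h3 := key a h2
    have h4 : ⟪a, a⟫_ℂ = 0 := by
      have : ⟪a, fderiv ℂ v z ξ - c' • v z⟫_ℂ = 0 := by
        rw [inner_sub_right, inner_smul_right, h3, h2, mul_zero, sub_zero]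
      rwa [← hadef] at this
    have h5 := inner_self_eq_zero.1 h4
    rwa [hadef, sub_eq_zero] at h5
  exact imm_of_li hli ξ c' hc'

end

lemma jacM_det_eq {n : ℕ} {Z : Type*} [TopologicalSpace Z] [ChartedSpace (Cm n) Z]
    [IsManifold 𝓘(ℂ, Cm n) ω Z] {e e' : Chart n Z} {x : Z} (h : At e x) (h' : At e' x) :
    (jacM e e' x).det = (fderiv ℂ (fun z => e' (e.symm z)) (e x)).det := by
  rw [← Jm_det]
  congr 1
  ext p i
  rw [jacM_eq, jmat_apply (transition_differentiableAt h h')]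
  rfl

theorem seg : SegStmt := by
  intro n m Z _ _ _ H _ _ _ N hN hI H' _ _ _ V hV
  obtain ⟨K, i1, i2, i3, ⟨W⟩⟩ := exists_wmap H (Unit ⊕ Fin n)
  obtain ⟨K', j1, j2, j3, ⟨W'⟩⟩ := exists_wmap H' (Unit ⊕ Fin n)
  have hVan : ∀ z, AnalyticAt ℂ V z := fun z =>
    Vale.Agent.P268.analyticAt_of_differentiableOn isOpen_univ hV.differentiableOn (Set.mem_univ z)
  -- local form of `segN`
  have hloc : ∀ (e : Chart n Z) (z : Cm n) (v : Cm n → H), AnalyticAt ℂ v z →
      (∀ᶠ y in 𝓝 z, N e y = ‖v y‖ ^ 2) →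
      segN N e z = ‖v z‖ ^ 2 * (gm (frame v z)).det.re := by
    intro e z v hv h
    unfold segN
    rw [brd_of hv h, h.self_of_nhds]
  have hloc' : ∀ (e : Chart n Z) (z : Cm n) (v : Cm n → H), AnalyticAt ℂ v z →
      (∀ᶠ y in 𝓝 z, N e y = ‖v y‖ ^ 2) →
      ∀ᶠ y in 𝓝 z, segN N e y = ‖W.P (v y) (frame v y)‖ ^ 2 := by
    intro e z v hv h
    filter_upwards [hv.eventually_analyticAt, eventually_eventually_nhds.2 h] with y hy1 hy2
    rw [hloc e y v hy1 hy2, norm_P]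
  have hne : ∀ (e : Chart n Z) (z : Cm n) (v : Cm n → H), AnalyticAt ℂ v z →
      (∀ᶠ y in 𝓝 z, N e y = ‖v y‖ ^ 2) → N e z ≠ 0 →
      (∀ (ξ : Cm n) (c : ℂ), fderiv ℂ v z ξ = c • v z → ξ = 0) → segN N e z ≠ 0 := by
    intro e z v hv h h0 him
    have hv0 : v z ≠ 0 := by
      intro h1
      apply h0
      rw [h.self_of_nhds, h1]; simp
    rw [hloc e z v hv h]
    exact mul_ne_zero (by positivity) ((li_iff _).1 (frame_li hv0 him))
  have himm : HImm n Z K (segN N) := by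
    intro e x hx h0
    obtain ⟨v, hv, h⟩ := hN.loc e x hx
    rw [hloc e (e x) v hv h] at h0
    have h1 : (gm (frame v (e x))).det.re ≠ 0 := right_ne_zero_of_mul h0
    exact ⟨fun y => W.P (v y) (frame v y), an_seg W hv, hloc' e (e x) v hv h,
      fun ξ c hξ => imm_seg W hv h1 ξ c hξ⟩
  refine ⟨K, i1, i2, i3, K', j1, j2, j3, fun z => W'.P (V z) (frame V z), ⟨?_, ?_⟩, himm, ?_, ?_, ?_,
    ?_, ?_⟩
  · intro e x hx
    obtain ⟨v, hv, h⟩ := hN.loc e x hx
    exact ⟨fun y => W.P (v y) (frame v y), an_seg W hv, hloc' e (e x) v hv h⟩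
  · intro e e' x hx hx'
    obtain ⟨v, hv, h⟩ := hN.loc e x hx
    obtain ⟨v', hv', h'⟩ := hN.loc e' x hx'
    set T : Cm n → Cm n := fun z => e' (e.symm z) with hT
    have hTx : T (e x) = e' x := by rw [hT]; simp only; rw [hx.left_inv]
    have hTan : AnalyticAt ℂ T (e x) := (transition hx hx').analyticAt
    have hv'' : AnalyticAt ℂ v' (T (e x)) := by rw [hTx]; exact hv'
    have hrel : ∀ᶠ z in 𝓝 (e x), ‖v' (T z)‖ ^ 2 * (‖(fderiv ℂ T z).det‖ ^ 2) ^ m = ‖v z‖ ^ 2 := by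
      have h2 : ∀ᶠ z in 𝓝 (e x), N e' (T z) = ‖v' (T z)‖ ^ 2 := by
        have := hTan.continuousAt.eventually (p := fun y => N e' y = ‖v' y‖ ^ 2)
          (by rw [hTx]; exact h')
        exact this
      filter_upwards [h, h2, hx.nhds_at hx'] with z hz1 hz2 hz3
      have h3 := hN.change e e' (e.symm z) hz3.2.1 hz3.2.2
      rw [e.right_inv hz3.1, jacM_det_eq hz3.2.1 hz3.2.2, e.right_inv hz3.1] at h3
      rw [← hz1, h3, ← hz2]
    have h4 := grd_trans hTan hv'' hv hrel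
    have h5 := hrel.self_of_nhds
    rw [hloc e (e x) v hv h, hloc e' (e' x) v' hv' h', h4, ← h5, jacM_det_eq hx hx', hTx]
    ring
  · obtain ⟨e, x, hx, h0, v, hv, h, him⟩ := hI
    have h1 := hne e (e x) v hv h h0 him
    obtain ⟨v₁, hv₁, h₁, him₁⟩ := himm e x hx h1
    exact ⟨e, x, hx, h1, v₁, hv₁, h₁, him₁⟩
  · intro z
    exact (an_seg W' (hVan z)).differentiableAt
  · intro ζ e f hb
    have hat : At e (e.symm (f ζ)) := At.of_target hb.mem hb.tgt
    obtain ⟨v, hv, h⟩ := hN.loc e _ hat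
    rw [e.right_inv hb.tgt] at hv h
    refine ⟨hb.mem, hb.tgt, hb.an, ?_⟩
    have hrel : ∀ᶠ z in 𝓝 ζ, ‖v (f z)‖ ^ 2 * (‖(fderiv ℂ f z).det‖ ^ 2) ^ m = ‖V z‖ ^ 2 := by
      filter_upwards [hb.eq, hb.an.continuousAt.eventually h] with z hz1 hz2
      rw [← hz2, hz1]
    have hvan : ∀ᶠ z in 𝓝 ζ, AnalyticAt ℂ v (f z) :=
      hb.an.continuousAt.eventually hv.eventually_analyticAt
    have hNv : ∀ᶠ z in 𝓝 ζ, ∀ᶠ y in 𝓝 (f z), N e y = ‖v y‖ ^ 2 :=
      hb.an.continuousAt.eventually (eventually_eventually_nhds.2 h)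
    filter_upwards [hb.an.eventually_analyticAt, hvan, hNv, eventually_eventually_nhds.2 hrel]
      with z hz1 hz2 hz3 hz4
    have h4 := grd_trans hz1 hz2 (hVan z) hz4
    rw [hloc e (f z) v hz2 hz3, norm_P, h4, ← hz4.self_of_nhds]
    ring
  · intro ζ h0 him h1
    have h2 := norm_P W' (V ζ) (frame V ζ)
    have h1' : W'.P (V ζ) (frame V ζ) = 0 := h1
    rw [h1'] at h2
    have h3 : ‖V ζ‖ ^ 2 * (gm (frame V ζ)).det.re ≠ 0 :=
      mul_ne_zero (by positivity) ((li_iff _).1 (frame_li h0 him))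
    apply h3
    rw [← h2]; simp
  · rintro e x hx h0 ⟨v, hv, h, him⟩
    exact hne e (e x) v hv h h0 him

/-- SEG + KL + KO -/
theorem noBranch (hKL : KLStmt) (hKO : KOStmt) : NoBranchStmt := by
  intro n m hn hm Z _ _ _ _ _ _ w hw hpos H _ _ _ N hN hI H' _ _ _ V hV ζ e f hb h0 him
  obtain ⟨K, i1, i2, i3, K', j1, j2, j3, V₁, h1, h2, h3, h4, h5, h6, -⟩ :=
    seg n m Z H N hN hI H' V hV
  obtain ⟨M, τ, C, -, -, hτ, hC⟩ := hKL n (m * (n + 2) + 1) hn (by omega) Z w hw hpos K (segN N)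
    h1 h3
  exact hKO n (m * (n + 2) + 1) M hn (by omega) Z w hw hpos τ hτ K (segN N) h1 h2 C hC K' V₁ h4 ζ e f
    (h5 ζ e f hb) (h6 ζ h0 him)

end Vale.Agent.P284.H553
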