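import Vale.Agent.P284.H553.Seg2
import Vale.Agent.P284.H837.BrS

/-!
# P284 (helper553), T1', piece (M4): the Segre transform over an open set
-/

open scoped Manifold ContDiff Topology ComplexOrder InnerProductSpace
open Filter Matrix

noncomputable section

namespace Vale.Agent.P284.H553

open Vale.Agent.P272.K Vale.Agent.P272.KOD Vale.Agent.P284.H812 Vale.Agent.P284.H451
  Vale.Agent.P284.H213.KL Vale.Agent.P284.H837 Vale.Agent.P284.H573

/-- **(M4)** -/
theorem m4Stmt : M4Stmt := by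
  intro n m Z _ _ _ H _ _ _ N hN B hB V hV hI
  obtain ⟨K', j1, j2, j3, ⟨W'⟩⟩ := exists_wmap H (Unit ⊕ Fin n)
  have hVan : ∀ z ∈ B, AnalyticAt ℂ V z := fun z hz =>
    Vale.Agent.P268.analyticAt_of_differentiableOn hB hV hz
  have hloc : ∀ (e : Chart n Z) (z : Cm n) (v : Cm n → H), AnalyticAt ℂ v z →
      (∀ᶠ y in 𝓝 z, N e y = ‖v y‖ ^ 2) →
      segN N e z = ‖v z‖ ^ 2 * (gm (frame v z)).det.re := by
    intro e z v hv h
    unfold segN
    rw [brd_of hv h, h.self_of_nhds]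
  refine ⟨K', j1, j2, j3, fun z => W'.P (V z) (frame V z), ?_, ?_, fun z => norm_P _ _ _, ?_⟩
  · intro z hz
    exact (an_seg W' (hVan z hz)).differentiableAt.differentiableWithinAt
  · intro z hz
    have h1 : (gm (frame V z)).det.re ≠ 0 := (li_iff _).1 (frame_li (hI z hz).1 (hI z hz).2)
    refine ⟨?_, fun ξ c hξ => imm_seg W' (hVan z hz) h1 ξ c hξ⟩
    intro h2
    have h3 := norm_P W' (V z) (frame V z)
    have h2' : W'.P (V z) (frame V z) = 0 := h2
    rw [h2', norm_zero, zero_pow two_ne_zero] at h3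
    have h4 : (0 : ℝ) < ‖V z‖ ^ 2 := by
      have := norm_pos_iff.2 (hI z hz).1
      positivity
    exact (mul_ne_zero h4.ne' h1) h3.symm
  · intro ζ hζ e f hb
    have hat : At e (e.symm (f ζ)) := At.of_target hb.mem hb.tgt
    obtain ⟨v, hv, h⟩ := hN.loc e _ hat
    rw [e.right_inv hb.tgt] at hv h
    refine ⟨hb.mem, hb.tgt, hb.an, ?_⟩
    have hrel : ∀ᶠ z in 𝓝 ζ, ‖v (f z)‖ ^ 2 * (‖(fderiv ℂ f z).det‖ ^ 2) ^ m = ‖V z‖ ^ 2 := by
      filter_upwards [hb.eq, hb.an.continuousAt.eventually h] with z hz1 hz2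
      rw [← hz2, hz1]
    have hvan : ∀ᶠ z in 𝓝 ζ, AnalyticAt ℂ v (f z) :=
      hb.an.continuousAt.eventually hv.eventually_analyticAt
    have hNv : ∀ᶠ z in 𝓝 ζ, ∀ᶠ y in 𝓝 (f z), N e y = ‖v y‖ ^ 2 :=
      hb.an.continuousAt.eventually (eventually_eventually_nhds.2 h)
    filter_upwards [hb.an.eventually_analyticAt, hvan, hNv, eventually_eventually_nhds.2 hrel,
      hB.mem_nhds hζ] with z hz1 hz2 hz3 hz4 hz5
    have h4 := grd_trans hz1 hz2 (hVan z hz5) hz4
    rw [hloc e (f z) v hz2 hz3, norm_P, h4, ← hz4.self_of_nhds]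
    ring

end Vale.Agent.P284.H553
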