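import Vale.Agent.P284.H553.LB3

/-!
# P284 (helper553), T1', module LB: existence of primitive local generators of the line
-/

open scoped Manifold ContDiff Topology
open Filter Set

noncomputable section

namespace Vale.Agent.P284.H553.LB

open Vale.Agent.P272.K Vale.Agent.P284.H573 Vale.Agent.P284.H248 Vale.Agent.P284.H221

variable {n R m : ℕ} {X E : Type} [TopologicalSpace X] [ChartedSpace (Cm n) X] [TopologicalSpace E]
  {H : Type} [NormedAddCommGroup H] [InnerProductSpace ℂ H] {p : E → X}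
  {v : E → Chart n X → (Fin R → Cm n) → H}

/-- pass from a neighbourhood in `X` to one in the chart -/
theorem ev_chart {e : Chart n X} {x : X} (he : At e x) {P : X → Prop} (h : ∀ᶠ x' in 𝓝 x, P x') :
    ∀ᶠ z in 𝓝 (e x), P (e.symm z) := by
  have h1 : ContinuousAt e.symm (e x) := e.continuousAt_symm (e.map_source he.2)
  refine h1.eventually ?_
  rwa [he.left_inv]

/-- pass from a neighbourhood in the chart to one in `X` -/
theorem ev_space {e : Chart n X} {x : X} (he : At e x) {P : Cm n → Prop}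
    (h : ∀ᶠ z in 𝓝 (e x), P z) : ∀ᶠ x' in 𝓝 x, P (e x') :=
  (e.continuousAt he.2).eventually h

theorem ev_at {e : Chart n X} {x : X} (he : At e x) : ∀ᶠ x' in 𝓝 x, At e x' := by
  filter_upwards [e.open_source.mem_nhds he.2] with x' hx' using ⟨he.1, hx'⟩

theorem ev_at' {e : Chart n X} {x : X} (he : At e x) :
    ∀ᶠ z in 𝓝 (e x), z ∈ e.target ∧ At e (e.symm z) ∧ e (e.symm z) = z := by
  filter_upwards [e.open_target.mem_nhds (e.map_source he.2)] with z hz
  exact ⟨hz, ⟨he.1, e.map_target hz⟩, e.right_inv hz⟩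

/-- pass from `E` to `X` -/
theorem ev_base (hp : IsCoveringMap p) {y : E} {P : E → Prop} (h : ∀ᶠ y' in 𝓝 y, P y') :
    ∀ᶠ x' in 𝓝 (p y), ∃ y', p y' = x' ∧ P y' := by
  rw [← hp.isLocalHomeomorph.map_nhds_eq y, eventually_map]
  filter_upwards [h] with y' hy' using ⟨y', rfl, hy'⟩

/-- good points form an open set -/
theorem goodX_open [CompleteSpace H] (hp : IsCoveringMap p) {x : X} (hx : x ∈ GoodX p R m v) :
    ∀ᶠ x' in 𝓝 x, x' ∈ GoodX p R m v := by
  obtain ⟨y, hy, e, b, γ, hnf⟩ := hx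
  rw [← hy]
  filter_upwards [ev_base hp (nf_eventually hp.continuous hnf)] with x' hx'
  obtain ⟨y', h1, h2⟩ := hx'
  exact ⟨y', h1, e, b, γ, h2⟩

/-- a normal form near a point -/
theorem nf_near [CompleteSpace H] (hp : IsCoveringMap p) {y : E} {e : Chart n X} {b : Cm n → Cm R}
    {γ : Cm R → H} (h : IsNF m p v y e b γ) :
    ∀ᶠ z in 𝓝 (e (p y)), ∃ y', p y' = e.symm z ∧ IsNF m p v y' e b γ :=
  ev_chart h.mem (ev_base hp (nf_eventually hp.continuous h))

theorem onL_DF {y : E} {e : Chart n X} {b : Cm n → Cm R} {γ : Cm R → H}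
    (h : IsNF m p v y e b γ) : OnL p m v (p y) e (DF b (e (p y))) :=
  ⟨y, b, γ, rfl, h, 1, fun ξ => by rw [one_mul, DF_apply]⟩

theorem OnL.smul {x : X} {e : Chart n X} {θ : VV n R} (h : OnL p m v x e θ) (a : ℂ) :
    OnL p m v x e (a • θ) := by
  obtain ⟨y, b, γ, hy, hnf, c, hc⟩ := h
  refine ⟨y, b, γ, hy, hnf, a * c, fun ξ => ?_⟩
  rw [AlternatingMap.smul_apply, smul_eq_mul, hc, mul_assoc]

/-- the good points are dense in the charts -/
theorem good_freq {x : X} {e : Chart n X} (he : At e x) (hT : ThinC n (GoodX p R m v)) :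
    ∃ᶠ z in 𝓝 (e x), e.symm z ∈ GoodX p R m v := by
  obtain ⟨h, h1, h2, h3⟩ := hT x e he
  intro hcon
  refine h2 ?_
  filter_upwards [ev_chart he h3, hcon, ev_at' he] with z a1 a2 a3
  have := a1 a2
  rwa [a3.2.2] at this

variable [IsManifold 𝓘(ℂ, Cm n) ω X]

/-- the line is closed -/
theorem onL_of_freq [CompleteSpace H] (hv : HForm n R m p H v) (hp : IsCoveringMap p) (hm : 1 ≤ m)
    {x : X} {e : Chart n X} (he : At e x) (hx : x ∈ GoodX p R m v) {om : Cm n → VV n R}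
    (hom : AnV om (e x)) (h : ∃ᶠ z in 𝓝 (e x), OnL p m v (e.symm z) e (om z)) :
    OnL p m v x e (om (e x)) := by
  obtain ⟨y, hy, e', b', γ, hnf'⟩ := hx
  subst hy
  have hnf := nf_change hv hp.continuous hnf' he
  set b : Cm n → Cm R := fun z => b' (e' (e.symm z)) with hb
  obtain ⟨ξ₀, hξ₀⟩ := exists_rinv hnf.bsurj
  have hD := DF_anV hnf.ban
  have hD1 : DF b (e (p y)) ξ₀ = 1 := by
    rw [DF_apply, DM_eq, LM_rinv hξ₀, Matrix.det_one]
  refine ⟨y, b, γ, rfl, hnf, om (e (p y)) ξ₀, fun ξ => ?_⟩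
  have h1 : om (e (p y)) ξ * DF b (e (p y)) ξ₀ = om (e (p y)) ξ₀ * DF b (e (p y)) ξ := by
    refine Prim.eq_of_freq (f := fun z => om z ξ * DF b z ξ₀) (f' := fun z => om z ξ₀ * DF b z ξ)
      ((hom.eval ξ).mul (hD.eval ξ₀)).continuousAt ((hom.eval ξ₀).mul (hD.eval ξ)).continuousAt h ?_
    filter_upwards [nf_near hp hnf, ev_at' he] with z hz hz2 hz3
    obtain ⟨y', hy', hnf2⟩ := hz
    have h2 := onL_DF hnf2
    rw [hy', hz2.2.2] at h2
    exact onL_prop hv hm hz3 h2 ξ ξ₀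
  rw [hD1, mul_one] at h1
  rw [h1, DF_apply]

/-- a primitive form does not vanish at the good points -/
theorem IsFr.ne_zero [CompleteSpace H] (hv : HForm n R m p H v) (hp : IsCoveringMap p) (hm : 1 ≤ m)
    {x : X} {e : Chart n X} (he : At e x) (hx : x ∈ GoodX p R m v) {om : Cm n → VV n R}
    (hom : IsFr om (e x)) (h : ∀ᶠ z in 𝓝 (e x), e.symm z ∈ GoodX p R m v →
      OnL p m v (e.symm z) e (om z)) : om (e x) ≠ 0 := by
  obtain ⟨y, hy, e', b', γ, hnf'⟩ := hx
  subst hy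
  have hnf := nf_change hv hp.continuous hnf' he
  set b : Cm n → Cm R := fun z => b' (e' (e.symm z)) with hb
  obtain ⟨ξ₀, hξ₀⟩ := exists_rinv hnf.bsurj
  have hD := DF_anV hnf.ban
  have hD1 : DF b (e (p y)) ξ₀ = 1 := by
    rw [DF_apply, DM_eq, LM_rinv hξ₀, Matrix.det_one]
  intro h0
  set c : Cm n → ℂ := fun z => om z ξ₀ with hc
  have hcan : AnalyticAt ℂ c (e (p y)) := hom.an.eval ξ₀
  have hprop : ∀ᶠ z in 𝓝 (e (p y)), om z ≠ 0 → c z ≠ 0 := by
    filter_upwards [nf_near hp hnf, ev_at' he, h,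
      (hD.eval ξ₀).continuousAt.eventually_ne (by rw [hD1]; exact one_ne_zero)]
      with z hz hz2 hz3 hz4 hz5 hz6
    obtain ⟨y', hy', hnf2⟩ := hz
    have h2 := onL_DF hnf2
    rw [hy', hz2.2.2] at h2
    have h3 := hz3 ⟨y', hy', e, b, γ, hnf2⟩
    obtain ⟨J, hJ⟩ := VV_ne hz5
    have h4 := onL_prop hv hm h3 h2 (eJ J) ξ₀
    have h5 : om z ξ₀ = 0 := hz6
    rw [h5, zero_mul] at h4
    rcases mul_eq_zero.1 h4 with h6 | h6
    · exact hJ h6
    · exact hz4 h6
  obtain ⟨c', hc', hcc⟩ := hom.rmv ℂ (fun z => (c z)⁻¹) (by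
    filter_upwards [hprop, hcan.eventually_analyticAt] with z h1 h2 h3
    exact h2.inv (h1 h3))
  have h1 : c (e (p y)) * c' (e (p y)) = 1 := by
    refine Prim.eq_of_freq (f := fun z => c z * c' z) (f' := fun _ => (1 : ℂ))
      (hcan.mul hc').continuousAt continuousAt_const hom.fr ?_
    filter_upwards [hprop, hcc] with z h1 h2 h3
    rw [← h2 h3, mul_inv_cancel₀ (h1 h3)]
  have h2 : c (e (p y)) = 0 := by
    rw [hc]
    simp only
    rw [h0]
    rfl
  rw [h2, zero_mul] at h1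
  exact zero_ne_one h1

end Vale.Agent.P284.H553.LB
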