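import Vale.Agent.P284.H837.BrS
import Vale.Agent.P284.H212.Cont
import Vale.Agent.P284.H553.LB4
import Vale.Agent.P284.H573.HNF

/-!
# P284 (helper553), T1', piece (M1): multiplicity of the branches from local finiteness
-/

open scoped Manifold ContDiff Topology ComplexOrder
open Filter Set Metric

noncomputable section

namespace Vale.Agent.P284.H553.M1

open Vale.Agent.P272.K Vale.Agent.P272.KOD Vale.Agent.P284.H573 Vale.Agent.P284.H812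
  Vale.Agent.P284.H451 Vale.Agent.P284.H553 Vale.Agent.P284.H619 Vale.Agent.P284.H894
  Vale.Agent.P284.H894.G Vale.Agent.P284.H553.LB Vale.Agent.P284.H837

variable {n R q m : ℕ} {X E Γ Z : Type} [TopologicalSpace X] [ChartedSpace (Cm n) X]
  [TopologicalSpace E] [Group Γ] [MulAction Γ E] [TopologicalSpace Z] [ChartedSpace (Cm R) Z]
  {H : Type} [NormedAddCommGroup H] [InnerProductSpace ℂ H] {p : E → X}
  {v : E → Chart n X → (Fin R → Cm n) → H} {F : E → Cm q} {c : Γ → Cm q} {j : Z → X}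
  [IsManifold 𝓘(ℂ, Cm n) ω X] [IsManifold 𝓘(ℂ, Cm R) ω Z] {γ : Cm R → H} {t : Cm R → Cm q}

/-- a branch is a local coordinate system where `γ ≠ 0` -/
theorem bij_of (D : Dat n R q m X E Γ H p v F c) (hj : ContMDiff 𝓘(ℂ, Cm R) 𝓘(ℂ, Cm n) ω j)
    {β : Cm R} {f : Cm R → Z} {l : Cm R → E} (h : BrL p v F j γ t β f l) (h0 : γ β ≠ 0)
    {k : Chart R Z} (hk : At k (f β)) :
    Function.Bijective (fderiv ℂ (fun z => k (f z)) β) := by
  have h1 := h.isBranch D.hv hj D.gal.cov.isLocalHomeomorph D.gal.surj hk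
  have h2 := h1.eq.self_of_nhds
  refine bij_of_det_ne fun h4 => ?_
  rw [h4, norm_zero, zero_pow two_ne_zero, zero_pow (by have := D.hm; omega), mul_zero] at h2
  have := norm_pos_iff.2 h0
  nlinarith

/-- comparison of two branches with the same value -/
theorem cmp (D : Dat n R q m X E Γ H p v F c) (hj : ContMDiff 𝓘(ℂ, Cm R) 𝓘(ℂ, Cm n) ω j)
    {β β₁ : Cm R} {f f₁ : Cm R → Z} {l l₁ : Cm R → E} (h : BrL p v F j γ t β f l)
    (h₁ : BrL p v F j γ t β₁ f₁ l₁) (hx : f₁ β₁ = f β) (h0 : γ β ≠ 0) (h01 : γ β₁ ≠ 0) :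
    ∃ (g : Γ) (φ : Cm R → Cm R), AnalyticAt ℂ φ β ∧ φ β = β₁ ∧ map φ (𝓝 β) = 𝓝 β₁ ∧
      (∀ᶠ z in 𝓝 β, f₁ (φ z) = f z) ∧ ∀ᶠ z in 𝓝 β, g • l z = l₁ (φ z) := by
  set k : Chart R Z := chartAt (Cm R) (f β) with hkdef
  have hk : At k (f β) := ⟨chart_mem_atlas _ _, mem_chart_source _ _⟩
  have hk₁ : At k (f₁ β₁) := by rw [hx]; exact hk
  have hfan : AnalyticAt ℂ (fun z => k (f z)) β := analyticAt_chart_map h.hol hk
  have hfan₁ : AnalyticAt ℂ (fun z => k (f₁ z)) β₁ := analyticAt_chart_map h₁.hol hk₁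
  obtain ⟨ψ, p1, p2, p3, p4, p5⟩ := exists_linv hfan₁ (bij_of D hj h₁ h01 hk₁)
  obtain ⟨-, -, -, -, -, q5⟩ := exists_linv hfan (bij_of D hj h h0 hk)
  simp only [hx] at p1 p2 p4 p5
  set φ : Cm R → Cm R := fun z => ψ (k (f z)) with hφ
  have hφan : AnalyticAt ℂ φ β := AnalyticAt.comp (g := ψ) (f := fun z => k (f z)) p1 hfan
  have hφβ : φ β = β₁ := p2
  have hmap : map φ (𝓝 β) = 𝓝 β₁ := by
    have h1 : map ψ (𝓝 (k (f β))) = 𝓝 β₁ := by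
      rw [← p5, map_map]
      have h2 : (ψ ∘ fun z => k (f₁ z)) =ᶠ[𝓝 β₁] id := p3
      rw [map_congr h2, map_id]
    rw [← h1, ← q5, map_map]
    rfl
  have hff : ∀ᶠ z in 𝓝 β, f₁ (φ z) = f z := by
    have h1 : ∀ᶠ z in 𝓝 β, k (f₁ (φ z)) = k (f z) := hfan.continuousAt.eventually p4
    have h2 : ∀ᶠ z in 𝓝 β, f z ∈ k.source :=
      h.hol.continuousAt.eventually_mem (k.open_source.mem_nhds hk.2)
    have h3 : ∀ᶠ z in 𝓝 β, f₁ (φ z) ∈ k.source := by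
      have h4 : ContinuousAt (fun z => f₁ (φ z)) β :=
        ContinuousAt.comp (g := f₁) (f := φ) (by rw [hφβ]; exact h₁.hol.continuousAt)
          hφan.continuousAt
      refine h4.eventually_mem (k.open_source.mem_nhds ?_)
      rw [hφβ]
      exact hk₁.2
    filter_upwards [h1, h2, h3] with z a1 a2 a3
    exact k.injOn a3 a2 a1
  have hpl : p (l β) = p (l₁ β₁) := by
    rw [h.lift.self_of_nhds, h₁.lift.self_of_nhds, hx]
  obtain ⟨g, hg⟩ := (D.gal.orb _ _).1 hpl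
  refine ⟨g, φ, hφan, hφβ, hmap, hff, ?_⟩
  have hpg : ∀ y, p (g • y) = p y := fun y => ((D.gal.orb y (g • y)).2 ⟨g, rfl⟩).symm
  refine lift_unique (p := p) (l := fun z => g • l z) (l' := fun z => l₁ (φ z))
    D.gal.cov.isLocalHomeomorph ((D.gal.cont g).continuousAt.comp h.cont)
    (ContinuousAt.comp (g := l₁) (f := φ) (by rw [hφβ]; exact h₁.cont) hφan.continuousAt)
    (by rw [hφβ]; exact hg) ?_
  have hφt : Tendsto φ (𝓝 β) (𝓝 β₁) := by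
    have := hφan.continuousAt.tendsto
    rwa [hφβ] at this
  have h1 : ∀ᶠ z in 𝓝 β, p (l₁ (φ z)) = j (f₁ (φ z)) := hφt.eventually h₁.lift
  filter_upwards [h.lift, h1, hff] with z a1 a2 a3
  rw [hpg, a1, a2, a3]

/-- the relation between the values -/
theorem cmp_val (D : Dat n R q m X E Γ H p v F c) (hj : ContMDiff 𝓘(ℂ, Cm R) 𝓘(ℂ, Cm n) ω j)
    {β β₁ : Cm R} {f f₁ : Cm R → Z} {l l₁ : Cm R → E} (h : BrL p v F j γ t β f l)
    (h₁ : BrL p v F j γ t β₁ f₁ l₁) {g : Γ} {φ : Cm R → Cm R} (hφ : AnalyticAt ℂ φ β)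
    (hφβ : φ β = β₁) (hl : ∀ᶠ z in 𝓝 β, g • l z = l₁ (φ z)) {U : H →ₗᵢ[ℂ] H}
    (hU : ∀ y e, At e (p y) → ∀ ξ, v (g • y) e ξ = U (v y e ξ)) :
    (∀ᶠ z in 𝓝 β, U (γ z) = (fderiv ℂ φ z).det ^ m • γ (φ z)) ∧
      ∀ᶠ z in 𝓝 β, t (φ z) = t z + c g := by
  have hpg : ∀ (g : Γ) y, p (g • y) = p y := fun g y =>
    ((D.gal.orb y (g • y)).2 ⟨g, rfl⟩).symm
  have hloc := D.gal.cov.isLocalHomeomorph
  have hφt : Tendsto φ (𝓝 β) (𝓝 β₁) := by
    have := hφ.continuousAt.tendsto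
    rwa [hφβ] at this
  have h1 : ∀ᶠ z in 𝓝 β, BrL p v F j γ t (φ z) f₁ l₁ := hφt.eventually (h₁.ev hj hloc)
  constructor
  · filter_upwards [h1, h.val, hl.eventually_nhds, hφ.eventually_analyticAt] with z a1 a2 a3 a4
    have b1 := VE_comp D.hv (l := l₁) a4 (a1.hol_lift hj)
    have b2 := VE_smul (p := p) (v := v) hpg hU (l := l) (z := z)
    have b3 : VE p v (fun z => g • l z) z = VE p v (fun z => l₁ (φ z)) z := VE_congr a3
    rw [b2, b1, a2, a1.val.self_of_nhds] at b3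
    exact b3
  · filter_upwards [h1, h.fval, hl] with z a1 a2 a3
    rw [← a1.fval.self_of_nhds, ← a3, D.per, a2]

omit [IsManifold 𝓘(ℂ, Cm n) ω X] in
/-- The translate is on the sheet. -/
theorem sh_of (D : Dat n R q m X E Γ H p v F c) {β β₁ : Cm R} {g : Γ} {φ : Cm R → Cm R}
    (hφ : AnalyticAt ℂ φ β) (hφβ : φ β = β₁) {U : H →ₗᵢ[ℂ] H}
    (hU : ∀ y e, At e (p y) → ∀ ξ, v (g • y) e ξ = U (v y e ξ))
    (h1 : ∀ᶠ z in 𝓝 β, U (γ z) = (fderiv ℂ φ z).det ^ m • γ (φ z))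
    (h2 : ∀ᶠ z in 𝓝 β, t (φ z) = t z + c g) {y : E} {e : Chart n X} {b : Cm n → Cm R}
    (he : At e (p y)) (hb : AnalyticAt ℂ b (e (p y))) (hβ : b (e (p y)) = β)
    (hnf : ∀ᶠ y' in 𝓝 y, ∀ ξ : Fin R → Cm n, v y' e ξ =
      (Matrix.of fun i j => fderiv ℂ b (e (p y')) (ξ j) i).det ^ m • γ (b (e (p y'))))
    (hF : ∀ᶠ y' in 𝓝 y, F y' = t (b (e (p y')))) :
    Sh0 p v F γ t (g • y) β₁ := by
  have hpg : ∀ (g : Γ) y, p (g • y) = p y := fun g y =>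
    ((D.gal.orb y (g • y)).2 ⟨g, rfl⟩).symm
  have hby : ContinuousAt (fun y' => b (e (p y'))) y :=
    ContinuousAt.comp (g := b) (f := fun y' => e (p y')) hb.continuousAt
      (ContinuousAt.comp (g := e) (f := p) (e.continuousAt he.2)
        D.gal.cov.continuous.continuousAt)
  have hbt : Tendsto (fun y' => b (e (p y'))) (𝓝 y) (𝓝 β) := by
    have := hby.tendsto
    rwa [hβ] at this
  have h1' : ∀ᶠ y' in 𝓝 y, U (γ (b (e (p y')))) =
      (fderiv ℂ φ (b (e (p y')))).det ^ m • γ (φ (b (e (p y')))) := hbt.eventually h1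
  have h2' : ∀ᶠ y' in 𝓝 y, t (φ (b (e (p y')))) = t (b (e (p y'))) + c g := hbt.eventually h2
  have he' : ∀ᶠ y' in 𝓝 y, At e (p y') := by
    filter_upwards [D.gal.cov.continuous.continuousAt.eventually_mem
      (e.open_source.mem_nhds he.2)] with y' hy' using ⟨he.1, hy'⟩
  refine ⟨e, fun z => φ (b z), by rw [hpg]; exact he, ?_, ?_, ?_⟩
  · rw [hpg]
    exact AnalyticAt.comp (g := φ) (f := b) (by rw [hβ]; exact hφ) hb
  · rw [hpg]
    simp only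
    rw [hβ, hφβ]
  · have h3 : Tendsto (fun y' : E => g⁻¹ • y') (𝓝 (g • y)) (𝓝 y) := by
      have := (D.gal.cont g⁻¹).tendsto (g • y)
      rwa [inv_smul_smul] at this
    filter_upwards [h3.eventually hnf, h3.eventually hF, h3.eventually h1', h3.eventually h2',
      h3.eventually he'] with y' a1 a2 a3 a4 a5
    have a6 : p (g⁻¹ • y') = p y' := hpg _ _
    have a7 : g • g⁻¹ • y' = y' := smul_inv_smul g y'
    rw [a6] at a1 a2 a3 a4
    constructor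
    · intro ξ
      refine ⟨(Matrix.of fun i j => fderiv ℂ b (e (p y')) (ξ j) i).det ^ m *
        (fderiv ℂ φ (b (e (p y')))).det ^ m, ?_⟩
      rw [← a7, hU _ _ a5, a1, map_smul, a3, a7, smul_smul]
    · rw [← a7, D.per, a2, a7, a4]

/-- **(M1)** -/
theorem m1Stmt : M1Stmt := by
  classical
  intro n R q m X E Γ _ _ _ _ _ _ H _ _ _ p v F c D hL Z _ _ _ j hj y₀ e b γ t hN
  obtain ⟨S, hSF, hSv, hS⟩ := hL
  obtain ⟨r₁, hr₁, U₀, hU₀, hfin⟩ := hS y₀ e b γ t hN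
  set b₀ : Cm R := b (e (p y₀)) with hb₀
  set T : Set (Γ ⧸ S) := {a : Γ ⧸ S | ∃ g : Γ, (g : Γ ⧸ S) = a ∧ ∃ y ∈ U₀, ∃ x ∈ ball b₀ r₁,
          Sh0 p v F γ t (g⁻¹ • y) x} with hT
  obtain ⟨C, -⟩ := H212.exists_pc hN.nf.γan hN.nf.imm one_pos
  have hcov := D.gal.cov
  -- points of `E` over the points near `b₀`
  have hpt : ∀ᶠ β in 𝓝 b₀, ∃ y, (y ∈ U₀ ∧ At e (p y) ∧ AnalyticAt ℂ b (e (p y)) ∧
      (∀ᶠ y' in 𝓝 y, ∀ ξ : Fin R → Cm n, v y' e ξ =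
        (Matrix.of fun i j => fderiv ℂ b (e (p y')) (ξ j) i).det ^ m • γ (b (e (p y')))) ∧
      ∀ᶠ y' in 𝓝 y, F y' = t (b (e (p y')))) ∧ b (e (p y)) = β := by
    have h1 : map (fun y => b (e (p y))) (𝓝 y₀) = 𝓝 b₀ := by
      have h2 : map p (𝓝 y₀) = 𝓝 (p y₀) := hcov.isLocalHomeomorph.map_nhds_eq y₀
      have h3 : map e (𝓝 (p y₀)) = 𝓝 (e (p y₀)) := e.map_nhds_eq hN.nf.mem.2
      have h4 : map b (𝓝 (e (p y₀))) = 𝓝 b₀ :=
        hN.nf.ban.hasStrictFDerivAt.map_nhds_eq_of_surj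
          (LinearMap.range_eq_top.2 hN.nf.bsurj)
      rw [← h4, ← h3, ← h2, map_map, map_map]
      rfl
    rw [← h1, eventually_map]
    have hey : Tendsto (fun y => e (p y)) (𝓝 y₀) (𝓝 (e (p y₀))) :=
      H221.tendsto_chart hcov.continuous hN.nf.mem
    filter_upwards [hU₀, hcov.continuous.continuousAt.eventually_mem
      (e.open_source.mem_nhds hN.nf.mem.2), hey.eventually hN.nf.ban.eventually_analyticAt,
      hN.nf.nf.eventually_nhds, hN.eq.eventually_nhds] with y a1 a2 a3 a4 a5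
    exact ⟨y, ⟨a1, ⟨hN.nf.mem.1, a2⟩, a3, a4, a5⟩, rfl⟩
  have hγ0 : ∀ᶠ β in 𝓝 b₀, γ β ≠ 0 := hN.nf.γan.continuousAt.eventually_ne hN.nf.imm.1
  have hbr : ∀ᶠ β in 𝓝 b₀, β ∈ ball b₀ r₁ := ball_mem_nhds b₀ hr₁
  have hbC : ∀ᶠ β in 𝓝 b₀, β ∈ ball b₀ C.r₁ := ball_mem_nhds b₀ C.r₁_pos
  obtain ⟨r, hr, hball⟩ := Metric.eventually_nhds_iff_ball.1 (hpt.and (hγ0.and (hbr.and hbC)))
  refine ⟨r, hr, T.ncard, fun x => ?_⟩
  set A : Set ((b : Cm R) × Germ (𝓝 b) Z) :=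
    {a | a.1 ∈ ball b₀ r ∧ a.2 ∈ BrG p v F j γ t a.1 ∧ a.2.value = x} with hA
  rcases A.eq_empty_or_nonempty with hA0 | ⟨a₀, ha₀⟩
  · rw [hA0, encard_empty]
    exact bot_le
  obtain ⟨ha₀B, ⟨f, l, hfl, hfg⟩, hav⟩ := ha₀
  have hfx : f a₀.1 = x := by rw [← hav, hfg]; rfl
  obtain ⟨y, ⟨y1, y2, y3, y4, y5⟩, y6⟩ := (hball a₀.1 ha₀B).1
  have hch : ∀ a ∈ A, ∃ (g : Γ) (φ : Cm R → Cm R) (f₁ : Cm R → Z) (U : H →ₗᵢ[ℂ] H),
      (∀ y e, At e (p y) → ∀ ξ, v (g • y) e ξ = U (v y e ξ)) ∧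
      a.2 = (f₁ : Germ (𝓝 a.1) Z) ∧ AnalyticAt ℂ φ a₀.1 ∧ φ a₀.1 = a.1 ∧
      map φ (𝓝 a₀.1) = 𝓝 a.1 ∧ (∀ᶠ z in 𝓝 a₀.1, f₁ (φ z) = f z) ∧
      (∀ᶠ z in 𝓝 a₀.1, U (γ z) = (fderiv ℂ φ z).det ^ m • γ (φ z)) ∧
      (∀ᶠ z in 𝓝 a₀.1, t (φ z) = t z + c g) := by
    rintro a ⟨haB, ⟨f₁, l₁, hfl₁, hfg₁⟩, hav₁⟩
    have hfx₁ : f₁ a.1 = x := by rw [← hav₁, hfg₁]; rfl
    obtain ⟨g, φ, k1, k2, k3, k4, k5⟩ := cmp D hj hfl hfl₁ (hfx₁.trans hfx.symm)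
      (hball a₀.1 ha₀B).2.1 (hball a.1 haB).2.1
    obtain ⟨U, hU⟩ := D.eqv g
    obtain ⟨k6, k7⟩ := cmp_val D hj hfl hfl₁ k1 k2 k5 hU
    exact ⟨g, φ, f₁, U, hU, hfg₁, k1, k2, k3, k4, k6, k7⟩
  choose! g φ f₁ U hU hfg₁ hφ hφa hmap hff hval hper using hch
  have hmaps : MapsTo (fun a => (((g a)⁻¹ : Γ) : Γ ⧸ S)) A T := by
    intro a ha
    refine ⟨(g a)⁻¹, rfl, y, y1, a.1, (hball a.1 ha.1).2.2.1, ?_⟩
    rw [inv_inv]
    exact sh_of D (hφ a ha) (hφa a ha) (hU a ha) (hval a ha) (hper a ha) y2 y3 y6 y4 y5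
  have hinj : InjOn (fun a => (((g a)⁻¹ : Γ) : Γ ⧸ S)) A := by
    intro a ha a' ha' haa
    have hs : g a * (g a')⁻¹ ∈ S := by
      have h1 := QuotientGroup.eq.1 haa
      rwa [inv_inv] at h1
    have hUU : ∀ᶠ z in 𝓝 a₀.1, U a (γ z) = U a' (γ z) := by
      have h1 : ∀ y e, At e (p y) → ∀ ξ, v (g a • y) e ξ = v (g a' • y) e ξ := by
        intro y e he ξ
        have h2 : p (g a' • y) = p y := ((D.gal.orb y (g a' • y)).2 ⟨g a', rfl⟩).symm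
        have h3 := hSv _ hs (g a' • y) e (by rw [h2]; exact he) ξ
        rwa [smul_smul, inv_mul_cancel_right] at h3
      filter_upwards [hfl.val] with z h2
      have h3 := hU a ha (l z) _ ⟨chart_mem_atlas (Cm n) (p (l z)), mem_chart_source _ _⟩
        (fun i => fderiv ℂ (fun z' => chartAt (Cm n) (p (l z)) (p (l z'))) z (Pi.single i 1))
      have h4 := hU a' ha' (l z) _ ⟨chart_mem_atlas (Cm n) (p (l z)), mem_chart_source _ _⟩
        (fun i => fderiv ℂ (fun z' => chartAt (Cm n) (p (l z)) (p (l z'))) z (Pi.single i 1))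
      rw [h1 _ _ ⟨chart_mem_atlas (Cm n) (p (l z)), mem_chart_source _ _⟩, h4] at h3
      rw [← h2]
      exact h3.symm
    have hφt : Tendsto (φ a) (𝓝 a₀.1) (𝓝 a.1) := by
      have := (hφ a ha).continuousAt.tendsto
      rwa [hφa a ha] at this
    have hφt' : Tendsto (φ a') (𝓝 a₀.1) (𝓝 a'.1) := by
      have := (hφ a' ha').continuousAt.tendsto
      rwa [hφa a' ha'] at this
    have hφφ : ∀ᶠ z in 𝓝 a₀.1, φ a z = φ a' z := by
      filter_upwards [hUU, hval a ha, hval a' ha',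
        (isOpen_ball.mem_nhds ha₀B : ∀ᶠ z in 𝓝 a₀.1, z ∈ ball b₀ r),
        hφt.eventually (isOpen_ball.mem_nhds (hball a.1 ha.1).2.2.2),
        hφt'.eventually (isOpen_ball.mem_nhds (hball a'.1 ha'.1).2.2.2)] with z b1 b2 b3 b4 b5 b6
      have h0 : γ z ≠ 0 := (hball z b4).2.1
      have h1 : U a (γ z) ≠ 0 := fun h => h0 ((U a).injective (by rw [h, map_zero]))
      have hd : (fderiv ℂ (φ a) z).det ^ m ≠ 0 := by
        intro h
        rw [b2, h, zero_smul] at h1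
        exact h1 rfl
      have hd' : (fderiv ℂ (φ a') z).det ^ m ≠ 0 := by
        intro h
        rw [b1, b3, h, zero_smul] at h1
        exact h1 rfl
      refine C.inj b5 b6 (a := ((fderiv ℂ (φ a) z).det ^ m)⁻¹ * (fderiv ℂ (φ a') z).det ^ m)
        (mul_ne_zero (inv_ne_zero hd) hd') ?_
      rw [mul_smul, ← b3, ← b1, b2, smul_smul, inv_mul_cancel₀ hd, one_smul]
    have haa1 : a.1 = a'.1 := by
      rw [← hφa a ha, ← hφa a' ha']
      exact hφφ.self_of_nhds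
    have hf : ∀ᶠ w in 𝓝 a.1, f₁ a ha w = f₁ a' ha' w := by
      rw [← hmap a ha, eventually_map]
      filter_upwards [hφφ, hff a ha, hff a' ha'] with z b1 b2 b3
      rw [b2, b1, b3]
    obtain ⟨a1, a2⟩ := a
    obtain ⟨a1', a2'⟩ := a'
    simp only at haa1
    subst haa1
    have h2 : a2 = a2' := by
      have e1 := hfg₁ ⟨a1, a2⟩ ha
      have e2 := hfg₁ ⟨a1, a2'⟩ ha'
      simp only at e1 e2
      rw [e1, e2]
      exact Germ.coe_eq.2 hf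
    rw [h2]
  calc A.encard ≤ T.encard := encard_le_encard_of_injOn hmaps hinj
    _ = T.ncard := hfin.cast_ncard_eq.symm

end Vale.Agent.P284.H553.M1
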