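import Vale.Agent.P284.H553.LB8
import Vale.Agent.P284.H206.BogS
import Vale.Agent.P284.H174.GoodD

/-!
# P284 (helper553), T1', module LB: the line bundle is generically decomposable; special manifolds
-/

open scoped Manifold ContDiff Topology
open Filter Set Metric

noncomputable section

namespace Vale.Agent.P284.H553.LB

open Vale.Agent.P272.K Vale.Agent.P284.H573 Vale.Agent.P284.H248 Vale.Agent.P284.H221
  Vale.Agent.P284.H206

variable {n R m : ℕ} {X E : Type} [TopologicalSpace X] [ChartedSpace (Cm n) X] [TopologicalSpace E]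
  {H : Type} [NormedAddCommGroup H] [InnerProductSpace ℂ H] {p : E → X}
  {v : E → Chart n X → (Fin R → Cm n) → H} [IsManifold 𝓘(ℂ, Cm n) ω X]

/-- the morphism is decomposable at the good points -/
theorem Dat.decAt [CompleteSpace H] (D : Dat p R m v) (hv : HForm n R m p H v)
    (hp : IsCoveringMap p) (hm : 1 ≤ m) (hT : ThinC n (GoodX p R m v)) {x : X}
    (hg : x ∈ GoodX p R m v) : DecAt (D.mor hT) x := by
  have hi : x ∈ D.U x := D.mem x
  have he := D.mat x x hi
  obtain ⟨y, hy, e', b', γ, hnf'⟩ := hg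
  subst hy
  have hnf := nf_change hv hp.continuous hnf' he
  set b : Cm n → Cm R := fun z => b' (e' ((chartAt (Cm n) (p y)).symm z)) with hb
  obtain ⟨c, hc, hcc⟩ := exists_coef hv hm hT he (D.fr_near hi) (θ := DF b) (DF_anV hnf.ban) (by
    filter_upwards [nf_near hp hnf, ev_at' he] with z h1 h2 _
    obtain ⟨y', hy', hnf'⟩ := h1
    have h3 := onL_DF hnf'
    rwa [hy', h2.2.2] at h3)
  obtain ⟨ξ₀, hξ₀⟩ := exists_rinv hnf.bsurj
  have hD1 : DF b (chartAt (Cm n) (p y) (p y)) ξ₀ = 1 := by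
    rw [DF_apply, DM_eq, LM_rinv hξ₀, Matrix.det_one]
  have hc0 : c (chartAt (Cm n) (p y) (p y)) ≠ 0 := by
    intro h0
    have h1 := hcc.self_of_nhds
    rw [h0, zero_smul] at h1
    rw [h1] at hD1
    exact zero_ne_one hD1
  refine ⟨p y, chartAt (Cm n) (p y), he, hi, fun z => (c z)⁻¹, b, hc.inv hc0, inv_ne_zero hc0,
    hnf.ban, hnf.bsurj, ?_⟩
  filter_upwards [hcc, hc.continuousAt.eventually_ne hc0, ev_at' he] with z h1 h2 h3 ξ
  have h4 : (D.mor hT).form (p y) (chartAt (Cm n) (p y)) z = D.om (p y) z := by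
    have h5 := PB_self (om := D.om (p y)) h3.2.1
    rw [h3.2.2] at h5
    exact h5
  rw [h4]
  have h5 : (Matrix.of fun i j => fderiv ℂ b z (ξ j) i).det = DF b z ξ := (DF_apply b z ξ).symm
  rw [h5, h1, AlternatingMap.smul_apply, smul_eq_mul, ← mul_assoc, inv_mul_cancel₀ h2, one_mul]

/-- the line bundle of a natural form with its sections; the morphism is decomposable at the good
points -/
theorem lb_dec [CompleteSpace H] (hv : HForm n R m p H v) (hp : IsCoveringMap p)
    (hsp : Function.Surjective p) (hm : 1 ≤ m) (hT : ThinC n (GoodX p R m v)) :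
    ∃ (L : LineBundle n X) (φ : Mor L R), (∀ x ∈ GoodX p R m v, DecAt φ x) ∧
      (∀ i e x, At e x → x ∈ L.U i → x ∈ GoodX p R m v → φ.form i e (e x) ≠ 0) ∧
      ∀ (k : ℕ) (s : X → Chart n X → (Fin R → Cm n) → ℂ), LSec p R m k v s →
        ∃ σ : Sec L k, ∀ i e x, At e x → x ∈ L.U i → x ∈ GoodX p R m v → ∀ ξ,
          s x e ξ = σ.f i x * φ.form i e (e x) ξ ^ k := by
  obtain ⟨D⟩ := exists_dat hv hp hsp hm hT
  exact ⟨D.L hT, D.mor hT, fun x hg => D.decAt hv hp hm hT hg,
    fun i e x he hi hg => D.PB_ne he hi hg, fun k s hs => D.exists_sec hv hp hm hT hs⟩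

omit [IsManifold 𝓘(ℂ, Cm n) ω X] in
theorem goodX_dense (hT : ThinC n (GoodX p R m v)) : Dense (GoodX p R m v) := fun _ =>
  mem_closure_iff_frequently.2 (good_freqX hT)

/-- `N + 1` sections with independent ratios, and generic decomposability -/
theorem iit_dec [CompleteSpace H] (hv : HForm n R m p H v) (hp : IsCoveringMap p)
    (hsp : Function.Surjective p) (hm : 1 ≤ m) (hT : ThinC n (GoodX p R m v)) {k N : ℕ}
    (hk : 1 ≤ k) {s : Fin (N + 1) → X → Chart n X → (Fin R → Cm n) → ℂ}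
    (hs : ∀ a, LSec p R m k v (s a)) {x : X} (hx : x ∈ GoodX p R m v) {e : Chart n X}
    {ξ : Fin R → Cm n} (he : At e x) (h0 : s 0 x e ξ ≠ 0)
    (hli : LinearIndependent ℂ fun a : Fin N =>
      fderiv ℂ (fun z => s a.succ (e.symm z) e ξ / s 0 (e.symm z) e ξ) (e x)) :
    ∃ (L : LineBundle n X) (φ : Mor L R), φ.Nonzero ∧ Dense {x | DecAt φ x} ∧ IitakaGE L N := by
  obtain ⟨L, φ, hdec, hφ, hsec⟩ := lb_dec hv hp hsp hm hT
  choose σ hσ using fun a => hsec k (s a) (hs a)
  obtain ⟨i, hi⟩ := L.cover x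
  refine ⟨L, φ, ⟨i, e, x, he, hi, hφ i e x he hi hx⟩, (goodX_dense hT).mono hdec,
    k, hk, σ, i, e, x, he, hi, ?_, ?_⟩
  · intro h1
    apply h0
    rw [hσ 0 i e x he hi hx ξ, h1, zero_mul]
  · have h1 : φ.form i e (e x) ξ ≠ 0 := by
      intro h1
      apply h0
      rw [hσ 0 i e x he hi hx ξ, h1, zero_pow (by omega), mul_zero]
    have h2 : ∀ᶠ z in 𝓝 (e x), φ.form i e z ξ ≠ 0 :=
      (φ.holo i e x he hi ξ).continuousAt.eventually_ne h1
    have h3 : ∀ a : Fin N, fderiv ℂ (fun z => (σ a.succ).f i (e.symm z) / (σ 0).f i (e.symm z)) (e x) =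
        fderiv ℂ (fun z => s a.succ (e.symm z) e ξ / s 0 (e.symm z) e ξ) (e x) := by
      intro a
      refine Filter.EventuallyEq.fderiv_eq ?_
      filter_upwards [h2, ev_chart he (goodX_open hp hx), ev_at' he,
        ev_chart he ((L.isOpen i).mem_nhds hi)] with z h4 h5 h6 h7
      have h8 := hσ a.succ i e _ h6.2.1 h7 h5 ξ
      have h9 := hσ 0 i e _ h6.2.1 h7 h5 ξ
      rw [h6.2.2] at h8 h9
      rw [h8, h9, mul_div_mul_right _ _ (pow_ne_zero _ h4)]
    simp only [h3]
    exact hli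

/-- **The consumer form for special manifolds**: `R + 1` sections of the `k`-th power of the line of
`v` cannot have `R` independent ratios. -/
theorem sp_false [CompleteSpace H] [PreconnectedSpace E] [T2Space X] [CompactSpace X]
    (hB : BogStmt) {ι : Type} [Fintype ι] (hPJ : Vale.Agent.P284.H998.PJ n X ι)
    (hX : Special n X) (hR : 1 ≤ R) (hv : HForm n R m p H v) (hp : IsCoveringMap p)
    (hsp : Function.Surjective p) (hm : 1 ≤ m) {k : ℕ}
    (hk : 1 ≤ k) {s : Fin (R + 1) → X → Chart n X → (Fin R → Cm n) → ℂ}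
    (hs : ∀ a, LSec p R m k v (s a)) {x : X} (hx : x ∈ GoodX p R m v) {e : Chart n X}
    {ξ : Fin R → Cm n} (he : At e x) (h0 : s 0 x e ξ ≠ 0)
    (hli : LinearIndependent ℂ fun a : Fin R =>
      fderiv ℂ (fun z => s a.succ (e.symm z) e ξ / s 0 (e.symm z) e ξ) (e x)) : False := by
  obtain ⟨y, hy, e', b, γ, hnf⟩ := id hx
  have hRn : R ≤ n := by
    have h1 := LinearMap.finrank_le_finrank_of_surjective
      (f := (fderiv ℂ b (e' (p y))).toLinearMap) hnf.bsurj
    simpa using h1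
  have hT := Vale.Agent.P284.H174.GD.goodX_thin hv hp hsp (y₀ := y) ⟨e', b, γ, hnf⟩
  obtain ⟨L, φ, h1, h2, h3⟩ := iit_dec hv hp hsp hm hT hk hs hx he h0 hli
  exact hX R hR hRn L ⟨h3, hB n R X ι hPJ L φ h2⟩ φ h1

end Vale.Agent.P284.H553.LB
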