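import Vale.Agent.P284.H553.Prim5

/-!
# P284 (helper553), T1', module LB (F1): the primitive part of a family of holomorphic functions

`prim`: a finite family `h j` of germs of holomorphic functions, not all zero, is `g • om j` with a
holomorphic germ `g` and a family `om j` whose common zeros are removable singularities, without any
bound, for holomorphic functions with values in any Banach space (their set has codimension two).
-/

open Set Filter Metric Topology Polynomial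

namespace Vale.Agent.P284.H553.Prim

open Vale.Agent.P281.MF (differentiableOn_circleIntegral analyticAt_of_differentiableOn extend_off)

variable {ι : Type*} {E : Type} [NormedAddCommGroup E] [NormedSpace ℂ E]

/-- near `x`, the common zeros of the `om j` are removable singularities of holomorphic functions -/
def Rmv (om : ι → E → ℂ) (x : E) : Prop :=
  ∀ (F : Type) [NormedAddCommGroup F] [NormedSpace ℂ F] [CompleteSpace F] (c : E → F),
    (∀ᶠ z in 𝓝 x, (∃ j, om j z ≠ 0) → AnalyticAt ℂ c z) →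
    ∃ c' : E → F, AnalyticAt ℂ c' x ∧ ∀ᶠ z in 𝓝 x, (∃ j, om j z ≠ 0) → c z = c' z

theorem eq_of_freq {E : Type} [TopologicalSpace E] {F : Type*} [TopologicalSpace F] [T2Space F]
    {f f' : E → F} {x : E} {P : E → Prop} (hf : ContinuousAt f x) (hf' : ContinuousAt f' x) (hP : ∃ᶠ z in 𝓝 x, P z)
    (h : ∀ᶠ z in 𝓝 x, P z → f z = f' z) : f x = f' x := by
  by_contra hne
  have h4 : ∀ᶠ z in 𝓝 x, (f z, f' z) ∈ (diagonal F)ᶜ :=
    (hf.prodMk hf').eventually (isClosed_diagonal.isOpen_compl.mem_nhds hne)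
  obtain ⟨z, h1, h2, h3⟩ := (hP.and_eventually (h.and h4)).exists
  exact h3 (h2 h1)

/-- identity theorem on a ball -/
theorem freq_ne [CompleteSpace E] {δ : E → ℂ} {x₀ : E} {r : ℝ}
    (hδ : AnalyticOnNhd ℂ δ (ball x₀ r)) {z₁ : E} (hz₁ : z₁ ∈ ball x₀ r) (h1 : δ z₁ ≠ 0) {x : E}
    (hx : x ∈ ball x₀ r) : ∃ᶠ z in 𝓝 x, δ z ≠ 0 := by
  intro hcon
  simp only [not_not] at hcon
  exact h1 (hδ.eqOn_zero_of_preconnected_of_eventuallyEq_zero (convex_ball x₀ r).isPreconnected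
    hx hcon hz₁)

/-- **The primitive part.** -/
theorem prim [FiniteDimensional ℂ E] [Finite ι] {h : ι → E → ℂ} {x₀ : E}
    (hh : ∀ j, AnalyticAt ℂ (h j) x₀) {j0 : ι} (hne : ¬ ∀ᶠ x in 𝓝 x₀, h j0 x = 0) :
    ∃ (g : E → ℂ) (om : ι → E → ℂ), AnalyticAt ℂ g x₀ ∧ (∀ j, AnalyticAt ℂ (om j) x₀) ∧
      (∀ᶠ x in 𝓝 x₀, ∀ j, h j x = g x * om j x) ∧ ∀ᶠ x in 𝓝 x₀, Rmv om x := by
  classical
  have : CompleteSpace E := FiniteDimensional.complete ℂ E
  obtain ⟨η, r, ρ, c, M, R, _⟩ := exists_rad hh hne (p := fun _ => True)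
    (Eventually.of_forall fun _ => trivial)
  have hr := R.hr
  have hρ := R.hρ
  -- the bound of the degree
  obtain ⟨N, hN⟩ : ∃ N : ℕ, M < c * (3 / 2) ^ (N + 1) := by
    obtain ⟨N, hN⟩ := pow_unbounded_of_one_lt (M / c) (show (1 : ℝ) < 3 / 2 by norm_num)
    refine ⟨N, ?_⟩
    rw [div_lt_iff₀ R.hc] at hN
    have h1 : (3 / 2 : ℝ) ^ N ≤ (3 / 2) ^ (N + 1) :=
      pow_le_pow_right₀ (by norm_num) (Nat.le_succ N)
    nlinarith [R.hc]
  have hex : ∀ z, ∃ Q : ℂ[X], z ∈ ball x₀ r → (IsGen h j0 η ρ z Q ∧ Q.natDegree ≤ N ∧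
      (∃ γ : ℂ → ℂ, (∀ t, ‖t‖ ≤ 2 * ρ → AnalyticAt ℂ γ t) ∧
        ∀ t, ‖t‖ ≤ 2 * ρ → h j0 (z + t • η) = γ t * Q.eval t) ∧
      (∀ t, ρ ≤ ‖t‖ → (ρ / 2) ^ Q.natDegree ≤ ‖Q.eval t‖) ∧
      (∀ t, ‖t‖ ≤ ρ → ‖Q.eval t‖ ≤ (2 * ρ) ^ Q.natDegree)) := by
    intro z
    by_cases hz : z ∈ ball x₀ r
    · obtain ⟨Q, hQ⟩ := R.exists_gen hN hz
      exact ⟨Q, fun _ => hQ⟩
    · exact ⟨1, fun h => absurd h hz⟩
  choose Qz hQz using hex
  -- the maximal degree
  obtain ⟨z₁, hz₁, hmax⟩ : ∃ z₁ ∈ ball x₀ r, ∀ z ∈ ball x₀ r,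
      (Qz z).natDegree ≤ (Qz z₁).natDegree := by
    set S : Set ℕ := (fun z => (Qz z).natDegree) '' ball x₀ r with hS
    have hSne : S.Nonempty := ⟨_, x₀, mem_ball_self hr, rfl⟩
    have hSb : BddAbove S := ⟨N, by
      rintro _ ⟨z, hz, rfl⟩
      exact (hQz z hz).2.1⟩
    obtain ⟨z₁, hz₁, h1⟩ := Nat.sSup_mem hSne hSb
    refine ⟨z₁, hz₁, fun z hz => ?_⟩
    change (Qz z₁).natDegree = sSup S at h1
    rw [h1]
    exact le_csSup hSb ⟨z, hz, rfl⟩
  have G : Gens h j0 x₀ η r ρ c M Qz (Qz z₁).natDegree :=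
    { toRad := R
      gen := fun z hz => (hQz z hz).1
      deg := hmax
      gam := fun z hz => (hQz z hz).2.2.1
      lo := fun z hz => (hQz z hz).2.2.2.1
      up := fun z hz => (hQz z hz).2.2.2.2 }
  obtain ⟨δ, hδ, hδ1, hδ2⟩ := R.sel hN (fun z hz => (hQz z hz).1) hmax hz₁ rfl
  have hδan : AnalyticOnNhd ℂ δ (ball x₀ r) := fun z hz =>
    analyticAt_of_differentiableOn isOpen_ball hδ hz
  have hfreq : ∀ x ∈ ball x₀ r, ∃ᶠ z in 𝓝 x, δ z ≠ 0 := fun x hx => freq_ne hδan hz₁ hδ1 hx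
  have hx₀ : x₀ ∈ ball x₀ r := mem_ball_self hr
  have hball : ∀ᶠ x in 𝓝 x₀, x ∈ ball x₀ r := isOpen_ball.mem_nhds hx₀
  -- the open set where everything is holomorphic
  set U : Set E := {z | z ∈ ball x₀ r ∧ δ z ≠ 0} with hU
  have hUo : IsOpen U := by
    rw [isOpen_iff_mem_nhds]
    rintro z ⟨hz1, hz2⟩
    filter_upwards [isOpen_ball.mem_nhds hz1, (hδan z hz1).continuousAt.eventually_ne hz2]
      with y h1 h2
    exact ⟨h1, h2⟩
  have hUb : U ⊆ ball x₀ r := fun z hz => hz.1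
  have hkd : ∀ z ∈ U, ∀ k, DifferentiableAt ℂ (fun z => (Qz z).coeff k) z := fun z hz =>
    (hδ2 z hz.1 hz.2).2
  have hWd := fun j => G.WW_diff hUo hUb hkd j
  have hGd := G.GG_diff hUo hUb hkd
  -- extension
  obtain ⟨g, hg, hgG⟩ := extend_off (h := GG h j0 η ρ Qz) (Den := δ) (x₀ := x₀) (hδan x₀ hx₀)
    (fun hcon => hfreq x₀ hx₀ (by simpa using hcon))
    (by
      filter_upwards [hball] with x hx hx0
      exact hGd.differentiableAt (hUo.mem_nhds ⟨hx, hx0⟩))
    (by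
      filter_upwards [hball] with x hx hx0
      refine subset_closure ⟨hx0, M / (ρ / 2) ^ (Qz z₁).natDegree, ?_⟩
      filter_upwards [isOpen_ball.mem_nhds hx] with z hz hz0
      exact G.GG_bd hz (hδ2 z hz hz0).1)
  have hexW : ∀ j, ∃ w : E → ℂ, AnalyticAt ℂ w x₀ ∧ ∀ᶠ x in 𝓝 x₀, δ x ≠ 0 →
      WW h j0 η ρ Qz j x = w x := fun j =>
    extend_off (h := WW h j0 η ρ Qz j) (Den := δ) (x₀ := x₀) (hδan x₀ hx₀)
      (fun hcon => hfreq x₀ hx₀ (by simpa using hcon))
      (by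
        filter_upwards [hball] with x hx hx0
        exact (hWd j).differentiableAt (hUo.mem_nhds ⟨hx, hx0⟩))
      (by
        filter_upwards [hball] with x hx hx0
        refine subset_closure ⟨hx0, (2 * ρ) ^ (Qz z₁).natDegree * M / c, ?_⟩
        filter_upwards [isOpen_ball.mem_nhds hx] with z hz hz0
        exact G.WW_bd hz (hδ2 z hz hz0).1 j)
  choose om hom homW using hexW
  -- a small ball
  have hall : ∀ᶠ x in 𝓝 x₀, x ∈ ball x₀ r ∧ AnalyticAt ℂ g x ∧ (∀ j, AnalyticAt ℂ (om j) x) ∧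
      (δ x ≠ 0 → GG h j0 η ρ Qz x = g x) ∧ (∀ j, δ x ≠ 0 → WW h j0 η ρ Qz j x = om j x) := by
    filter_upwards [hball, hg.eventually_analyticAt,
      eventually_all.2 fun j => (hom j).eventually_analyticAt, hgG, eventually_all.2 homW]
      with x h1 h2 h3 h4 h5
    exact ⟨h1, h2, h3, h4, h5⟩
  obtain ⟨r', hr', hb'⟩ := Metric.eventually_nhds_iff_ball.1 hall
  have hfac : ∀ x ∈ ball x₀ r', ∀ j, h j x = g x * om j x := by
    intro x hx j
    obtain ⟨h1, h2, h3, h4, h5⟩ := hb' x hx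
    refine eq_of_freq (f := h j) (f' := fun x => g x * om j x) (P := fun z => δ z ≠ 0) ?_
      (h2.continuousAt.mul (h3 j).continuousAt) (hfreq x h1) ?_
    · have := R.an x h1 0 (by rw [norm_zero]; positivity) j
      rw [zero_smul, add_zero] at this
      exact this.continuousAt
    · filter_upwards [isOpen_ball.mem_nhds hx] with z hz hz0
      obtain ⟨h6, h7, h8, h9, h10⟩ := hb' z hz
      rw [← h9 hz0, ← h10 j hz0]
      exact G.GG_mul h6 j
  refine ⟨g, om, hg, hom, ?_, ?_⟩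
  · filter_upwards [isOpen_ball.mem_nhds (mem_ball_self hr')] with x hx using hfac x hx
  filter_upwards [isOpen_ball.mem_nhds (mem_ball_self hr')] with x hx
  intro F _ _ _ cc hcc
  obtain ⟨hxb, hgx, homx, _, _⟩ := hb' x hx
  -- the open set where the function is holomorphic off the common zeros
  obtain ⟨O, hOcc, hOo, hxO⟩ := _root_.eventually_nhds_iff.1
    (hcc.and (isOpen_ball.mem_nhds hx : ∀ᶠ z in 𝓝 x, z ∈ ball x₀ r'))
  -- the radius
  have hisol := R.isol hxb 0 (by rw [norm_zero]; positivity)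
  obtain ⟨ε, hε, hερ, hεO, hεne⟩ : ∃ ε : ℝ, 0 < ε ∧ ε ≤ ρ / 2 ∧ (∀ t : ℂ, ‖t‖ ≤ ε → x + t • η ∈ O) ∧
      (∀ t : ℂ, t ≠ 0 → ‖t‖ ≤ ε → h j0 (x + t • η) ≠ 0) := by
    have h1 : ∀ᶠ t : ℂ in 𝓝 0, x + t • η ∈ O := by
      have hc : ContinuousAt (fun t : ℂ => x + t • η) 0 := by fun_prop
      refine hc.eventually (hOo.mem_nhds ?_)
      simpa using hxO
    obtain ⟨ε, hε, h2⟩ := Metric.eventually_nhds_iff_ball.1
      (h1.and (eventually_nhdsWithin_iff.1 hisol))
    refine ⟨min (ε / 2) (ρ / 2), by positivity, min_le_right _ _, fun t ht => ?_, fun t ht0 ht => ?_⟩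
    · exact (h2 t (mem_ball_zero_iff.2 ((ht.trans (min_le_left _ _)).trans_lt (by linarith)))).1
    · exact (h2 t (mem_ball_zero_iff.2 ((ht.trans (min_le_left _ _)).trans_lt
        (by linarith)))).2 ht0
  have hcont : Continuous fun p : E × ℂ => p.1 + p.2 • η := by fun_prop
  have hOan : ∀ z ∈ O, (∃ j, om j z ≠ 0) → AnalyticAt ℂ cc z := fun z hz => (hOcc z hz).1
  have hOb : ∀ z ∈ O, z ∈ ball x₀ r' := fun z hz => (hOcc z hz).2
  have hj0an : ∀ z ∈ ball x₀ r', AnalyticAt ℂ (h j0) z := by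
    intro z hz
    have := R.an z (hb' z hz).1 0 (by rw [norm_zero]; positivity) j0
    rwa [zero_smul, add_zero] at this
  -- the tube around the circle
  have hAo : IsOpen {p : E × ℂ | p.1 + p.2 • η ∈ O ∧ h j0 (p.1 + p.2 • η) ≠ 0 ∧ p.2 ≠ 0} := by
    rw [isOpen_iff_mem_nhds]
    rintro p ⟨hp1, hp2, hp3⟩
    have h1 : ContinuousAt (fun p : E × ℂ => h j0 (p.1 + p.2 • η)) p :=
      ContinuousAt.comp (g := h j0) (f := fun p : E × ℂ => p.1 + p.2 • η)
        (hj0an _ (hOb _ hp1)).continuousAt hcont.continuousAt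
    filter_upwards [hcont.continuousAt.eventually (hOo.mem_nhds hp1), h1.eventually_ne hp2,
      continuous_snd.continuousAt.eventually (isOpen_ne.mem_nhds hp3)] with q h2 h3 h4
    exact ⟨h2, h3, h4⟩
  obtain ⟨V, T, hV, hT, hxV, hsT, hVT⟩ := generalized_tube_lemma (isCompact_singleton (x := x))
    (isCompact_sphere (0 : ℂ) ε) hAo (by
      rintro ⟨z, t⟩ ⟨hz, ht⟩
      rw [mem_singleton_iff] at hz
      simp only at hz ht
      subst hz
      rw [mem_sphere_zero_iff_norm] at ht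
      have ht0 : t ≠ 0 := by
        rintro rfl
        rw [norm_zero] at ht
        exact hε.ne ht
      exact ⟨hεO t ht.le, hεne t ht0 ht.le, ht0⟩)
  obtain ⟨V', T', hV', hT', hxV', hsT', hVT'⟩ := generalized_tube_lemma
    (isCompact_singleton (x := x)) (isCompact_closedBall (0 : ℂ) ε) (hOo.preimage hcont) (by
      rintro ⟨z, t⟩ ⟨hz, ht⟩
      rw [mem_singleton_iff] at hz
      simp only at hz ht
      subst hz
      rw [mem_closedBall_zero_iff] at ht
      exact hεO t ht)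
  have hxVm : x ∈ V := hxV rfl
  have hxV'm : x ∈ V' := hxV' rfl
  set c' : E → F := fun z => (2 * Real.pi * Complex.I)⁻¹ • ∮ t in C(0, ε), t⁻¹ • cc (z + t • η)
    with hc'
  have hc'd : DifferentiableOn ℂ c' V := by
    refine DifferentiableOn.const_smul ?_ _
    refine differentiableOn_circleIntegral (E := E) (F := F) (c := 0) (R := ε) hε.le
      (G := fun p : E × ℂ => p.2⁻¹ • cc (p.1 + p.2 • η)) hV hT hsT ?_
    rintro p hp
    refine DifferentiableAt.differentiableWithinAt ?_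
    obtain ⟨h1, h2, h3⟩ := hVT hp
    have h4 : om j0 (p.1 + p.2 • η) ≠ 0 := by
      intro h0
      apply h2
      rw [hfac _ (hOb _ h1) j0, h0, mul_zero]
    have h5 : DifferentiableAt ℂ (fun p : E × ℂ => cc (p.1 + p.2 • η)) p :=
      DifferentiableAt.comp (g := cc) (f := fun p : E × ℂ => p.1 + p.2 • η) p
        (hOan _ h1 ⟨j0, h4⟩).differentiableAt (by fun_prop)
    exact (differentiableAt_snd.inv h3).smul h5
  have hc'an : ∀ z ∈ V, AnalyticAt ℂ c' z := fun z hz => analyticAt_of_differentiableOn hV hc'd hz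
  -- equality where `δ` does not vanish
  have heq : ∀ z ∈ V ∩ V', δ z ≠ 0 → cc z = c' z := by
    rintro z ⟨hzV, hzV'⟩ hz0
    have hzO : ∀ t : ℂ, ‖t‖ ≤ ε → z + t • η ∈ O := fun t ht =>
      hVT' (mk_mem_prod hzV' (hsT' (mem_closedBall_zero_iff.2 ht)))
    have hzb : z ∈ ball x₀ r := by
      have := hzO 0 (by rw [norm_zero]; exact hε.le)
      rw [zero_smul, add_zero] at this
      exact (hb' _ (hOb _ this)).1
    have hlb : ∀ t : ℂ, ‖t‖ ≤ ε → z + t • η ∈ ball x₀ r := fun t ht => (hb' _ (hOb _ (hzO t ht))).1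
    obtain ⟨φ, hφ1, hφ2⟩ := G.line hzb
    have hδl : AnalyticOnNhd ℂ (fun t : ℂ => δ (z + t • η)) (closedBall 0 ε) := fun t ht =>
      AnalyticAt.comp (g := δ) (f := fun t : ℂ => z + t • η)
        (hδan _ (hlb t (mem_closedBall_zero_iff.1 ht))) (line_an z t)
    have homφ : ∀ j (t : ℂ), ‖t‖ ≤ ε → om j (z + t • η) = φ j t := by
      intro j t ht
      have h1 : ∀ᶠ s in 𝓝[≠] t, δ (z + s • η) ≠ 0 := by
        rcases (hδl t (mem_closedBall_zero_iff.2 ht)).eventually_eq_zero_or_eventually_ne_zero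
          with h1 | h1
        · exfalso
          have h3 := hδl.eqOn_zero_of_preconnected_of_eventuallyEq_zero
            (convex_closedBall 0 ε).isPreconnected (mem_closedBall_zero_iff.2 ht) h1
          have h4 := h3 (mem_closedBall_self hε.le)
          simp only [zero_smul, add_zero, Pi.zero_apply] at h4
          exact hz0 h4
        · exact h1
      have hc1 : ContinuousAt (fun s : ℂ => om j (z + s • η)) t :=
        ContinuousAt.comp (g := om j) (f := fun s : ℂ => z + s • η)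
          ((hb' _ (hOb _ (hzO t ht))).2.2.1 j).continuousAt (by fun_prop)
      have hc2 : ContinuousAt (φ j) t := (hφ1 j t (by linarith)).continuousAt
      have h2 : ∀ᶠ s in 𝓝[≠] t, om j (z + s • η) = φ j s := by
        have hnear : ∀ᶠ s : ℂ in 𝓝 t, z + s • η ∈ O ∧ ‖s‖ ≤ ρ := by
          have hc3 : ContinuousAt (fun s : ℂ => z + s • η) t := by fun_prop
          refine (hc3.eventually (hOo.mem_nhds (hzO t ht))).and ?_
          filter_upwards [continuous_norm.continuousAt.eventually_lt_const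
            (show ‖t‖ < ρ by linarith)] with s hs using hs.le
        filter_upwards [h1, nhdsWithin_le_nhds hnear] with s hs1 hs2
        have hb2 := hb' _ (hOb _ hs2.1)
        rw [← hb2.2.2.2.2 j hs1]
        exact G.WW_line hzb hφ1 hφ2 hs2.2 hb2.1 j
      exact ((ContinuousAt.eventuallyEq_nhds_iff_eventuallyEq_nhdsNE hc1 hc2).1 h2).self_of_nhds
    have hcan : ∀ t : ℂ, ‖t‖ ≤ ε → DifferentiableAt ℂ (fun t : ℂ => cc (z + t • η)) t := by
      intro t ht
      have h1 : ∃ j, om j (z + t • η) ≠ 0 := by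
        by_contra hcon
        push Not at hcon
        refine G.nonzero (hlb t ht) fun j => ?_
        rw [G.WW_line hzb hφ1 hφ2 (by linarith) (hlb t ht) j, ← homφ j t ht, hcon j]
      exact DifferentiableAt.comp (g := cc) (f := fun t : ℂ => z + t • η) t
        (hOan _ (hzO t ht) h1).differentiableAt (by fun_prop)
    have := cauchy0 (φ := fun t : ℂ => cc (z + t • η)) hε hcan
    simp only [zero_smul, add_zero] at this
    rw [hc']
    exact this.symm
  refine ⟨c', hc'an x hxVm, ?_⟩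
  filter_upwards [(hV.inter hV').mem_nhds ⟨hxVm, hxV'm⟩, hOo.mem_nhds hxO] with z hz hzO hz1
  refine eq_of_freq (f := cc) (f' := c') (P := fun z => δ z ≠ 0)
    (hOan z hzO hz1).continuousAt (hc'an z hz.1).continuousAt (hfreq z (hb' z (hOb z hzO)).1) ?_
  filter_upwards [(hV.inter hV').mem_nhds hz] with z' hz' hz'0
  exact heq z' hz' hz'0

end Vale.Agent.P284.H553.Prim
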