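import Vale.Agent.P284.H553.LBS
import Vale.Agent.P284.H553.Prim6
import Mathlib.Analysis.Complex.Liouville

/-!
# P284 (helper553), T1', module LB: pointwise algebra of the line of a natural form
-/

open scoped Manifold ContDiff Topology
open Filter Set

noncomputable section

namespace Vale.Agent.P284.H553.LB

open Vale.Agent.P272.K

variable {n R : ℕ}

/-- the matrix of a linear map on vectors -/
def LM (B : Cm n →L[ℂ] Cm R) (ξ : Fin R → Cm n) : Matrix (Fin R) (Fin R) ℂ :=
  Matrix.of fun i j => B (ξ j) i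

theorem LM_apply (B : Cm n →L[ℂ] Cm R) (ξ : Fin R → Cm n) (i j : Fin R) :
    LM B ξ i j = B (ξ j) i := rfl

theorem exists_rinv {B : Cm n →L[ℂ] Cm R} (hB : Function.Surjective B) :
    ∃ ξ₀ : Fin R → Cm n, ∀ j, B (ξ₀ j) = Pi.single j 1 :=
  ⟨fun j => (hB (Pi.single j 1)).choose, fun j => (hB (Pi.single j 1)).choose_spec⟩

theorem LM_rinv {B : Cm n →L[ℂ] Cm R} {ξ₀ : Fin R → Cm n} (h : ∀ j, B (ξ₀ j) = Pi.single j 1) :
    LM B ξ₀ = 1 := by
  ext i j
  rw [LM_apply, h j, Matrix.one_apply, Pi.single_apply]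

theorem sum_single (u : Cm R) : u = ∑ j, u j • (Pi.single j (1 : ℂ) : Cm R) := by
  funext i
  simp [Finset.sum_apply, Pi.single_apply]

/-- the decomposition of a vector -/
theorem ker_part {B : Cm n →L[ℂ] Cm R} {ξ₀ : Fin R → Cm n} (h : ∀ j, B (ξ₀ j) = Pi.single j 1)
    (ζ : Cm n) : B (ζ - ∑ j, B ζ j • ξ₀ j) = 0 := by
  rw [map_sub, map_sum]
  simp only [map_smul, h]
  rw [← sum_single, sub_self]

/-- A form whose norm is the one of the pull-back of a top form is a pull-back. -/
theorem struct_of_norm {H : Type} [NormedAddCommGroup H] [NormedSpace ℂ H] {m : ℕ}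
    {B : Cm n →L[ℂ] Cm R} (hB : Function.Surjective B) {V : (Fin R → Cm n) → H} {κ : ℝ}
    (hdet : ∀ (A : Matrix (Fin R) (Fin R) ℂ) (ξ : Fin R → Cm n),
      V (fun i => ∑ j, A i j • ξ j) = A.det ^ m • V ξ)
    (hd : ∀ ξ, DifferentiableAt ℂ V ξ) (hn : ∀ ξ, ‖V ξ‖ = ‖(LM B ξ).det‖ ^ m * κ) :
    ∃ w : H, ∀ ξ, V ξ = (LM B ξ).det ^ m • w := by
  obtain ⟨ξ₀, hξ₀⟩ := exists_rinv hB
  refine ⟨V ξ₀, fun ξ => ?_⟩
  set κ' : Fin R → Cm n := fun i => ξ i - ∑ j, B (ξ i) j • ξ₀ j with hκ'
  have hκ0 : ∀ i, B (κ' i) = 0 := fun i => ker_part hξ₀ (ξ i)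
  set A : Matrix (Fin R) (Fin R) ℂ := Matrix.of fun i j => B (ξ i) j with hA
  set ξA : Fin R → Cm n := fun i => ∑ j, A i j • ξ₀ j with hξA
  have hdiff : Differentiable ℂ fun t : ℂ => V (fun i => ξA i + t • κ' i) := by
    intro t
    exact DifferentiableAt.comp (g := V) (f := fun (t : ℂ) (i : Fin R) => ξA i + t • κ' i) t (hd _)
      (differentiableAt_pi.2 fun i => by fun_prop)
  have hbd : Bornology.IsBounded (range fun t : ℂ => V (fun i => ξA i + t • κ' i)) := by
    rw [isBounded_iff_forall_norm_le]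
    refine ⟨‖(LM B ξ).det‖ ^ m * κ, ?_⟩
    rintro _ ⟨t, rfl⟩
    simp only
    rw [hn]
    have h1 : LM B (fun i => ξA i + t • κ' i) = LM B ξ := by
      ext i j
      rw [LM_apply, LM_apply, map_add, map_smul, hκ0, smul_zero, add_zero]
      have h2 : ξA j = ξ j - κ' j := by
        simp only [hξA, hκ', hA, Matrix.of_apply, sub_sub_cancel]
      rw [h2, map_sub, hκ0, sub_zero]
    rw [h1]
  have h1 := hdiff.apply_eq_apply_of_bounded hbd 1 0
  simp only [one_smul, zero_smul, add_zero] at h1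
  have h2 : (fun i => ξA i + κ' i) = ξ := by
    funext i
    simp only [hξA, hκ', hA, Matrix.of_apply, add_sub_cancel]
  rw [h2] at h1
  rw [h1, hξA, hdet A ξ₀]
  have h3 : A.det = (LM B ξ).det := by
    rw [← Matrix.det_transpose]
    rfl
  rw [h3]

/-- Two surjective maps to `ℂ^R` with proportional determinants. -/
theorem det_prop {B B' : Cm n →L[ℂ] Cm R} {ξ₀ : Fin R → Cm n}
    (hξ₀ : ∀ j, B' (ξ₀ j) = Pi.single j 1) (h0 : (LM B ξ₀).det ≠ 0)
    (h : ∀ ξ : Fin R → Cm n, (LM B' ξ).det = 0 → (LM B ξ).det = 0) (ξ : Fin R → Cm n) :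
    (LM B ξ).det = (LM B ξ₀).det * (LM B' ξ).det := by
  classical
  have hker : ∀ κ, B' κ = 0 → B κ = 0 := by
    intro κ hκ
    have h1 : (LM B ξ₀).cramer (B κ) = 0 := by
      funext j
      rw [Matrix.cramer_apply, Pi.zero_apply]
      have h2 : (LM B ξ₀).updateCol j (B κ) = LM B (Function.update ξ₀ j κ) := by
        ext i k
        simp only [Matrix.updateCol_apply, LM_apply]
        by_cases hk : k = j
        · subst hk; simp
        · simp [hk]
      rw [h2]
      apply h
      have h3 : LM B' (Function.update ξ₀ j κ) = (LM B' ξ₀).updateCol j 0 := by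
        ext i k
        simp only [Matrix.updateCol_apply, LM_apply]
        by_cases hk : k = j
        · subst hk; simp [hκ]
        · simp [hk]
      rw [h3]
      exact Matrix.det_eq_zero_of_column_eq_zero j fun i => by simp
    have h4 := Matrix.mulVec_cramer (LM B ξ₀) (B κ)
    rw [h1, Matrix.mulVec_zero] at h4
    exact (smul_eq_zero.1 h4.symm).resolve_left h0
  rw [← Matrix.det_mul]
  congr 1
  ext i k
  rw [Matrix.mul_apply, LM_apply]
  have h1 := hker _ (ker_part hξ₀ (ξ k))
  rw [map_sub, sub_eq_zero, map_sum] at h1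
  rw [h1, Finset.sum_apply]
  refine Finset.sum_congr rfl fun j _ => ?_
  rw [map_smul, Pi.smul_apply, smul_eq_mul, LM_apply, LM_apply, mul_comm]

theorem LM_update (B : Cm n →L[ℂ] Cm R) (ξ : Fin R → Cm n) (i : Fin R) (η : Cm n) :
    LM B (Function.update ξ i η) = (LM B ξ).updateCol i (B η) := by
  classical
  ext k l
  simp only [Matrix.updateCol_apply, LM_apply]
  by_cases hl : l = i
  · subst hl; simp
  · simp [hl]

/-- the derivative of the coefficient in the direction of one vector -/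
theorem deriv_det (B : Cm n →L[ℂ] Cm R) (ξ : Fin R → Cm n) (i : Fin R) (η : Cm n) (m : ℕ) (c : ℂ) :
    HasDerivAt (fun s : ℂ => (LM B (ξ + s • (Pi.single i η : Fin R → Cm n))).det ^ m * c)
      (m * (LM B ξ).det ^ (m - 1) * ((LM B ξ).cramer (B η)) i * c) 0 := by
  classical
  have h1 : ∀ s : ℂ, (LM B (ξ + s • (Pi.single i η : Fin R → Cm n))).det =
      (LM B ξ).det + s * ((LM B ξ).cramer (B η)) i := by
    intro s
    have h2 : ξ + s • (Pi.single i η : Fin R → Cm n) = Function.update ξ i (ξ i + s • η) := by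
      funext k
      by_cases hk : k = i
      · subst hk; simp
      · simp [hk]
    rw [h2, LM_update, map_add, map_smul, Matrix.det_updateCol_add, Matrix.det_updateCol_smul,
      Matrix.cramer_apply]
    congr 2
    have h3 : B (ξ i) = fun k => LM B ξ k i := rfl
    rw [h3]
    exact Matrix.updateCol_eq_self _ _
  simp only [h1]
  have h2 : HasDerivAt (fun s : ℂ => (LM B ξ).det + s * ((LM B ξ).cramer (B η)) i)
      (((LM B ξ).cramer (B η)) i) 0 := by
    simpa using ((hasDerivAt_id (0 : ℂ)).mul_const (((LM B ξ).cramer (B η)) i)).const_add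
      ((LM B ξ).det)
  have h3 := (h2.pow m).mul_const c
  simp only [zero_mul, add_zero] at h3
  exact h3

/-- the decomposable form attached to a power -/
theorem det_cramer (B : Cm n →L[ℂ] Cm R) (ξ η : Fin R → Cm n) (a : ℂ) :
    (Matrix.of fun i j => a * ((LM B ξ).cramer (B (η j))) i).det =
      a ^ R * (LM B ξ).det ^ (R - 1) * (LM B η).det := by
  classical
  have h1 : (Matrix.of fun i j => a * ((LM B ξ).cramer (B (η j))) i) =
      a • ((LM B ξ).adjugate * LM B η) := by
    ext i j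
    rw [Matrix.of_apply, Matrix.smul_apply, smul_eq_mul]
    congr 1
    rw [Matrix.cramer_eq_adjugate_mulVec]
    rfl
  rw [h1, Matrix.det_smul, Matrix.det_mul, Matrix.det_adjugate, Fintype.card_fin]
  ring

end Vale.Agent.P284.H553.LB
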