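import Vale.Agent.P284.H553.Tens

/-!
# P284 (helper553): wedge products in Hilbert spaces
-/

open scoped InnerProductSpace TensorProduct
open Matrix

noncomputable section

namespace Vale.Agent.P284.H553

/-- sums over pairs of permutations -/
lemma det_double {ι : Type*} [Fintype ι] [DecidableEq ι] (M : Matrix ι ι ℂ) :
    ∑ σ : Equiv.Perm ι, ∑ τ : Equiv.Perm ι, ((Equiv.Perm.sign σ : ℤ) : ℂ) *
      ((Equiv.Perm.sign τ : ℤ) : ℂ) * ∏ i, M (σ i) (τ i) = (Fintype.card ι).factorial * M.det := by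
  have h (σ : Equiv.Perm ι) : ∑ τ : Equiv.Perm ι, ((Equiv.Perm.sign σ : ℤ) : ℂ) *
      ((Equiv.Perm.sign τ : ℤ) : ℂ) * ∏ i, M (σ i) (τ i) = M.det := by
    have h1 : (M.submatrix σ id).det = ((Equiv.Perm.sign σ : ℤ) : ℂ) * M.det :=
      Matrix.det_permute σ M
    have h2 : (M.submatrix σ id).transpose.det =
        ∑ τ : Equiv.Perm ι, ((Equiv.Perm.sign τ : ℤ) : ℂ) * ∏ i, M (σ i) (τ i) := by
      rw [Matrix.det_apply']
      rfl
    rw [Matrix.det_transpose, h1] at h2
    simp_rw [mul_assoc]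
    rw [← Finset.mul_sum, ← h2, ← mul_assoc]
    have h3 : ((Equiv.Perm.sign σ : ℤ) : ℂ) * ((Equiv.Perm.sign σ : ℤ) : ℂ) = 1 := by
      rw [← Int.cast_mul]
      rcases Int.units_eq_one_or (Equiv.Perm.sign σ) with h | h <;> rw [h] <;> simp
    rw [h3, one_mul]
  rw [Finset.sum_congr rfl fun σ _ => h σ, Finset.sum_const, Finset.card_univ, Fintype.card_perm,
    nsmul_eq_mul]

variable {H : Type} [NormedAddCommGroup H] [InnerProductSpace ℂ H]

/-- the structure of a wedge-with-a-vector map -/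
structure WMap (H : Type) [NormedAddCommGroup H] [InnerProductSpace ℂ H] (ι : Type) [Fintype ι]
    [DecidableEq ι] (K : Type) [NormedAddCommGroup K] [InnerProductSpace ℂ K] where
  P : H → (ι → H) → K
  inner_P : ∀ a u a' u', ⟪P a u, P a' u'⟫_ℂ = ⟪a, a'⟫_ℂ * (Matrix.of fun i j => ⟪u i, u' j⟫_ℂ).det
  an : ∀ {E : Type} [NormedAddCommGroup E] [NormedSpace ℂ E] (a : E → H) (u : E → ι → H) (z : E),
    AnalyticAt ℂ a z → (∀ i, AnalyticAt ℂ (fun y => u y i) z) →
    AnalyticAt ℂ (fun y => P (a y) (u y)) z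

theorem exists_wmap (H : Type) [NormedAddCommGroup H] [InnerProductSpace ℂ H] (ι : Type)
    [Fintype ι] [DecidableEq ι] :
    ∃ (L : Type) (_ : NormedAddCommGroup L) (_ : InnerProductSpace ℂ L) (_ : CompleteSpace L),
      Nonempty (WMap H ι L) := by
  obtain ⟨K, i1, i2, i3, T, hT⟩ := exists_tens H (Fintype.card ι)
  obtain ⟨L, j1, j2, j3, B, hB⟩ := exists_bil H K
  let e : Fin (Fintype.card ι) ≃ ι := (Fintype.equivFin ι).symm
  let c : ℂ := ((Real.sqrt ((Fintype.card ι).factorial) : ℝ) : ℂ)⁻¹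
  let W : (ι → H) → K := fun u => c • ∑ σ : Equiv.Perm ι, ((Equiv.Perm.sign σ : ℤ) : ℂ) •
    T (fun i => u (σ (e i)))
  have hc : (starRingEnd ℂ) c * c * (Fintype.card ι).factorial = 1 := by
    have h1 : (starRingEnd ℂ) c = c := by
      simp only [c, map_inv₀, Complex.conj_ofReal]
    rw [h1]
    have h2 : (0 : ℝ) < (Fintype.card ι).factorial := by positivity
    have h3 : c * c = ((((Fintype.card ι).factorial : ℝ) : ℂ))⁻¹ := by
      simp only [c]
      rw [← mul_inv, ← Complex.ofReal_mul, Real.mul_self_sqrt h2.le]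
    rw [h3]
    have h4 : (((Fintype.card ι).factorial : ℝ) : ℂ) ≠ 0 := by exact_mod_cast h2.ne'
    have h5 : (((Fintype.card ι).factorial : ℕ) : ℂ) = (((Fintype.card ι).factorial : ℝ) : ℂ) := by
      push_cast; rfl
    rw [h5, inv_mul_cancel₀ h4]
  have hW : ∀ u u' : ι → H, ⟪W u, W u'⟫_ℂ = (Matrix.of fun i j => ⟪u i, u' j⟫_ℂ).det := by
    intro u u'
    have h1 : ⟪W u, W u'⟫_ℂ = (starRingEnd ℂ) c * c * ∑ σ : Equiv.Perm ι, ∑ τ : Equiv.Perm ι,
        ((Equiv.Perm.sign σ : ℤ) : ℂ) * ((Equiv.Perm.sign τ : ℤ) : ℂ) *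
          ∏ i, (Matrix.of fun i j => ⟪u i, u' j⟫_ℂ) (σ i) (τ i) := by
      simp only [W]
      rw [inner_smul_left, inner_smul_right, sum_inner, mul_assoc]
      congr 2
      refine Finset.sum_congr rfl fun σ _ => ?_
      rw [inner_sum]
      refine Finset.sum_congr rfl fun τ _ => ?_
      rw [inner_smul_left, inner_smul_right, hT, map_intCast, mul_assoc]
      congr 2
      exact e.prod_comp (fun i => ⟪u (σ i), u' (τ i)⟫_ℂ)
    rw [h1, det_double, ← mul_assoc, hc, one_mul]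
  refine ⟨L, j1, j2, j3, ⟨⟨fun a u => B a (W u), fun a u a' u' => by rw [hB, hW], ?_⟩⟩⟩
  intro E _ _ a u z ha hu
  have hWan : AnalyticAt ℂ (fun y => W (u y)) z := by
    refine AnalyticAt.const_smul ?_
    refine Finset.analyticAt_fun_sum _ fun σ _ => ?_
    refine AnalyticAt.const_smul ?_
    have h1 : AnalyticAt ℂ (fun y => (fun i => u y (σ (e i)))) z :=
      AnalyticAt.pi fun i => hu _
    exact AnalyticAt.fun_comp T.analyticAt h1
  exact AnalyticAt.fun_comp (g := fun p : H × K => B p.1 p.2) (f := fun y => (a y, W (u y)))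
    (B.analyticAt_bilinear (a z, W (u z))) (ha.prod hWan)

end Vale.Agent.P284.H553
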