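import Vale.Agent.P284.H553.SegS
import Vale.Agent.P284.H553.Wedge
import Vale.Agent.P284.H213.KL.SK1
import Vale.Agent.P268.Hol

/-!
# P284 (helper553), module SEG: proof
-/

open scoped Manifold ContDiff Topology ComplexOrder InnerProductSpace
open Filter Matrix

set_option linter.all false

noncomputable section

namespace Vale.Agent.P284.H553

open Vale.Agent.P272.K Vale.Agent.P272.KOD Vale.Agent.P284.H812 Vale.Agent.P284.H451
  Vale.Agent.P284.H213.KL

section gram
variable {ι : Type*} [Fintype ι] [DecidableEq ι]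
  {H : Type*} [NormedAddCommGroup H] [InnerProductSpace ℂ H]

/-- Gram matrix -/
def gm (u : ι → H) : Matrix ι ι ℂ := Matrix.of fun i j => ⟪u i, u j⟫_ℂ

lemma gm_eq (u : ι → H) : gm u = Matrix.gram ℂ u := rfl

lemma gm_comb (u : ι → H) (A : Matrix ι ι ℂ) :
    gm (fun b => ∑ a, A a b • u a) = Aᴴ * gm u * A := by
  ext i j
  simp only [gm, Matrix.of_apply, Matrix.mul_apply, Matrix.conjTranspose_apply, sum_inner,
    inner_sum, inner_smul_left, inner_smul_right, Finset.sum_mul]
  simp only [Finset.mul_sum]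
  refine Finset.sum_congr rfl fun b _ => Finset.sum_congr rfl fun a _ => ?_
  rw [starRingEnd_apply]
  ring

lemma gm_det_nonneg (u : ι → H) : 0 ≤ (gm u).det := (Matrix.posSemidef_gram ℂ u).det_nonneg

lemma gm_det_eq_re (u : ι → H) : (gm u).det = (((gm u).det.re : ℝ) : ℂ) := by
  have h := gm_det_nonneg u
  rw [Complex.nonneg_iff] at h
  apply Complex.ext
  · simp
  · simp [← h.2]

lemma li_iff (u : ι → H) : LinearIndependent ℂ u ↔ (gm u).det.re ≠ 0 := by
  constructor
  · intro h
    have h1 : 0 < (gm u).det := (Matrix.posDef_gram_of_linearIndependent h).det_pos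
    rw [gm_det_eq_re] at h1
    have h2 : (0 : ℝ) < (gm u).det.re := by exact_mod_cast h1
    exact h2.ne'
  · intro h
    refine Matrix.linearIndependent_of_det_gram_ne_zero (𝕜 := ℂ) ?_
    intro h0
    apply h
    rw [gm_eq, h0]; simp

lemma gm_comb_det (u : ι → H) (A : Matrix ι ι ℂ) :
    (gm (fun b => ∑ a, A a b • u a)).det.re = ‖A.det‖ ^ 2 * (gm u).det.re := by
  rw [gm_comb, Matrix.det_mul, Matrix.det_mul, Matrix.det_conjTranspose]
  have h1 : star A.det * (gm u).det * A.det = ((‖A.det‖ ^ 2 : ℝ) : ℂ) * (gm u).det := by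
    have h2 : star A.det * A.det = ((‖A.det‖ ^ 2 : ℝ) : ℂ) := by
      rw [← starRingEnd_apply, mul_comm, Complex.mul_conj, Complex.normSq_eq_norm_sq]
    rw [← h2]; ring
  rw [h1, Complex.re_ofReal_mul]

end gram

section frame
variable {n : ℕ} {H : Type*} [NormedAddCommGroup H] [InnerProductSpace ℂ H]

/-- the vectors `v, ∂₁v, …, ∂ₙv` at `z` -/
def frame (v : Cm n → H) (z : Cm n) : Unit ⊕ Fin n → H :=
  Sum.elim (fun _ => v z) (fun i => fderiv ℂ v z (Pi.single i 1))

lemma brd_congr {N N' : Cm n → ℝ} {z : Cm n} (h : N =ᶠ[𝓝 z] N') : brd N z = brd N' z := by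
  have hc : (fun y => (N y : ℂ)) =ᶠ[𝓝 z] fun y => (N' y : ℂ) := by
    filter_upwards [h] with y hy; rw [hy]
  have h1 : (N z : ℂ) = N' z := by rw [h.self_of_nhds]
  unfold brd
  congr 1
  · ext i j; simpa using h1
  · ext i j; simp only [Matrix.of_apply]; exact dz_congr hc
  · ext i j; simp only [Matrix.of_apply]; exact dzb_congr hc
  · congr 1
    exact cHess_congr h

lemma brd_normSq [CompleteSpace H] {v : Cm n → H} {z : Cm n} (hv : AnalyticAt ℂ v z) :
    brd (fun y => ‖v y‖ ^ 2) z = gm (frame v z) := by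
  have h1 : (fun y => ((‖v y‖ ^ 2 : ℝ) : ℂ)) = fun y => ⟪v y, v y⟫_ℂ := by
    funext y; exact ofReal_normSq _
  ext i j
  rcases i with i | i <;> rcases j with j | j
  · simp only [brd, gm, frame, Matrix.fromBlocks_apply₁₁, Matrix.of_apply, Sum.elim_inl]
    exact ofReal_normSq _
  · simp only [brd, gm, frame, Matrix.fromBlocks_apply₁₂, Matrix.of_apply, Sum.elim_inl,
      Sum.elim_inr]
    rw [h1]
    exact dz_inner_holo hv.differentiableAt hv.differentiableAt j
  · simp only [brd, gm, frame, Matrix.fromBlocks_apply₂₁, Matrix.of_apply, Sum.elim_inl,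
      Sum.elim_inr]
    rw [h1]
    exact dzb_inner_holo hv.differentiableAt hv.differentiableAt i
  · simp only [brd, gm, frame, Matrix.fromBlocks_apply₂₂, Matrix.of_apply, Sum.elim_inr,
      Matrix.transpose_apply]
    exact cHess_normSqH hv j i

lemma brd_of [CompleteSpace H] {N : Cm n → ℝ} {v : Cm n → H} {z : Cm n} (hv : AnalyticAt ℂ v z)
    (h : ∀ᶠ y in 𝓝 z, N y = ‖v y‖ ^ 2) : brd N z = gm (frame v z) := by
  rw [← brd_normSq hv]; exact brd_congr h

/-- immersive `v` have linearly independent frames -/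
lemma frame_li {v : Cm n → H} {z : Cm n} (h0 : v z ≠ 0)
    (h : ∀ (ξ : Cm n) (c : ℂ), fderiv ℂ v z ξ = c • v z → ξ = 0) :
    LinearIndependent ℂ (frame v z) := by
  rw [Fintype.linearIndependent_iff]
  intro g hg
  rw [Fintype.sum_sum_type] at hg
  simp only [frame, Sum.elim_inl, Sum.elim_inr, Finset.univ_unique, Finset.sum_singleton] at hg
  have h1 : fderiv ℂ v z (fun i => g (Sum.inr i)) = (-g (Sum.inl PUnit.unit)) • v z := by
    have h2 : (fun i => g (Sum.inr i) : Cm n) = ∑ i, g (Sum.inr i) • (Pi.single i (1 : ℂ) : Cm n) := by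
      conv_lhs => rw [← Finset.univ_sum_single (fun i => g (Sum.inr i) : Cm n)]
      refine Finset.sum_congr rfl fun j _ => ?_
      rw [← Pi.single_smul]; simp
    rw [h2, map_sum]
    simp only [map_smul]
    rw [neg_smul, eq_neg_iff_add_eq_zero, add_comm]
    exact hg
  have h3 := h _ _ h1
  have h4 : ∀ i, g (Sum.inr i) = 0 := fun i => congrFun h3 i
  have h5 : g (Sum.inl PUnit.unit) = 0 := by
    simp only [h4, zero_smul, Finset.sum_const_zero, add_zero] at hg
    exact (smul_eq_zero.1 hg).resolve_right h0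
  intro i
  rcases i with i | i
  · exact h5
  · exact h4 i

lemma imm_of_li {v : Cm n → H} {z : Cm n} (h : LinearIndependent ℂ (frame v z)) (ξ : Cm n)
    (c : ℂ) (hξ : fderiv ℂ v z ξ = c • v z) : ξ = 0 := by
  rw [Fintype.linearIndependent_iff] at h
  have h2 : ξ = ∑ i, ξ i • (Pi.single i (1 : ℂ) : Cm n) := by
    conv_lhs => rw [← Finset.univ_sum_single ξ]
    refine Finset.sum_congr rfl fun j _ => ?_
    rw [← Pi.single_smul]; simp
  have h3 := h (Sum.elim (fun _ => -c) ξ) (by
    rw [Fintype.sum_sum_type]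
    simp only [frame, Sum.elim_inl, Sum.elim_inr, Finset.univ_unique, Finset.sum_singleton]
    rw [neg_smul, ← hξ, neg_add_eq_zero]
    conv_lhs => rw [h2]
    rw [map_sum]
    simp only [map_smul])
  funext i
  exact h3 (Sum.inr i)

/-- the Jacobian matrix -/
def Jm (f : Cm n → Cm n) (z : Cm n) : Matrix (Fin n) (Fin n) ℂ :=
  Matrix.of fun i j => (fderiv ℂ f z (Pi.single j 1)) i

lemma Jm_det (f : Cm n → Cm n) (z : Cm n) : (Jm f z).det = (fderiv ℂ f z).det := by
  have h : Jm f z = LinearMap.toMatrix' ((fderiv ℂ f z : Cm n →L[ℂ] Cm n) : Cm n →ₗ[ℂ] Cm n) := by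
    ext i j
    simp [Jm, LinearMap.toMatrix'_apply]
  rw [h, LinearMap.det_toMatrix']

lemma frame_trans {v : Cm n → H} {f : Cm n → Cm n} {g : Cm n → ℂ} {z : Cm n}
    (hf : DifferentiableAt ℂ f z) (hg : DifferentiableAt ℂ g z) (hv : DifferentiableAt ℂ v (f z)) :
    frame (fun y => g y • v (f y)) z = fun b => ∑ a,
      (Matrix.fromBlocks (Matrix.of fun _ _ => g z) (Matrix.of fun _ j =>
        fderiv ℂ g z (Pi.single j 1)) 0 (g z • Jm f z) : Matrix (Unit ⊕ Fin n) (Unit ⊕ Fin n) ℂ) a b
        • frame v (f z) a := by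
  funext b
  rw [Fintype.sum_sum_type]
  rcases b with b | b
  · simp [frame]
  · have h1 : HasFDerivAt (fun y => g y • v (f y))
        (g z • ((fderiv ℂ v (f z)).comp (fderiv ℂ f z)) +
          (fderiv ℂ g z).smulRight (v (f z))) z :=
      hg.hasFDerivAt.smul (hv.hasFDerivAt.comp z hf.hasFDerivAt)
    simp only [frame, Sum.elim_inl, Sum.elim_inr, Finset.univ_unique, Finset.sum_singleton,
      Matrix.fromBlocks_apply₁₂, Matrix.fromBlocks_apply₂₂, Matrix.of_apply, Matrix.smul_apply,
      smul_eq_mul]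
    rw [h1.fderiv]
    simp only [_root_.add_apply, _root_.smul_apply,
      ContinuousLinearMap.comp_apply, ContinuousLinearMap.smulRight_apply]
    rw [add_comm]
    congr 1
    have h2 (ξ : Cm n) : ξ = ∑ i, ξ i • (Pi.single i (1 : ℂ) : Cm n) := by
      conv_lhs => rw [← Finset.univ_sum_single ξ]
      refine Finset.sum_congr rfl fun j _ => ?_
      rw [← Pi.single_smul]; simp
    conv_lhs => rw [h2 (fderiv ℂ f z (Pi.single b 1))]
    rw [map_sum, Finset.smul_sum]
    refine Finset.sum_congr rfl fun i _ => ?_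
    rw [map_smul, smul_smul]
    rfl

end frame

end Vale.Agent.P284.H553
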