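import Vale.Agent.P284.H553.LB1
import Vale.Agent.P284.H553.Seg
import Vale.Agent.P284.H573.HCalc
import Vale.Agent.P284.H221.Good
import Vale.Agent.P284.H221.Rk

/-!
# P284 (helper553), T1', module LB: the line of a natural form at the good points
-/

open scoped Manifold ContDiff Topology
open Filter Set

noncomputable section

namespace Vale.Agent.P284.H553.LB

open Vale.Agent.P272.K Vale.Agent.P284.H573 Vale.Agent.P284.H248

variable {n R m : ℕ} {X E : Type} [TopologicalSpace X] [ChartedSpace (Cm n) X] [TopologicalSpace E]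
  {H : Type} [NormedAddCommGroup H] [InnerProductSpace ℂ H] {p : E → X}
  {v : E → Chart n X → (Fin R → Cm n) → H}

/-- the forms -/
abbrev VV (n R : ℕ) : Type := (Cm n) [⋀^Fin R]→ₗ[ℂ] ℂ

theorem DM_eq (b : Cm n → Cm R) (z : Cm n) (ξ : Fin R → Cm n) : DM b z ξ = LM (fderiv ℂ b z) ξ := rfl

/-- `θ` is on the line of `v` at the point `x`, in the chart `e`. -/
def OnL (p : E → X) (m : ℕ) (v : E → Chart n X → (Fin R → Cm n) → H) (x : X) (e : Chart n X)
    (θ : VV n R) : Prop :=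
  ∃ (y : E) (b : Cm n → Cm R) (γ : Cm R → H), p y = x ∧ IsNF m p v y e b γ ∧
    ∃ c : ℂ, ∀ ξ, θ ξ = c * (DM b (e x) ξ).det

section

/-- the derivative of the change of charts -/
abbrev tau (e e' : Chart n X) (x : X) : Cm n →L[ℂ] Cm n := fderiv ℂ (fun z => e' (e.symm z)) (e x)

theorem tau_self {e : Chart n X} {x : X} (h : At e x) : tau e e x = ContinuousLinearMap.id ℂ _ := by
  have h1 : (fun z => e (e.symm z)) =ᶠ[𝓝 (e x)] fun z => z := by
    filter_upwards [h.nhds_target] with z hz using e.right_inv hz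
  rw [tau, h1.fderiv_eq, fderiv_fun_id]

variable [IsManifold 𝓘(ℂ, Cm n) ω X]

theorem tau_comp {e e' e'' : Chart n X} {x : X} (h : At e x) (h' : At e' x) (h'' : At e'' x) :
    tau e e'' x = (tau e' e'' x).comp (tau e e' x) := by
  have h1 : (fun z => e'' (e.symm z)) =ᶠ[𝓝 (e x)] fun z => e'' (e'.symm (e' (e.symm z))) := by
    filter_upwards [h.nhds_at h'] with z hz
    rw [hz.2.2.left_inv]
  have h2 : e' (e.symm (e x)) = e' x := by rw [h.left_inv]
  rw [tau, h1.fderiv_eq]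
  have h3 := fderiv_comp (𝕜 := ℂ) (g := fun z => e'' (e'.symm z)) (f := fun z => e' (e.symm z)) (e x)
    (by rw [h2]; exact transition_differentiableAt h' h'') (transition_differentiableAt h h')
  rw [h2] at h3
  exact h3

theorem DM_comp {e e' : Chart n X} {x : X} (h : At e x) (h' : At e' x) {b : Cm n → Cm R}
    (hb : AnalyticAt ℂ b (e x)) (ξ : Fin R → Cm n) :
    DM (fun z => b (e (e'.symm z))) (e' x) ξ = DM b (e x) (fun i => tau e' e x (ξ i)) := by
  have h2 : e (e'.symm (e' x)) = e x := by rw [h'.left_inv]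
  have h3 := fderiv_comp (𝕜 := ℂ) (g := b) (f := fun z => e (e'.symm z)) (e' x)
    (by rw [h2]; exact hb.differentiableAt) (transition_differentiableAt h' h)
  rw [h2] at h3
  have h4 : fderiv ℂ (fun z => b (e (e'.symm z))) (e' x) = (fderiv ℂ b (e x)).comp (tau e' e x) := h3
  rw [DM_eq, DM_eq, h4]
  rfl

/-- normal forms in another chart -/
theorem nf_change (hv : HForm n R m p H v) (hp : Continuous p) {y : E} {e e' : Chart n X}
    {b : Cm n → Cm R} {γ : Cm R → H} (h : IsNF m p v y e b γ) (h' : At e' (p y)) :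
    IsNF m p v y e' (fun z => b (e (e'.symm z))) γ := by
  have h2 : e (e'.symm (e' (p y))) = e (p y) := by rw [h'.left_inv]
  refine ⟨h', ?_, ?_, ?_, ?_, ?_⟩
  · refine AnalyticAt.comp (g := b) (f := fun z => e (e'.symm z)) (by rw [h2]; exact h.ban) ?_
    exact (transition h' h.mem).analyticAt
  · have h3 := fderiv_comp (𝕜 := ℂ) (g := b) (f := fun z => e (e'.symm z)) (e' (p y))
      (by rw [h2]; exact h.ban.differentiableAt) (transition_differentiableAt h' h.mem)
    rw [h2] at h3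
    have h4 : fderiv ℂ (fun z => b (e (e'.symm z))) (e' (p y)) =
      (fderiv ℂ b (e (p y))).comp (tau e' e (p y)) := h3
    rw [h4]
    exact h.bsurj.comp (H221.transition_surjective h' h.mem)
  · simp only [h2]; exact h.γan
  · simp only [h2]; exact h.imm
  · have hev : ∀ᶠ y' in 𝓝 y, At e (p y') ∧ At e' (p y') ∧ AnalyticAt ℂ b (e (p y')) := by
      have h3 := H221.tendsto_chart hp h.mem
      filter_upwards [hp.continuousAt.eventually (e.open_source.mem_nhds h.mem.2),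
        hp.continuousAt.eventually (e'.open_source.mem_nhds h'.2),
        h3.eventually h.ban.eventually_analyticAt] with y' a1 a2 a3
      exact ⟨⟨h.mem.1, a1⟩, ⟨h'.1, a2⟩, a3⟩
    filter_upwards [hev, h.nf] with y' hy' hnf ξ
    have h5 := DM_comp hy'.1 hy'.2.1 hy'.2.2 ξ
    have h6 : e (e'.symm (e' (p y'))) = e (p y') := by rw [hy'.2.1.left_inv]
    rw [hv.change y' e' e hy'.2.1 hy'.1, hnf]
    simp only [h6]
    exact congrArg (fun M : Matrix (Fin R) (Fin R) ℂ => M.det ^ m • γ (b (e (p y')))) h5.symm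

/-- Two normal forms over the same point of `X`. -/
theorem nf_prop (hv : HForm n R m p H v) (hm : 1 ≤ m) {y y' : E} {e : Chart n X}
    {b b' : Cm n → Cm R} {γ γ' : Cm R → H} (h : IsNF m p v y e b γ) (h' : IsNF m p v y' e b' γ')
    (hy : p y = p y') :
    ∃ u : ℂ, u ≠ 0 ∧ ∀ ξ, (DM b (e (p y)) ξ).det = u * (DM b' (e (p y)) ξ).det := by
  obtain ⟨ξ₀, hξ₀⟩ := exists_rinv h'.bsurj
  have h1 := h.nf.self_of_nhds
  have h2 := h'.nf.self_of_nhds
  have hm0 : m ≠ 0 := by omega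
  have hγ : 0 < ‖γ (b (e (p y)))‖ := norm_pos_iff.2 h.imm.1
  have hγ' : 0 < ‖γ' (b' (e (p y')))‖ := norm_pos_iff.2 h'.imm.1
  have h3 : ∀ ξ, ‖(LM (fderiv ℂ b (e (p y))) ξ).det‖ ^ m * ‖γ (b (e (p y)))‖ =
      ‖(LM (fderiv ℂ b' (e (p y'))) ξ).det‖ ^ m * ‖γ' (b' (e (p y')))‖ := by
    intro ξ
    have h4 := hv.inv y y' e h.mem hy ξ
    rw [h1 ξ, h2 ξ, norm_smul, norm_smul, norm_pow, norm_pow] at h4
    exact h4
  rw [← hy] at hξ₀ h3
  have h5 : (LM (fderiv ℂ b (e (p y))) ξ₀).det ≠ 0 := by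
    intro h0
    have := h3 ξ₀
    rw [h0, norm_zero, zero_pow hm0, zero_mul, LM_rinv hξ₀, Matrix.det_one, norm_one, one_pow,
      one_mul, hy] at this
    linarith
  refine ⟨_, h5, fun ξ => ?_⟩
  refine det_prop hξ₀ h5 (fun ξ h0 => ?_) ξ
  have := h3 ξ
  rw [h0, norm_zero, zero_pow hm0, zero_mul] at this
  rcases mul_eq_zero.1 this with h6 | h6
  · exact norm_eq_zero.1 (pow_eq_zero_iff hm0 |>.1 h6)
  · exact absurd h6 hγ.ne'

theorem onL_prop (hv : HForm n R m p H v) (hm : 1 ≤ m) {x : X} {e : Chart n X} {θ θ' : VV n R}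
    (h : OnL p m v x e θ) (h' : OnL p m v x e θ') (ξ ξ' : Fin R → Cm n) :
    θ ξ * θ' ξ' = θ ξ' * θ' ξ := by
  obtain ⟨y, b, γ, hy, hnf, c, hc⟩ := h
  obtain ⟨y', b', γ', hy', hnf', c', hc'⟩ := h'
  obtain ⟨u, _, hu⟩ := nf_prop hv hm hnf hnf' (hy.trans hy'.symm)
  rw [hc, hc, hc', hc', ← hy, hu, hu]
  ring

theorem onL_change (hv : HForm n R m p H v) (hp : Continuous p) {x : X} {e e' : Chart n X}
    {θ : VV n R} (h : OnL p m v x e θ) (h' : At e' x) :
    OnL p m v x e' (θ.compLinearMap (tau e' e x).toLinearMap) := by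
  obtain ⟨y, b, γ, hy, hnf, c, hc⟩ := h
  subst hy
  refine ⟨y, _, γ, rfl, nf_change hv hp hnf h', c, fun ξ => ?_⟩
  rw [DM_comp hnf.mem h' hnf.ban, AlternatingMap.compLinearMap_apply, hc]
  rfl

/-- At a point over a good point of `X`, `v` is a pull-back. -/
theorem good_struct (hv : HForm n R m p H v) (hp : Continuous p) (hm : 1 ≤ m) {x : X}
    (hx : x ∈ GoodX p R m v) {e : Chart n X} (he : At e x) {y : E} (hy : p y = x) :
    ∃ (y' : E) (b : Cm n → Cm R) (γ : Cm R → H) (w : H), p y' = x ∧ IsNF m p v y' e b γ ∧ w ≠ 0 ∧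
      ∀ ξ, v y e ξ = (LM (fderiv ℂ b (e x)) ξ).det ^ m • w := by
  obtain ⟨y', hy', e', b', γ, hnf'⟩ := hx
  have hnf := nf_change hv hp hnf' (e' := e) (by rw [hy']; exact he)
  set b : Cm n → Cm R := fun z => b' (e' (e.symm z)) with hb
  have h1 := hnf.nf.self_of_nhds
  subst hy
  rw [hy'] at h1
  obtain ⟨F, hF, hFv⟩ := hv.hol y e he
  have hFv' := hFv.self_of_nhds
  obtain ⟨w, hw⟩ := struct_of_norm (V := v y e) (κ := ‖γ (b (e (p y)))‖) (m := m)
    (B := fderiv ℂ b (e (p y))) (by have := hnf.bsurj; rwa [hy'] at this)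
    (fun A ξ => hv.det y e he A ξ) (fun ξ => by
      have h2 : v y e = fun ξ => F (e (p y), ξ) := funext hFv'
      rw [h2]
      exact DifferentiableAt.comp (g := F) (f := fun ξ : Fin R → Cm n => (e (p y), ξ)) ξ
        (hF ξ).differentiableAt (by fun_prop)) (fun ξ => by
      rw [hv.inv y y' e he hy'.symm, h1 ξ, norm_smul, norm_pow]
      rfl)
  refine ⟨y', b, γ, w, hy', hnf, ?_, hw⟩
  rintro rfl
  obtain ⟨ξ₀, hξ₀⟩ := exists_rinv hnf.bsurj
  rw [hy'] at hξ₀
  have h2 := hw ξ₀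
  rw [smul_zero] at h2
  have h3 := hv.inv y y' e he hy'.symm ξ₀
  have h5 : (Matrix.of fun i j => fderiv ℂ b (e (p y)) (ξ₀ j) i) = 1 := LM_rinv hξ₀
  rw [h2, h1, norm_zero, norm_smul, h5, Matrix.det_one, one_pow, norm_one, one_mul] at h3
  have h4 := hnf.imm.1
  rw [hy'] at h4
  exact h4 (norm_eq_zero.1 h3.symm)

end

end Vale.Agent.P284.H553.LB
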