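import Vale.Agent.P284.H553.LB2

/-!
# P284 (helper553), T1', module LB: alternating forms depending on a point
-/

open scoped Manifold ContDiff Topology
open Filter Set

noncomputable section

namespace Vale.Agent.P284.H553.LB

open Vale.Agent.P272.K Vale.Agent.P284.H573 Vale.Agent.P284.H248

variable {n R : ℕ}

/-- the coordinate vectors -/
def eJ (J : Fin R → Fin n) : Fin R → Cm n := fun l => Pi.single (J l) 1

theorem VV_expand (θ : VV n R) (ξ : Fin R → Cm n) :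
    θ ξ = ∑ J : Fin R → Fin n, (∏ l, ξ l (J l)) * θ (eJ J) := by
  have h1 : ξ = fun l => ∑ i : Fin n, ξ l i • (Pi.single i (1 : ℂ) : Cm n) := by
    funext l
    exact sum_single (ξ l)
  have h2 : θ ξ = θ.toMultilinearMap ξ := rfl
  rw [h2]
  conv_lhs => rw [h1]
  rw [MultilinearMap.map_sum]
  refine Finset.sum_congr rfl fun J _ => ?_
  rw [MultilinearMap.map_smul_univ, smul_eq_mul]
  rfl

theorem VV_ext {θ θ' : VV n R} (h : ∀ J, θ (eJ J) = θ' (eJ J)) : θ = θ' := by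
  ext ξ
  rw [VV_expand θ, VV_expand θ']
  exact Finset.sum_congr rfl fun J _ => by rw [h J]

theorem VV_ne {θ : VV n R} (h : θ ≠ 0) : ∃ J, θ (eJ J) ≠ 0 := by
  by_contra hcon
  push Not at hcon
  exact h (VV_ext fun J => by rw [hcon J, AlternatingMap.zero_apply])

/-- recovering a form from its coefficients -/
theorem exists_proj (n R : ℕ) : ∃ P : ((Fin R → Fin n) → ℂ) →ₗ[ℂ] VV n R,
    ∀ θ : VV n R, P (fun J => θ (eJ J)) = θ := by
  set ev : VV n R →ₗ[ℂ] ((Fin R → Fin n) → ℂ) :=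
    { toFun := fun θ J => θ (eJ J)
      map_add' := fun a b => rfl
      map_smul' := fun c a => rfl } with hev
  obtain ⟨P, hP⟩ := LinearMap.exists_leftInverse_of_injective ev
    (LinearMap.ker_eq_bot.2 fun a b hab => VV_ext fun J => congrFun hab J)
  exact ⟨P, fun θ => LinearMap.congr_fun hP θ⟩

/-- `θ` depends analytically on the point near `z`. -/
def AnV (θ : Cm n → VV n R) (z : Cm n) : Prop := ∀ J, AnalyticAt ℂ (fun z => θ z (eJ J)) z

theorem AnV.eval {θ : Cm n → VV n R} {z : Cm n} (h : AnV θ z) (ξ : Fin R → Cm n) :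
    AnalyticAt ℂ (fun z => θ z ξ) z := by
  have h1 : (fun z => θ z ξ) = fun z => ∑ J : Fin R → Fin n, (∏ l, ξ l (J l)) * θ z (eJ J) := by
    funext z
    exact VV_expand (θ z) ξ
  rw [h1]
  exact Finset.analyticAt_fun_sum _ fun J _ => analyticAt_const.mul (h J)

theorem AnV.eval' {θ : Cm n → VV n R} {z : Cm n} (h : AnV θ z) {ξ : Cm n → Fin R → Cm n}
    (hξ : ∀ l, AnalyticAt ℂ (fun z => ξ z l) z) :
    AnalyticAt ℂ (fun z => θ z (ξ z)) z := by
  have h1 : (fun z => θ z (ξ z)) =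
      fun z => ∑ J : Fin R → Fin n, (∏ l, ξ z l (J l)) * θ z (eJ J) := by
    funext z
    exact VV_expand (θ z) (ξ z)
  rw [h1]
  refine Finset.analyticAt_fun_sum _ fun J _ => AnalyticAt.mul ?_ (h J)
  refine Finset.analyticAt_fun_prod _ fun l _ => ?_
  exact ((ContinuousLinearMap.proj (R := ℂ) (φ := fun _ : Fin n => ℂ) (J l)).analyticAt _).comp
    (hξ l)

theorem AnV.eventually {θ : Cm n → VV n R} {z : Cm n} (h : AnV θ z) : ∀ᶠ z' in 𝓝 z, AnV θ z' := by
  have : ∀ᶠ z' in 𝓝 z, ∀ J, AnalyticAt ℂ (fun z => θ z (eJ J)) z' :=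
    eventually_all.2 fun J => (h J).eventually_analyticAt
  exact this

theorem AnV.congr {θ θ' : Cm n → VV n R} {z : Cm n} (h : AnV θ z) (hh : ∀ᶠ z' in 𝓝 z, θ z' = θ' z') :
    AnV θ' z := fun J => (h J).congr (by filter_upwards [hh] with z' hz; rw [hz])

theorem AnV.smul {θ : Cm n → VV n R} {z : Cm n} {c : Cm n → ℂ} (h : AnV θ z)
    (hc : AnalyticAt ℂ c z) : AnV (fun z => c z • θ z) z := fun J => by
  simp only [AlternatingMap.smul_apply, smul_eq_mul]
  exact hc.mul (h J)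

/-- two forms which agree frequently -/
theorem AnV.eq_of_freq {θ θ' : Cm n → VV n R} {z : Cm n} (h : AnV θ z) (h' : AnV θ' z)
    {P : Cm n → Prop} (hP : ∃ᶠ z' in 𝓝 z, P z') (hh : ∀ᶠ z' in 𝓝 z, P z' → θ z' = θ' z') :
    θ z = θ' z := by
  refine VV_ext fun J => ?_
  exact Prim.eq_of_freq (f := fun z => θ z (eJ J)) (f' := fun z => θ' z (eJ J)) (h J).continuousAt
    (h' J).continuousAt hP (by filter_upwards [hh] with z' hz hPz; rw [hz hPz])

/-- a function which is differentiable near a point is analytic -/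
theorem an_of_diff {E F : Type} [NormedAddCommGroup E] [NormedSpace ℂ E] [FiniteDimensional ℂ E]
    [NormedAddCommGroup F] [NormedSpace ℂ F] [CompleteSpace F] {f : E → F} {z : E}
    (h : ∀ᶠ z' in 𝓝 z, DifferentiableAt ℂ f z') : AnalyticAt ℂ f z := by
  obtain ⟨U, hU, hUo, hz⟩ := eventually_nhds_iff.1 h
  exact Vale.Agent.P281.MF.analyticAt_of_differentiableOn hUo
    (fun z' hz' => (hU z' hz').differentiableWithinAt) hz

/-- the form `det (db)` -/
def DF (b : Cm n → Cm R) (z : Cm n) : VV n R :=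
  (Matrix.detRowAlternating (n := Fin R) (R := ℂ)).compLinearMap (fderiv ℂ b z).toLinearMap

theorem DF_apply (b : Cm n → Cm R) (z : Cm n) (ξ : Fin R → Cm n) :
    DF b z ξ = (DM b z ξ).det := by
  rw [← Matrix.det_transpose]
  rfl

theorem DF_anV {b : Cm n → Cm R} {z : Cm n} (hb : AnalyticAt ℂ b z) : AnV (DF b) z := by
  intro J
  have h1 : (fun z => DF b z (eJ J)) = fun z => (DM b z (eJ J)).det := by
    funext z
    exact DF_apply b z _
  rw [h1]
  have h2 : ∀ᶠ z' in 𝓝 z, DifferentiableAt ℂ (fun z => (DM b z (eJ J)).det) z' := by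
    filter_upwards [hb.eventually_analyticAt] with z' hz'
    refine Prim.diff_det fun i k => ?_
    have h3 : DifferentiableAt ℂ (fderiv ℂ b) z' := hz'.fderiv.differentiableAt
    have h4 : DifferentiableAt ℂ (fun z => fderiv ℂ b z (eJ J k)) z' :=
      h3.clm_apply (differentiableAt_const _)
    exact differentiableAt_pi.1 h4 i
  exact an_of_diff h2

/-- `ω` is a primitive form at `z`. -/
structure IsFr (om : Cm n → VV n R) (z : Cm n) : Prop where
  an : AnV om z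
  rmv : ∀ (F : Type) [NormedAddCommGroup F] [NormedSpace ℂ F] [CompleteSpace F] (c : Cm n → F),
    (∀ᶠ z' in 𝓝 z, om z' ≠ 0 → AnalyticAt ℂ c z') →
      ∃ c', AnalyticAt ℂ c' z ∧ ∀ᶠ z' in 𝓝 z, om z' ≠ 0 → c z' = c' z'
  fr : ∃ᶠ z' in 𝓝 z, om z' ≠ 0

/-- division by a primitive form -/
theorem exists_quot {om θ : Cm n → VV n R} {z₀ : Cm n} (hom : ∀ᶠ z in 𝓝 z₀, IsFr om z)
    (hθ : AnV θ z₀) (hp : ∀ᶠ z in 𝓝 z₀, ∀ ξ ξ', θ z ξ * om z ξ' = θ z ξ' * om z ξ) :
    ∃ c : Cm n → ℂ, AnalyticAt ℂ c z₀ ∧ ∀ᶠ z in 𝓝 z₀, θ z = c z • om z := by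
  classical
  set c : Cm n → ℂ := fun z => if h : ∃ ξ, om z ξ ≠ 0 then θ z h.choose / om z h.choose else 0
    with hc
  have hcval : ∀ z ξ, (∀ ξ ξ', θ z ξ * om z ξ' = θ z ξ' * om z ξ) → om z ξ ≠ 0 →
      c z = θ z ξ / om z ξ := by
    intro z ξ hz hξ
    have h : ∃ ξ, om z ξ ≠ 0 := ⟨ξ, hξ⟩
    rw [hc]
    simp only [dif_pos h]
    rw [div_eq_div_iff h.choose_spec hξ]
    exact hz _ _
  have h1 : ∀ᶠ z in 𝓝 z₀, om z ≠ 0 → AnalyticAt ℂ c z := by
    filter_upwards [hom, hθ.eventually, eventually_eventually_nhds.2 hp] with z h1 h2 h3 h0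
    obtain ⟨J, hJ⟩ := VV_ne h0
    have h4 : ∀ᶠ z' in 𝓝 z, om z' (eJ J) ≠ 0 := (h1.an J).continuousAt.eventually_ne hJ
    refine ((h2 J).div (h1.an J) hJ).congr ?_
    filter_upwards [h3, h4] with z' h5 h6
    exact (hcval z' _ h5 h6).symm
  obtain ⟨c', hc', hcc⟩ := hom.self_of_nhds.rmv ℂ c h1
  refine ⟨c', hc', ?_⟩
  filter_upwards [hom, hθ.eventually, hc'.eventually_analyticAt, eventually_eventually_nhds.2 hcc,
    eventually_eventually_nhds.2 hp] with z h2 h3 h4 h5 h6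
  refine AnV.eq_of_freq h3 (h2.an.smul h4) h2.fr ?_
  filter_upwards [h5, h6] with z' h7 h8 h9
  obtain ⟨J, hJ⟩ := VV_ne h9
  rw [← h7 h9, hcval z' _ h8 hJ]
  ext ξ
  rw [AlternatingMap.smul_apply, smul_eq_mul]
  field_simp
  rw [h8, mul_comm]

end Vale.Agent.P284.H553.LB
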