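import Vale.Agent.P284.H553.LB4

/-!
# P284 (helper553), T1', module LB: existence of primitive local generators of the line (2)
-/

open scoped Manifold ContDiff Topology
open Filter Set Metric

noncomputable section

namespace Vale.Agent.P284.H553.LB

open Vale.Agent.P272.K Vale.Agent.P284.H573 Vale.Agent.P284.H248 Vale.Agent.P284.H221

variable {n R m : ℕ}

section
variable {H : Type} [NormedAddCommGroup H] [InnerProductSpace ℂ H]

/-- the linear forms attached to a function and a frame -/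
def Lam (psi : Cm n × (Fin R → Cm n) → ℂ) (ξ₁ : Fin R → Cm n) (z : Cm n) :
    Cm n →ₗ[ℂ] (Fin R → ℂ) :=
  LinearMap.pi fun i => (fderiv ℂ psi (z, ξ₁)).toLinearMap ∘ₗ
    (LinearMap.inr ℂ (Cm n) (Fin R → Cm n)) ∘ₗ (LinearMap.single ℂ (fun _ : Fin R => Cm n) i)

theorem Lam_apply (psi : Cm n × (Fin R → Cm n) → ℂ) (ξ₁ : Fin R → Cm n) (z ζ : Cm n) (i : Fin R) :
    Lam psi ξ₁ z ζ i = fderiv ℂ psi (z, ξ₁) (0, Pi.single i ζ) := rfl

/-- the decomposable form attached to a function and a frame -/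
def Eta (psi : Cm n × (Fin R → Cm n) → ℂ) (ξ₁ : Fin R → Cm n) (z : Cm n) : VV n R :=
  (Matrix.detRowAlternating (n := Fin R) (R := ℂ)).compLinearMap (Lam psi ξ₁ z)

theorem Eta_apply (psi : Cm n × (Fin R → Cm n) → ℂ) (ξ₁ : Fin R → Cm n) (z : Cm n)
    (ξ : Fin R → Cm n) :
    Eta psi ξ₁ z ξ = (Matrix.of fun i j => Lam psi ξ₁ z (ξ j) i).det := by
  rw [← Matrix.det_transpose]
  rfl

theorem Eta_an {psi : Cm n × (Fin R → Cm n) → ℂ} {ξ₁ : Fin R → Cm n} {z : Cm n}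
    (h : AnalyticAt ℂ psi (z, ξ₁)) : AnV (Eta psi ξ₁) z := by
  intro J
  have h0 : ∀ᶠ z' in 𝓝 z, AnalyticAt ℂ psi (z', ξ₁) := by
    have hc : ContinuousAt (fun z' : Cm n => (z', ξ₁)) z := by fun_prop
    exact hc.eventually h.eventually_analyticAt
  simp only [Eta_apply]
  refine an_of_diff ?_
  filter_upwards [h0] with z' hz'
  refine Prim.diff_det fun i k => ?_
  simp only [Lam_apply]
  have h1 : DifferentiableAt ℂ (fun z' : Cm n => fderiv ℂ psi (z', ξ₁)) z' :=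
    DifferentiableAt.comp (g := fderiv ℂ psi) (f := fun z' : Cm n => (z', ξ₁)) z'
      hz'.fderiv.differentiableAt (by fun_prop)
  exact h1.clm_apply (differentiableAt_const _)

theorem Eta_val {F : Cm n × (Fin R → Cm n) → H} {ξ₁ : Fin R → Cm n} {z : Cm n} {w₁ w : H}
    {B : Cm n →L[ℂ] Cm R}
    (h : AnalyticAt ℂ (fun q => inner ℂ w₁ (F q)) (z, ξ₁))
    (hF : ∀ ξ, F (z, ξ) = (LM B ξ).det ^ m • w) (ξ : Fin R → Cm n) :
    Eta (fun q => inner ℂ w₁ (F q)) ξ₁ z ξ =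
      (m * (LM B ξ₁).det ^ (m - 1) * inner ℂ w₁ w) ^ R * (LM B ξ₁).det ^ (R - 1) *
        (LM B ξ).det := by
  rw [Eta_apply, ← det_cramer]
  congr 2
  funext i j
  rw [Lam_apply]
  have h1 : HasDerivAt (fun s : ℂ => (z, ξ₁ + s • (Pi.single i (ξ j) : Fin R → Cm n)))
      (0, Pi.single i (ξ j)) 0 := by
    refine (hasDerivAt_const (0 : ℂ) z).prodMk ?_
    have h2 := ((hasDerivAt_id (0 : ℂ)).smul_const (Pi.single i (ξ j) : Fin R → Cm n)).const_add ξ₁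
    simpa using h2
  have h2 : HasFDerivAt (fun q => inner ℂ w₁ (F q))
      (fderiv ℂ (fun q => inner ℂ w₁ (F q)) (z, ξ₁))
      (z, ξ₁ + (0 : ℂ) • (Pi.single i (ξ j) : Fin R → Cm n)) := by
    rw [zero_smul, add_zero]
    exact h.differentiableAt.hasFDerivAt
  have h3 := h2.comp_hasDerivAt (0 : ℂ) h1
  have h4 := deriv_det B ξ₁ i (ξ j) m (inner ℂ w₁ w)
  have h5 : (fun q => inner ℂ w₁ (F q)) ∘
      (fun s : ℂ => (z, ξ₁ + s • (Pi.single i (ξ j) : Fin R → Cm n))) =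
      fun s : ℂ => (LM B (ξ₁ + s • (Pi.single i (ξ j) : Fin R → Cm n))).det ^ m *
        inner ℂ w₁ w := by
    funext s
    simp only [Function.comp_apply]
    rw [hF, inner_smul_right]
  rw [h5] at h3
  rw [h3.unique h4]
  ring

end

variable {X E : Type} [TopologicalSpace X] [ChartedSpace (Cm n) X] [TopologicalSpace E]
  {H : Type} [NormedAddCommGroup H] [InnerProductSpace ℂ H] {p : E → X}
  {v : E → Chart n X → (Fin R → Cm n) → H} [IsManifold 𝓘(ℂ, Cm n) ω X]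

theorem exists_frame [CompleteSpace H] (hv : HForm n R m p H v) (hp : IsCoveringMap p)
    (hs : Function.Surjective p) (hm : 1 ≤ m) (hT : ThinC n (GoodX p R m v)) {x₀ : X}
    {e : Chart n X} (he : At e x₀) :
    ∃ om : Cm n → VV n R, ∀ᶠ z in 𝓝 (e x₀), IsFr om z ∧
      (e.symm z ∈ GoodX p R m v → OnL p m v (e.symm z) e (om z)) := by
  obtain ⟨y₀, rfl⟩ := hs x₀
  obtain ⟨F, hF, hFv⟩ := hv.hol y₀ e he
  have hnear : ∀ᶠ z in 𝓝 (e (p y₀)), ∃ y', p y' = e.symm z ∧ ∀ ξ, v y' e ξ = F (z, ξ) := by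
    filter_upwards [ev_chart he (ev_base hp hFv), ev_at' he] with z hz hz2
    obtain ⟨y', h1, h2⟩ := hz
    exact ⟨y', h1, fun ξ => by rw [h2 ξ, h1, hz2.2.2]⟩
  have hFan : ∀ᶠ z in 𝓝 (e (p y₀)), ∀ J : Fin R → Fin n, AnalyticAt ℂ F (z, eJ J) := by
    refine eventually_all.2 fun J => ?_
    have hc : ContinuousAt (fun z : Cm n => (z, eJ J)) (e (p y₀)) := by fun_prop
    exact hc.eventually (hF (eJ J)).eventually_analyticAt
  obtain ⟨r, hr, hball⟩ := Metric.eventually_nhds_iff_ball.1 (hnear.and (hFan.and (ev_at' he)))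
  obtain ⟨z₁, hz₁g, hz₁⟩ := ((good_freq he hT).and_eventually (ball_mem_nhds _ hr)).exists
  obtain ⟨⟨y₁, hy₁, hF₁⟩, -, ht₁, hat₁, hee₁⟩ := hball z₁ hz₁
  obtain ⟨y', b₁, γ₁, w₁, hy', hnf₁, hw₁, hV₁⟩ := good_struct hv hp.continuous hm hz₁g hat₁ hy₁
  rw [hee₁] at hV₁
  have hB₁ := hnf₁.bsurj
  rw [hy', hee₁] at hB₁
  obtain ⟨ξ₀, hξ₀⟩ := exists_rinv hB₁
  obtain ⟨J₁, hJ₁⟩ : ∃ J₁, DF b₁ z₁ (eJ J₁) ≠ 0 := by
    refine VV_ne fun h0 => ?_
    have h1 : DF b₁ z₁ ξ₀ = 1 := by rw [DF_apply, DM_eq, LM_rinv hξ₀, Matrix.det_one]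
    rw [h0] at h1
    exact zero_ne_one h1
  rw [DF_apply, DM_eq] at hJ₁
  set eta : Cm n → VV n R := Eta (fun q => inner ℂ w₁ (F q)) (eJ J₁) with heta
  have hpsi : ∀ z ∈ ball (e (p y₀)) r, AnalyticAt ℂ (fun q => inner ℂ w₁ (F q)) (z, eJ J₁) :=
    fun z hz => ((innerSL ℂ w₁).analyticAt _).comp ((hball z hz).2.1 J₁)
  have hetaan : ∀ z ∈ ball (e (p y₀)) r, AnV eta z := fun z hz => Eta_an (hpsi z hz)
  have hetaL : ∀ z ∈ ball (e (p y₀)) r, e.symm z ∈ GoodX p R m v →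
      OnL p m v (e.symm z) e (eta z) := by
    intro z hz hzg
    obtain ⟨⟨y, hy, hFy⟩, -, ht, hat, hee⟩ := hball z hz
    obtain ⟨y', b, γ, w, hy', hnf, hw, hV⟩ := good_struct hv hp.continuous hm hzg hat hy
    refine ⟨y', b, γ, hy', hnf, (m * (LM (fderiv ℂ b z) (eJ J₁)).det ^ (m - 1) * inner ℂ w₁ w) ^ R *
      (LM (fderiv ℂ b z) (eJ J₁)).det ^ (R - 1), fun ξ => ?_⟩
    rw [hee] at hV ⊢
    exact Eta_val (hpsi z hz) (fun ξ => by rw [← hFy, hV]) ξ
  have heta₁ : eta z₁ (eJ J₁) ≠ 0 := by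
    rw [heta, Eta_val (hpsi z₁ hz₁) (fun ξ => by rw [← hF₁, hV₁]) (eJ J₁)]
    refine mul_ne_zero (mul_ne_zero (pow_ne_zero _ (mul_ne_zero (mul_ne_zero ?_ ?_) ?_)) ?_) hJ₁
    · exact_mod_cast (by omega : m ≠ 0)
    · exact pow_ne_zero _ hJ₁
    · exact inner_self_ne_zero.2 hw₁
    · exact pow_ne_zero _ hJ₁
  have hfreq : ∀ z ∈ ball (e (p y₀)) r, ∃ᶠ z' in 𝓝 z, eta z' (eJ J₁) ≠ 0 := fun z hz =>
    Prim.freq_ne (δ := fun z => eta z (eJ J₁)) (fun z hz => hetaan z hz J₁) hz₁ heta₁ hz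
  have hz₀ : e (p y₀) ∈ ball (e (p y₀)) r := mem_ball_self hr
  obtain ⟨g, oJ, hg, hoJ, hgo, hrm⟩ := Prim.prim (h := fun (J : Fin R → Fin n) z => eta z (eJ J))
    (fun J => hetaan _ hz₀ J) (j0 := J₁) (fun hcon => hfreq _ hz₀ (by
      filter_upwards [hcon] with z hz using not_not.2 hz))
  obtain ⟨P, hP⟩ := exists_proj n R
  set om : Cm n → VV n R := fun z => P (fun J => oJ J z) with hom
  have hoJan : ∀ᶠ z in 𝓝 (e (p y₀)), ∀ J, AnalyticAt ℂ (oJ J) z :=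
    eventually_all.2 fun J => (hoJ J).eventually_analyticAt
  have homan : ∀ᶠ z in 𝓝 (e (p y₀)), AnV om z := by
    filter_upwards [hoJan] with z hz J
    set psiJ : ((Fin R → Fin n) → ℂ) →ₗ[ℂ] ℂ :=
      { toFun := fun a => P a (eJ J)
        map_add' := fun a b => by rw [map_add]; rfl
        map_smul' := fun c a => by rw [map_smul]; rfl } with hpsiJ
    have h1 : AnalyticAt ℂ (fun z => (fun J => oJ J z)) z := AnalyticAt.pi hz
    exact ((LinearMap.toContinuousLinearMap psiJ).analyticAt _).comp h1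
  have hgom : ∀ᶠ z in 𝓝 (e (p y₀)), g z ≠ 0 → om z = (g z)⁻¹ • eta z := by
    filter_upwards [hgo] with z hz hgz
    have h1 : (fun J => oJ J z) = (g z)⁻¹ • fun J => eta z (eJ J) := by
      funext J
      rw [Pi.smul_apply, smul_eq_mul, hz J, ← mul_assoc, inv_mul_cancel₀ hgz, one_mul]
    rw [hom]
    simp only
    rw [h1, map_smul, hP]
  have hgfr : ∀ᶠ z in 𝓝 (e (p y₀)), ∃ᶠ z' in 𝓝 z, g z' ≠ 0 := by
    filter_upwards [eventually_eventually_nhds.2 hgo, ball_mem_nhds _ hr] with z hz hzb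
    refine ((hfreq z hzb).and_eventually hz).mono fun z' h1 h2 => h1.1 ?_
    rw [h1.2, h2, zero_mul]
  have hval : ∀ᶠ z in 𝓝 (e (p y₀)), ∀ J, om z (eJ J) = oJ J z := by
    filter_upwards [homan, hoJan, hgfr, eventually_eventually_nhds.2 (hgom.and hgo)]
      with z h1 h2 h3 h4 J
    refine Prim.eq_of_freq (f := fun z => om z (eJ J)) (f' := oJ J) (h1 J).continuousAt
      (h2 J).continuousAt h3 ?_
    filter_upwards [h4] with z' h5 h6
    rw [h5.1 h6, AlternatingMap.smul_apply, smul_eq_mul, h5.2 J, ← mul_assoc,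
      inv_mul_cancel₀ h6, one_mul]
  refine ⟨om, ?_⟩
  filter_upwards [homan, hval, hrm, hgfr, eventually_eventually_nhds.2 hval,
    eventually_eventually_nhds.2 hgo, eventually_eventually_nhds.2 hgom, ball_mem_nhds _ hr,
    ev_at' he] with z h1 h2 h3 h4 h5 h6 h7 hzb hza
  refine ⟨⟨h1, ?_, ?_⟩, ?_⟩
  · intro F' _ _ _ c hc
    have h8 : ∀ᶠ z' in 𝓝 z, (∃ J, oJ J z' ≠ 0) ↔ om z' ≠ 0 := by
      filter_upwards [h5] with z' h9
      constructor
      · rintro ⟨J, hJ⟩ h0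
        apply hJ
        rw [← h9 J, h0]
        rfl
      · intro h0
        obtain ⟨J, hJ⟩ := VV_ne h0
        exact ⟨J, by rwa [← h9 J]⟩
    obtain ⟨c', h9, h10⟩ := h3 F' c (by
      filter_upwards [hc, h8] with z' h9 h10 h11 using h9 (h10.1 h11))
    exact ⟨c', h9, by filter_upwards [h10, h8] with z' h11 h12 h13 using h11 (h12.2 h13)⟩
  · refine ((hfreq z hzb).and_eventually (h5.and h6)).mono fun z' h8 h0 => h8.1 ?_
    rw [h8.2.2 J₁, ← h8.2.1 J₁, h0]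
    simp
  · intro hzg
    have hgd : ∀ᶠ z' in 𝓝 z, e.symm z' ∈ GoodX p R m v := by
      have h9 := ev_chart (x := e.symm z) hza.2.1 (goodX_open hp hzg)
      rwa [hza.2.2] at h9
    have h8 := onL_of_freq hv hp hm hza.2.1 hzg (om := om) (by rw [hza.2.2]; exact h1) (by
      rw [hza.2.2]
      refine (h4.and_eventually (h7.and (hgd.and (isOpen_ball.mem_nhds hzb)))).mono
        fun z' h9 => ?_
      rw [h9.2.1 h9.1]
      exact (hetaL z' h9.2.2.2 h9.2.2.1).smul _)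
    rw [hza.2.2] at h8
    exact h8

end Vale.Agent.P284.H553.LB
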