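import Vale.Agent.P284.H553.LB5

/-!
# P284 (helper553), T1', module LB: the line bundle
-/

open scoped Manifold ContDiff Topology
open Filter Set Metric

noncomputable section

namespace Vale.Agent.P284.H553.LB

open Vale.Agent.P272.K Vale.Agent.P284.H573 Vale.Agent.P284.H248 Vale.Agent.P284.H221

variable {n R m : ℕ} {X E : Type} [TopologicalSpace X] [ChartedSpace (Cm n) X] [TopologicalSpace E]
  {H : Type} [NormedAddCommGroup H] [InnerProductSpace ℂ H] {p : E → X}
  {v : E → Chart n X → (Fin R → Cm n) → H}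

/-- `f` is analytic at `x` in the charts -/
def AnX (n : ℕ) {X : Type} [TopologicalSpace X] [ChartedSpace (Cm n) X] (f : X → ℂ) (x : X) : Prop :=
  ∀ e : Chart n X, At e x → AnalyticAt ℂ (fun z => f (e.symm z)) (e x)

theorem at_chart (x : X) : At (chartAt (Cm n) x) x := ⟨chart_mem_atlas _ x, mem_chart_source _ x⟩

theorem AnX.continuousAt {f : X → ℂ} {x : X} (h : AnX n f x) : ContinuousAt f x := by
  set e : Chart n X := chartAt (Cm n) x
  have he : At e x := at_chart x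
  have h1 : ContinuousAt (fun x' => f (e.symm (e x'))) x :=
    ContinuousAt.comp (g := fun z => f (e.symm z)) (f := e) (h e he).continuousAt
      (e.continuousAt he.2)
  refine h1.congr ?_
  filter_upwards [ev_at he] with x' hx'
  rw [hx'.left_inv]

theorem AnX.congr {f g : X → ℂ} {x : X} (h : AnX n f x) (hh : ∀ᶠ x' in 𝓝 x, f x' = g x') :
    AnX n g x := fun e he => (h e he).congr (ev_chart he hh)

theorem AnX.mul {f g : X → ℂ} {x : X} (h : AnX n f x) (h' : AnX n g x) :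
    AnX n (fun x => f x * g x) x := fun e he => (h e he).mul (h' e he)

theorem AnX.pow {f : X → ℂ} {x : X} (h : AnX n f x) (k : ℕ) :
    AnX n (fun x => f x ^ k) x := fun e he => (h e he).pow k

theorem AnX.eq_of_freq {f g : X → ℂ} {x : X} (h : AnX n f x) (h' : AnX n g x) {P : X → Prop}
    (hP : ∃ᶠ x' in 𝓝 x, P x') (hh : ∀ᶠ x' in 𝓝 x, P x' → f x' = g x') : f x = g x :=
  Prim.eq_of_freq h.continuousAt h'.continuousAt hP hh

theorem good_freqX {x : X} (hT : ThinC n (GoodX p R m v)) :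
    ∃ᶠ x' in 𝓝 x, x' ∈ GoodX p R m v := fun hcon =>
  good_freq (at_chart x) hT (ev_chart (at_chart x) hcon)

section
variable [IsManifold 𝓘(ℂ, Cm n) ω X]

theorem AnX.of_chart {f : X → ℂ} {x : X} {e : Chart n X} (he : At e x)
    (h : AnalyticAt ℂ (fun z => f (e.symm z)) (e x)) : AnX n f x := by
  intro e' he'
  have h2 : e (e'.symm (e' x)) = e x := by rw [he'.left_inv]
  have h3 : AnalyticAt ℂ (fun z => f (e.symm (e (e'.symm z)))) (e' x) :=
    AnalyticAt.comp (g := fun z => f (e.symm z)) (f := fun z => e (e'.symm z)) (by rw [h2]; exact h)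
      (transition he' he).analyticAt
  refine h3.congr ?_
  filter_upwards [he'.nhds_at he] with z hz
  rw [hz.2.2.left_inv]

theorem AnX.of_comp {c : Cm n → ℂ} {x : X} {e : Chart n X} (he : At e x)
    (h : AnalyticAt ℂ c (e x)) : AnX n (fun x => c (e x)) x := by
  refine AnX.of_chart he (h.congr ?_)
  filter_upwards [ev_at' he] with z hz
  rw [hz.2.2]

theorem AnX.eventually {f : X → ℂ} {x : X} (h : AnX n f x) : ∀ᶠ x' in 𝓝 x, AnX n f x' := by
  have he : At (chartAt (Cm n) x) x := at_chart x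
  filter_upwards [ev_space he (h _ he).eventually_analyticAt, ev_at he] with x' h1 h2
  exact AnX.of_chart h2 h1

/-- gluing of analytic germs -/
theorem glue_ext {G : Set X} (hG : ∀ x : X, ∃ᶠ x' in 𝓝 x, x' ∈ G) (c0 : X → ℂ) :
    ∃ c1 : X → ℂ, ∀ x, (∃ c, AnX n c x ∧ ∀ᶠ x' in 𝓝 x, x' ∈ G → c0 x' = c x') →
      AnX n c1 x ∧ ∀ᶠ x' in 𝓝 x, x' ∈ G → c0 x' = c1 x' := by
  classical
  set c1 : X → ℂ := fun x =>
    if h : ∃ c, AnX n c x ∧ ∀ᶠ x' in 𝓝 x, x' ∈ G → c0 x' = c x' then h.choose x else 0 with hc1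
  refine ⟨c1, fun x ⟨c, hc, hcc⟩ => ?_⟩
  have h1 : ∀ᶠ x' in 𝓝 x, c x' = c1 x' := by
    filter_upwards [hc.eventually, eventually_eventually_nhds.2 hcc] with x' h2 h3
    have h : ∃ c, AnX n c x' ∧ ∀ᶠ x'' in 𝓝 x', x'' ∈ G → c0 x'' = c x'' := ⟨c, h2, h3⟩
    rw [hc1]
    simp only [dif_pos h]
    refine AnX.eq_of_freq h2 h.choose_spec.1 (hG x') ?_
    filter_upwards [h3, h.choose_spec.2] with x'' h4 h5 h6
    rw [← h4 h6, h5 h6]
  refine ⟨hc.congr h1, ?_⟩
  filter_upwards [h1, hcc] with x' h2 h3 h4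
  rw [h3 h4, h2]

end

/-- the local form, read in the chart `e` -/
def PB (om : Cm n → VV n R) (e₀ e : Chart n X) (z : Cm n) : VV n R :=
  (om (e₀ (e.symm z))).compLinearMap (fderiv ℂ (fun z' => e₀ (e.symm z')) z).toLinearMap

theorem PB_self {om : Cm n → VV n R} {e₀ : Chart n X} {x : X} (he : At e₀ x) :
    PB om e₀ e₀ (e₀ x) = om (e₀ x) := by
  have h1 := tau_self he
  rw [PB, he.left_inv]
  rw [tau] at h1
  rw [h1]
  rfl

section
variable [IsManifold 𝓘(ℂ, Cm n) ω X]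

theorem PB_change {om : Cm n → VV n R} {e₀ e e' : Chart n X} {x : X} (h₀ : At e₀ x) (he : At e x)
    (he' : At e' x) : PB om e₀ e (e x) = (PB om e₀ e' (e' x)).compLinearMap
      (fderiv ℂ (fun z => e' (e.symm z)) (e x)).toLinearMap := by
  have h1 := tau_comp he he' h₀
  rw [PB, PB, he.left_inv, he'.left_inv]
  simp only [tau] at h1
  rw [h1]
  rfl

theorem PB_anV {om : Cm n → VV n R} {e₀ e : Chart n X} {x : X} (h₀ : At e₀ x) (he : At e x)
    (hom : AnV om (e₀ x)) : AnV (PB om e₀ e) (e x) := by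
  intro J
  have h2 : e₀ (e.symm (e x)) = e₀ x := by rw [he.left_inv]
  have h1 : AnV (fun z => om (e₀ (e.symm z))) (e x) := fun J =>
    AnalyticAt.comp (g := fun z => om z (eJ J)) (f := fun z => e₀ (e.symm z))
      (by rw [h2]; exact hom J) (transition he h₀).analyticAt
  refine h1.eval' (ξ := fun z l => fderiv ℂ (fun z' => e₀ (e.symm z')) z (eJ J l)) fun l => ?_
  have h3 : AnalyticAt ℂ (fderiv ℂ (fun z' => e₀ (e.symm z'))) (e x) :=
    (transition he h₀).analyticAt.fderiv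
  exact ((ContinuousLinearMap.apply ℂ (Cm n) (eJ J l)).analyticAt _).comp h3

theorem PB_ne {om : Cm n → VV n R} {e₀ e : Chart n X} {x : X} (h₀ : At e₀ x) (he : At e x)
    (hom : om (e₀ x) ≠ 0) : PB om e₀ e (e x) ≠ 0 := by
  intro h0
  apply hom
  have h1 := PB_change (om := om) h₀ h₀ he
  rw [h0, PB_self h₀] at h1
  rw [h1]
  ext ξ
  rfl

theorem PB_onL (hv : HForm n R m p H v) (hp : Continuous p) {om : Cm n → VV n R}
    {e₀ e : Chart n X} {x : X} (he : At e x)
    (h : OnL p m v x e₀ (om (e₀ x))) : OnL p m v x e (PB om e₀ e (e x)) := by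
  have h1 := onL_change hv hp h he
  rw [PB, he.left_inv]
  exact h1

/-- the coefficient of a form on the line with respect to a primitive one -/
theorem exists_coef [CompleteSpace H] (hv : HForm n R m p H v) (hm : 1 ≤ m)
    (hT : ThinC n (GoodX p R m v)) {x : X} {e : Chart n X} (he : At e x) {om θ : Cm n → VV n R}
    (hom : ∀ᶠ z in 𝓝 (e x), IsFr om z ∧
      (e.symm z ∈ GoodX p R m v → OnL p m v (e.symm z) e (om z)))
    (hθ : AnV θ (e x))
    (hθL : ∀ᶠ z in 𝓝 (e x), e.symm z ∈ GoodX p R m v → OnL p m v (e.symm z) e (θ z)) :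
    ∃ c : Cm n → ℂ, AnalyticAt ℂ c (e x) ∧ ∀ᶠ z in 𝓝 (e x), θ z = c z • om z := by
  refine exists_quot (hom.mono fun z hz => hz.1) hθ ?_
  filter_upwards [hom, hθ.eventually, eventually_eventually_nhds.2 (hom.and hθL), ev_at' he]
    with z h1 h2 h3 h4 ξ ξ'
  have h5 : ∃ᶠ z' in 𝓝 z, e.symm z' ∈ GoodX p R m v := by
    have := good_freq h4.2.1 hT
    rwa [h4.2.2] at this
  refine Prim.eq_of_freq (f := fun z => θ z ξ * om z ξ') (f' := fun z => θ z ξ' * om z ξ)
    ((h2.eval ξ).mul (h1.1.an.eval ξ')).continuousAt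
    ((h2.eval ξ').mul (h1.1.an.eval ξ)).continuousAt h5 ?_
  filter_upwards [h3] with z' h6 h7
  exact onL_prop hv hm (h6.2 h7) (h6.1.2 h7) ξ ξ'

end

/-- the data of the line bundle -/
structure Dat (p : E → X) (R m : ℕ) (v : E → Chart n X → (Fin R → Cm n) → H) where
  om : X → Cm n → VV n R
  U : X → Set X
  g : X → X → X → ℂ
  isOpen : ∀ i, IsOpen (U i)
  mem : ∀ i, i ∈ U i
  mat : ∀ i x, x ∈ U i → At (chartAt (Cm n) i) x
  fr : ∀ i x, x ∈ U i → IsFr (om i) (chartAt (Cm n) i x)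
  onL : ∀ i x, x ∈ U i → x ∈ GoodX p R m v →
    OnL p m v x (chartAt (Cm n) i) (om i (chartAt (Cm n) i x))
  ne : ∀ i x, x ∈ U i → x ∈ GoodX p R m v → om i (chartAt (Cm n) i x) ≠ 0
  gan : ∀ i j x, x ∈ U i → x ∈ U j → AnX n (g i j) x
  glue : ∀ i j x (e : Chart n X), At e x → x ∈ U i → x ∈ U j →
    PB (om j) (chartAt (Cm n) j) e (e x) = g i j x • PB (om i) (chartAt (Cm n) i) e (e x)

variable [IsManifold 𝓘(ℂ, Cm n) ω X]

/-- two forms on the line -/
theorem onL_ratio (hv : HForm n R m p H v) (hm : 1 ≤ m) {x : X} {e : Chart n X} {θ om : VV n R}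
    (h : OnL p m v x e θ) (h' : OnL p m v x e om) (h0 : om ≠ 0) : ∃ c : ℂ, θ = c • om := by
  obtain ⟨J, hJ⟩ := VV_ne h0
  refine ⟨θ (eJ J) / om (eJ J), ?_⟩
  ext ξ
  rw [AlternatingMap.smul_apply, smul_eq_mul, div_mul_eq_mul_div, eq_div_iff hJ]
  exact onL_prop hv hm h h' ξ (eJ J)

theorem exists_dat [CompleteSpace H] (hv : HForm n R m p H v) (hp : IsCoveringMap p)
    (hs : Function.Surjective p) (hm : 1 ≤ m) (hT : ThinC n (GoodX p R m v)) :
    Nonempty (Dat p R m v) := by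
  classical
  have h1 : ∀ i : X, ∃ (om : Cm n → VV n R) (U : Set X), IsOpen U ∧ i ∈ U ∧ ∀ x ∈ U,
      At (chartAt (Cm n) i) x ∧ IsFr om (chartAt (Cm n) i x) ∧
      (x ∈ GoodX p R m v → OnL p m v x (chartAt (Cm n) i) (om (chartAt (Cm n) i x))) := by
    intro i
    obtain ⟨om, hom⟩ := exists_frame hv hp hs hm hT (at_chart (n := n) i)
    have h2 : ∀ᶠ x in 𝓝 i, At (chartAt (Cm n) i) x ∧ IsFr om (chartAt (Cm n) i x) ∧
        (x ∈ GoodX p R m v → OnL p m v x (chartAt (Cm n) i) (om (chartAt (Cm n) i x))) := by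
      filter_upwards [ev_space (at_chart i) hom, ev_at (at_chart (n := n) i)] with x h3 h4
      refine ⟨h4, h3.1, fun h5 => ?_⟩
      have := h3.2
      rw [h4.left_inv] at this
      exact this h5
    obtain ⟨U, h3, h4, h5⟩ := eventually_nhds_iff.1 h2
    exact ⟨om, U, h4, h5, h3⟩
  choose om U hUo hUi hU using h1
  have hfr : ∀ i x, x ∈ U i → ∀ᶠ z in 𝓝 (chartAt (Cm n) i x), IsFr (om i) z ∧
      ((chartAt (Cm n) i).symm z ∈ GoodX p R m v →
        OnL p m v ((chartAt (Cm n) i).symm z) (chartAt (Cm n) i) (om i z)) := by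
    intro i x hx
    filter_upwards [ev_chart (hU i x hx).1 ((hUo i).mem_nhds hx), ev_at' (hU i x hx).1] with z h1 h2
    have h3 := hU i _ h1
    rw [h2.2.2] at h3
    exact ⟨h3.2.1, h3.2.2⟩
  have hne : ∀ i x, x ∈ U i → x ∈ GoodX p R m v → om i (chartAt (Cm n) i x) ≠ 0 :=
    fun i x hx hg => (hU i x hx).2.1.ne_zero hv hp hm (hU i x hx).1 hg
      ((hfr i x hx).mono fun z hz => hz.2)
  have hg : ∀ i j : X, ∃ g : X → ℂ, ∀ x, x ∈ U i → x ∈ U j → AnX n g x ∧
      ∀ᶠ x' in 𝓝 x, x' ∈ GoodX p R m v →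
        PB (om j) (chartAt (Cm n) j) (chartAt (Cm n) i) (chartAt (Cm n) i x') =
          g x' • om i (chartAt (Cm n) i x') := by
    intro i j
    obtain ⟨g, hg⟩ := glue_ext (n := n) (G := GoodX p R m v) (fun x => good_freqX hT) (fun x =>
      if h : ∃ c : ℂ, PB (om j) (chartAt (Cm n) j) (chartAt (Cm n) i) (chartAt (Cm n) i x) =
        c • om i (chartAt (Cm n) i x) then h.choose else 0)
    refine ⟨g, fun x hi hj => ?_⟩
    have hgerm : ∃ c : Cm n → ℂ, AnalyticAt ℂ c (chartAt (Cm n) i x) ∧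
        ∀ᶠ z in 𝓝 (chartAt (Cm n) i x), PB (om j) (chartAt (Cm n) j) (chartAt (Cm n) i) z =
          c z • om i z := by
      refine exists_coef hv hm hT (hU i x hi).1 (hfr i x hi)
        (PB_anV (hU j x hj).1 (hU i x hi).1 (hU j x hj).2.1.an) ?_
      filter_upwards [ev_chart (hU i x hi).1 ((hUo i).mem_nhds hi),
        ev_chart (hU i x hi).1 ((hUo j).mem_nhds hj), ev_at' (hU i x hi).1] with z h1 h2 h3 h4
      have h5 := PB_onL hv hp.continuous h3.2.1 ((hU j _ h2).2.2 h4)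
      rwa [h3.2.2] at h5
    obtain ⟨c, hc, hcc⟩ := hgerm
    have hex : ∀ᶠ x' in 𝓝 x, PB (om j) (chartAt (Cm n) j) (chartAt (Cm n) i)
        (chartAt (Cm n) i x') = c (chartAt (Cm n) i x') • om i (chartAt (Cm n) i x') :=
      ev_space (hU i x hi).1 hcc
    obtain ⟨h1, h2⟩ := hg x ⟨fun x => c (chartAt (Cm n) i x), AnX.of_comp (hU i x hi).1 hc, by
      filter_upwards [hex, (hUo i).mem_nhds hi] with x' h3 h4 h5
      have h6 : ∃ c : ℂ, PB (om j) (chartAt (Cm n) j) (chartAt (Cm n) i) (chartAt (Cm n) i x') =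
        c • om i (chartAt (Cm n) i x') := ⟨_, h3⟩
      rw [dif_pos h6]
      have h7 := h6.choose_spec.symm.trans h3
      exact smul_left_injective ℂ (hne i x' h4 h5) h7⟩
    refine ⟨h1, ?_⟩
    filter_upwards [h2, hex] with x' h3 h4 h5
    have h6 : ∃ c : ℂ, PB (om j) (chartAt (Cm n) j) (chartAt (Cm n) i) (chartAt (Cm n) i x') =
        c • om i (chartAt (Cm n) i x') := ⟨_, h4⟩
    have h7 := h3 h5
    rw [dif_pos h6] at h7
    rw [← h7]
    exact h6.choose_spec
  choose g hg using hg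
  refine ⟨⟨om, U, g, hUo, hUi, fun i x hx => (hU i x hx).1, fun i x hx => (hU i x hx).2.1,
    fun i x hx => (hU i x hx).2.2, hne, fun i j x hi hj => (hg i j x hi hj).1, ?_⟩⟩
  intro i j x e he hi hj
  have hgood : ∀ x', x' ∈ U i → x' ∈ U j → At e x' → x' ∈ GoodX p R m v →
      PB (om j) (chartAt (Cm n) j) e (e x') = g i j x' • PB (om i) (chartAt (Cm n) i) e (e x') := by
    intro x' hi' hj' he' hgd
    have h1 := (hg i j x' hi' hj').2.self_of_nhds hgd
    rw [← PB_self (om := om i) (hU i x' hi').1] at h1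
    rw [PB_change (hU j x' hj').1 he' (hU i x' hi').1, h1,
      PB_change (hU i x' hi').1 he' (hU i x' hi').1]
    rfl
  have h1 := AnV.eq_of_freq (θ := PB (om j) (chartAt (Cm n) j) e)
    (θ' := fun z => g i j (e.symm z) • PB (om i) (chartAt (Cm n) i) e z)
    (PB_anV (hU j x hj).1 he (hU j x hj).2.1.an)
    ((PB_anV (hU i x hi).1 he (hU i x hi).2.1.an).smul ((hg i j x hi hj).1 e he))
    (good_freq he hT) (by
      filter_upwards [ev_chart he ((hUo i).mem_nhds hi), ev_chart he ((hUo j).mem_nhds hj),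
        ev_at' he] with z h1 h2 h3 h4
      have h5 := hgood _ h1 h2 h3.2.1 h4
      rwa [h3.2.2] at h5)
  simp only [he.left_inv] at h1
  exact h1

end Vale.Agent.P284.H553.LB
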