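import Vale.Agent.P284.H553.LB6

/-!
# P284 (helper553), T1', module LB: the line bundle, its morphism to the forms, and its sections
-/

open scoped Manifold ContDiff Topology
open Filter Set Metric

noncomputable section

namespace Vale.Agent.P284.H553.LB

open Vale.Agent.P272.K Vale.Agent.P284.H573 Vale.Agent.P284.H248 Vale.Agent.P284.H221

variable {n R m : ℕ} {X E : Type} [TopologicalSpace X] [ChartedSpace (Cm n) X] [TopologicalSpace E]
  {H : Type} [NormedAddCommGroup H] [InnerProductSpace ℂ H] {p : E → X}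
  {v : E → Chart n X → (Fin R → Cm n) → H} [IsManifold 𝓘(ℂ, Cm n) ω X]

theorem Dat.PB_ne (D : Dat p R m v) {i x : X} {e : Chart n X} (he : At e x) (hi : x ∈ D.U i)
    (hg : x ∈ GoodX p R m v) : PB (D.om i) (chartAt (Cm n) i) e (e x) ≠ 0 :=
  LB.PB_ne (D.mat i x hi) he (D.ne i x hi hg)

theorem Dat.cocyc (D : Dat p R m v) (hT : ThinC n (GoodX p R m v)) {i j k x : X}
    (hi : x ∈ D.U i) (hj : x ∈ D.U j) (hk : x ∈ D.U k) :
    D.g i j x * D.g j k x = D.g i k x := by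
  refine AnX.eq_of_freq (f := fun x => D.g i j x * D.g j k x) (g := D.g i k)
    ((D.gan i j x hi hj).mul (D.gan j k x hj hk)) (D.gan i k x hi hk)
    (good_freqX (x := x) hT) ?_
  filter_upwards [(D.isOpen i).mem_nhds hi, (D.isOpen j).mem_nhds hj, (D.isOpen k).mem_nhds hk]
    with x' hi' hj' hk' hg
  have he := D.mat i x' hi'
  have h1 := D.glue i k x' _ he hi' hk'
  rw [D.glue j k x' _ he hj' hk', D.glue i j x' _ he hi' hj', smul_smul] at h1
  have h2 := smul_left_injective ℂ (D.PB_ne he hi' hg) h1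
  rw [← h2, mul_comm]

theorem Dat.g_self (D : Dat p R m v) (hT : ThinC n (GoodX p R m v)) {i x : X}
    (hi : x ∈ D.U i) : D.g i i x = 1 := by
  refine AnX.eq_of_freq (f := D.g i i) (g := fun _ => 1) (D.gan i i x hi hi)
    (fun e he => analyticAt_const) (good_freqX (x := x) hT) ?_
  filter_upwards [(D.isOpen i).mem_nhds hi] with x' hi' hg
  have he := D.mat i x' hi'
  have h1 := D.glue i i x' _ he hi' hi'
  exact smul_left_injective ℂ (D.PB_ne he hi' hg) (h1.symm.trans (one_smul ℂ _).symm)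

/-- the line bundle -/
def Dat.L (D : Dat p R m v) (hT : ThinC n (GoodX p R m v)) : LineBundle n X where
  ι := X
  U := D.U
  isOpen := D.isOpen
  cover := fun x => ⟨x, D.mem x⟩
  g := D.g
  holo := fun i j e x he hi hj => (D.gan i j x hi hj e he).contDiffAt
  ne_zero := fun i j x hi hj h0 => by
    have h1 := D.cocyc hT hi hj hi
    rw [h0, zero_mul, D.g_self hT hi] at h1
    exact zero_ne_one h1
  cocycle := fun i j k x hi hj hk => D.cocyc hT hi hj hk

/-- the morphism to the sheaf of forms -/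
def Dat.mor (D : Dat p R m v) (hT : ThinC n (GoodX p R m v)) : Mor (D.L hT) R where
  form := fun (i : X) e z => PB (D.om i) (chartAt (Cm n) i) e z
  holo := fun (i : X) _ x he hi ξ =>
    ((PB_anV (D.mat i x hi) he (D.fr i x hi).an).eval ξ).contDiffAt
  change := fun (i : X) _ _ x he he' hi => PB_change (D.mat i x hi) he he'
  glue := fun i j e x he hi hj => D.glue i j x e he hi hj

omit [IsManifold 𝓘(ℂ, Cm n) ω X] in
theorem Dat.fr_near (D : Dat p R m v) {i x : X} (hi : x ∈ D.U i) :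
    ∀ᶠ z in 𝓝 (chartAt (Cm n) i x), IsFr (D.om i) z ∧
      ((chartAt (Cm n) i).symm z ∈ GoodX p R m v →
        OnL p m v ((chartAt (Cm n) i).symm z) (chartAt (Cm n) i) (D.om i z)) := by
  filter_upwards [ev_chart (D.mat i x hi) ((D.isOpen i).mem_nhds hi), ev_at' (D.mat i x hi)]
    with z h1 h2
  have h3 := D.fr i _ h1
  have h4 := D.onL i _ h1
  rw [h2.2.2] at h3 h4
  exact ⟨h3, h4⟩

section
variable {k : ℕ} {s : X → Chart n X → (Fin R → Cm n) → ℂ}

/-- the coefficient of the section near a good point -/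
theorem Dat.secA [CompleteSpace H] (D : Dat p R m v) (hv : HForm n R m p H v)
    (hp : IsCoveringMap p) (hm : 1 ≤ m) (hT : ThinC n (GoodX p R m v)) (hs : LSec p R m k v s)
    {i x : X} (hi : x ∈ D.U i) (hg : x ∈ GoodX p R m v) :
    ∃ u : Cm n → ℂ, AnalyticAt ℂ u (chartAt (Cm n) i x) ∧ ∀ᶠ x' in 𝓝 x, ∀ ξ,
      s x' (chartAt (Cm n) i) ξ = u (chartAt (Cm n) i x') *
        D.om i (chartAt (Cm n) i x') ξ ^ k := by
  have he := D.mat i x hi
  obtain ⟨y, b, γ, S, hy, hnf, hS, hsS⟩ := hs.nf x hg _ he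
  subst hy
  obtain ⟨c, hc, hcc⟩ := exists_coef hv hm hT he (D.fr_near hi) (θ := DF b) (DF_anV hnf.ban) (by
    filter_upwards [nf_near hp hnf, ev_at' he] with z h1 h2 _
    obtain ⟨y', hy', hnf'⟩ := h1
    have h3 := onL_DF hnf'
    rwa [hy', h2.2.2] at h3)
  refine ⟨fun z => c z ^ k * S z, (hc.pow k).mul hS, ?_⟩
  filter_upwards [hsS, ev_space he hcc] with x' h1 h2 ξ
  rw [h1 ξ, ← DF_apply, h2, AlternatingMap.smul_apply, smul_eq_mul, mul_pow]
  ring

/-- the extension of the coefficient where the generator does not vanish -/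
theorem Dat.secB [CompleteSpace H] (D : Dat p R m v) (hv : HForm n R m p H v)
    (hp : IsCoveringMap p) (hm : 1 ≤ m) (hT : ThinC n (GoodX p R m v)) (hs : LSec p R m k v s)
    {i x : X} (hi : x ∈ D.U i) (h0 : D.om i (chartAt (Cm n) i x) ≠ 0) :
    ∃ u : Cm n → ℂ, AnalyticAt ℂ u (chartAt (Cm n) i x) ∧ ∀ᶠ x' in 𝓝 x,
      x' ∈ GoodX p R m v → ∀ ξ, s x' (chartAt (Cm n) i) ξ = u (chartAt (Cm n) i x') *
        D.om i (chartAt (Cm n) i x') ξ ^ k := by
  have he := D.mat i x hi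
  obtain ⟨J, hJ⟩ := VV_ne h0
  obtain ⟨Den, hDen, hDne, hDT⟩ := hT x _ he
  set h : Cm n → ℂ := fun z => s ((chartAt (Cm n) i).symm z) (chartAt (Cm n) i) (eJ J) /
    D.om i z (eJ J) ^ k with hh
  have hJan : AnalyticAt ℂ (fun z => D.om i z (eJ J)) (chartAt (Cm n) i x) := (D.fr i x hi).an J
  have hJne : ∀ᶠ z in 𝓝 (chartAt (Cm n) i x), D.om i z (eJ J) ≠ 0 :=
    hJan.continuousAt.eventually_ne hJ
  -- the coefficient at the good points
  have hA : ∀ᶠ z in 𝓝 (chartAt (Cm n) i x), (chartAt (Cm n) i).symm z ∈ GoodX p R m v →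
      AnalyticAt ℂ h z ∧ ∀ ξ, s ((chartAt (Cm n) i).symm z) (chartAt (Cm n) i) ξ =
        h z * D.om i z ξ ^ k := by
    filter_upwards [ev_chart he ((D.isOpen i).mem_nhds hi), ev_at' he,
      eventually_eventually_nhds.2 hJne] with z h1 h2 h3 h4
    obtain ⟨u, hu, huu⟩ := D.secA hv hp hm hT hs h1 h4
    rw [h2.2.2] at hu
    have h5 : ∀ᶠ z' in 𝓝 z, ∀ ξ, s ((chartAt (Cm n) i).symm z') (chartAt (Cm n) i) ξ =
        u z' * D.om i z' ξ ^ k := by
      have h6 := ev_chart h2.2.1 huu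
      have h7 := ev_at' h2.2.1
      rw [h2.2.2] at h6 h7
      filter_upwards [h6, h7] with z' h8 h9 ξ
      rw [h8 ξ, h9.2.2]
    have h6 : ∀ᶠ z' in 𝓝 z, u z' = h z' := by
      filter_upwards [h5, h3] with z' h7 h8
      rw [hh]
      simp only
      rw [h7 (eJ J), mul_div_assoc, div_self (pow_ne_zero _ h8), mul_one]
    refine ⟨hu.congr h6, fun ξ => ?_⟩
    rw [h5.self_of_nhds ξ, h6.self_of_nhds]
  have hDg : ∀ᶠ z in 𝓝 (chartAt (Cm n) i x), Den z ≠ 0 →
      (chartAt (Cm n) i).symm z ∈ GoodX p R m v := by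
    filter_upwards [ev_chart he hDT, ev_at' he] with z h1 h2 h3
    by_contra h4
    have := h1 h4
    rw [h2.2.2] at this
    exact h3 this
  obtain ⟨Q, hQ, hQQ⟩ := Vale.Agent.P281.MF.extend_off (h := h) hDen hDne (by
      filter_upwards [hA, hDg] with z h1 h2 h3 using (h1 (h2 h3)).1.differentiableAt) (by
      filter_upwards [ev_chart he (ev_at he), ev_at' he, hJan.eventually_analyticAt, hJne,
        eventually_eventually_nhds.2 hDg] with z h1 h2 h3 h4 h5 h6
      refine subset_closure ⟨h6, ?_⟩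
      obtain ⟨C, hC⟩ := hs.bdd _ _ h2.2.1 (eJ J)
      have hC' := ev_chart h2.2.1 hC
      rw [h2.2.2] at hC'
      have h7 : ∀ᶠ z' in 𝓝 z, ‖D.om i z (eJ J)‖ / 2 < ‖D.om i z' (eJ J)‖ :=
        h3.continuousAt.norm.eventually_const_lt (by
          have := norm_pos_iff.2 h4
          simp only
          linarith)
      refine ⟨|C| / (‖D.om i z (eJ J)‖ / 2) ^ k, ?_⟩
      filter_upwards [hC', h7, h5] with z' h8 h9 h10 h11
      have h12 : 0 < ‖D.om i z (eJ J)‖ / 2 := by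
        have := norm_pos_iff.2 h4
        linarith
      rw [hh]
      simp only
      rw [norm_div, norm_pow]
      refine div_le_div₀ (abs_nonneg _) ((h8 (h10 h11)).trans (le_abs_self _)) (by positivity) ?_
      exact pow_le_pow_left₀ h12.le h9.le k)
  refine ⟨Q, hQ, ?_⟩
  -- density of the set where `Den ≠ 0`
  have hfr : ∀ᶠ z in 𝓝 (chartAt (Cm n) i x), ∃ᶠ z' in 𝓝 z, Den z' ≠ 0 := by
    obtain ⟨r, hr, hball⟩ := Metric.eventually_nhds_iff_ball.1 hDen.eventually_analyticAt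
    have hDne' : ∃ᶠ z in 𝓝 (chartAt (Cm n) i x), Den z ≠ 0 := fun hcon =>
      hDne (hcon.mono fun z hz => not_not.1 hz)
    obtain ⟨z₁, h1, h2⟩ := (hDne'.and_eventually (ball_mem_nhds _ hr)).exists
    filter_upwards [ball_mem_nhds _ hr] with z hz
    exact Prim.freq_ne (fun z hz => hball z hz) h2 h1 hz
  have hfin : ∀ᶠ z in 𝓝 (chartAt (Cm n) i x), (chartAt (Cm n) i).symm z ∈ GoodX p R m v →
      ∀ ξ, s ((chartAt (Cm n) i).symm z) (chartAt (Cm n) i) ξ = Q z * D.om i z ξ ^ k := by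
    filter_upwards [hA, hfr, hQ.eventually_analyticAt, eventually_eventually_nhds.2 hQQ]
      with z h1 h2 h3 h4 h5 ξ
    obtain ⟨h6, h7⟩ := h1 h5
    rw [h7 ξ]
    have h8 : h z = Q z := Prim.eq_of_freq h6.continuousAt h3.continuousAt h2 h4
    rw [h8]
  filter_upwards [ev_space he hfin, ev_at he] with x' h1 h2 h3 ξ
  have h4 := h1 (by rw [h2.left_inv]; exact h3) ξ
  rwa [h2.left_inv] at h4

theorem Dat.secC [CompleteSpace H] (D : Dat p R m v) (hv : HForm n R m p H v)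
    (hp : IsCoveringMap p) (hm : 1 ≤ m) (hT : ThinC n (GoodX p R m v)) (hs : LSec p R m k v s)
    (i : X) : ∃ f : X → ℂ, ∀ x ∈ D.U i, AnX n f x ∧ (x ∈ GoodX p R m v →
      ∀ ξ, s x (chartAt (Cm n) i) ξ = f x * D.om i (chartAt (Cm n) i x) ξ ^ k) := by
  classical
  set c0 : X → ℂ := fun x => if h : ∃ c : ℂ, ∀ ξ, s x (chartAt (Cm n) i) ξ =
    c * D.om i (chartAt (Cm n) i x) ξ ^ k then h.choose else 0 with hc0
  obtain ⟨f, hf⟩ := glue_ext (n := n) (G := GoodX p R m v) (fun x => good_freqX hT) c0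
  have hval : ∀ x ∈ D.U i, x ∈ GoodX p R m v → ∀ c : ℂ, (∀ ξ, s x (chartAt (Cm n) i) ξ =
      c * D.om i (chartAt (Cm n) i x) ξ ^ k) → c0 x = c := by
    intro x hi hg c hc
    have h : ∃ c : ℂ, ∀ ξ, s x (chartAt (Cm n) i) ξ =
      c * D.om i (chartAt (Cm n) i x) ξ ^ k := ⟨c, hc⟩
    rw [hc0]
    simp only [dif_pos h]
    obtain ⟨J, hJ⟩ := VV_ne (D.ne i x hi hg)
    have h1 := (h.choose_spec (eJ J)).symm.trans (hc (eJ J))
    exact mul_right_cancel₀ (pow_ne_zero _ hJ) h1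
  have hB : ∀ x ∈ D.U i, D.om i (chartAt (Cm n) i x) ≠ 0 → AnX n f x ∧
      ∀ᶠ x' in 𝓝 x, x' ∈ GoodX p R m v → c0 x' = f x' := by
    intro x hi h0
    obtain ⟨u, hu, huu⟩ := D.secB hv hp hm hT hs hi h0
    refine hf x ⟨fun x => u (chartAt (Cm n) i x), AnX.of_comp (D.mat i x hi) hu, ?_⟩
    filter_upwards [huu, (D.isOpen i).mem_nhds hi] with x' h1 h2 h3
    exact hval x' h2 h3 _ (h1 h3)
  have hC : ∀ x ∈ D.U i, AnX n f x := by
    intro x hi
    have he := D.mat i x hi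
    obtain ⟨c', hc', hcc⟩ := (D.fr i x hi).rmv ℂ (fun z => f ((chartAt (Cm n) i).symm z)) (by
      filter_upwards [ev_chart he ((D.isOpen i).mem_nhds hi), ev_at' he] with z h1 h2 h3
      have h4 := (hB _ h1 (by rw [h2.2.2]; exact h3)).1 _ h2.2.1
      rwa [h2.2.2] at h4)
    refine (hf x ⟨fun x => c' (chartAt (Cm n) i x), AnX.of_comp he hc', ?_⟩).1
    filter_upwards [ev_space he hcc, (D.isOpen i).mem_nhds hi] with x' h1 h2 h3
    have h4 := D.ne i x' h2 h3
    rw [(hB x' h2 h4).2.self_of_nhds h3, ← h1 h4, (D.mat i x' h2).left_inv]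
  refine ⟨f, fun x hi => ⟨hC x hi, fun hg ξ => ?_⟩⟩
  obtain ⟨u, hu, huu⟩ := D.secA hv hp hm hT hs hi hg
  have h1 := huu.self_of_nhds
  have h2 := hval x hi hg _ h1
  have h3 := (hB x hi (D.ne i x hi hg)).2.self_of_nhds hg
  rw [h1 ξ, ← h2, h3]

end

theorem Dat.exists_sec [CompleteSpace H] (D : Dat p R m v) (hv : HForm n R m p H v)
    (hp : IsCoveringMap p) (hm : 1 ≤ m) (hT : ThinC n (GoodX p R m v)) {k : ℕ}
    {s : X → Chart n X → (Fin R → Cm n) → ℂ} (hs : LSec p R m k v s) :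
    ∃ σ : Sec (D.L hT) k, ∀ (i : X) (e : Chart n X) x, At e x → x ∈ D.U i →
      x ∈ GoodX p R m v → ∀ ξ, s x e ξ = σ.f i x * (D.mor hT).form i e (e x) ξ ^ k := by
  choose f hf using D.secC hv hp hm hT hs
  have hfe : ∀ i (e : Chart n X) x, At e x → x ∈ D.U i → x ∈ GoodX p R m v → ∀ ξ,
      s x e ξ = f i x * PB (D.om i) (chartAt (Cm n) i) e (e x) ξ ^ k := by
    intro i e x he hi hg ξ
    rw [hs.change x hg e _ he (D.mat i x hi) ξ, (hf i x hi).2 hg, PB, he.left_inv]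
    rfl
  refine ⟨⟨f, fun i e x he hi => ((hf i x hi).1 e he).contDiffAt, ?_⟩, ?_⟩
  · intro i j x hi hj
    refine AnX.eq_of_freq (f := f i) (g := fun x => D.g i j x ^ k * f j x) (hf i x hi).1
      (((D.gan i j x hi hj).pow k).mul (hf j x hj).1) (good_freqX (x := x) hT) ?_
    filter_upwards [(D.isOpen i).mem_nhds hi, (D.isOpen j).mem_nhds hj] with x' hi' hj' hg
    have he := D.mat i x' hi'
    obtain ⟨J, hJ⟩ := VV_ne (D.PB_ne he hi' hg)
    have h1 := hfe i _ x' he hi' hg (eJ J)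
    rw [hfe j _ x' he hj' hg (eJ J), D.glue i j x' _ he hi' hj', AlternatingMap.smul_apply,
      smul_eq_mul, mul_pow, ← mul_assoc] at h1
    have h2 := mul_right_cancel₀ (pow_ne_zero _ hJ) h1
    rw [← h2, mul_comm]
  · exact fun i e x he hi hg ξ => hfe i e x he hi hg ξ

theorem lbStmt : LBStmt := by
  intro n R m X E _ _ _ _ p H _ _ _ v hp hsp hm hv hT
  obtain ⟨D⟩ := exists_dat hv hp hsp hm hT
  exact ⟨D.L hT, D.mor hT, fun i e x he hi hg => D.PB_ne he hi hg,
    fun k s hs => D.exists_sec hv hp hm hT hs⟩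

end Vale.Agent.P284.H553.LB
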