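import Vale.Agent.P284.H553.LB7

/-!
# P284 (helper553), T1', module LB: Iitaka dimension of the line of a natural form
-/

open scoped Manifold ContDiff Topology
open Filter Set Metric

noncomputable section

namespace Vale.Agent.P284.H553.LB

open Vale.Agent.P272.K Vale.Agent.P284.H573 Vale.Agent.P284.H248 Vale.Agent.P284.H221

theorem iitStmt : IitStmt := by
  intro n R m X E _ _ _ _ p H _ _ _ v hp hsp hm hv hT k N hk s hs x hx e ξ he h0 hli
  obtain ⟨L, φ, hφ, hsec⟩ := lbStmt n R m X E p H v hp hsp hm hv hT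
  choose σ hσ using fun a => hsec k (s a) (hs a)
  obtain ⟨i, hi⟩ := L.cover x
  refine ⟨L, φ, ⟨i, e, x, he, hi, hφ i e x he hi hx⟩, k, hk, σ, i, e, x, he, hi, ?_, ?_⟩
  · intro h1
    apply h0
    rw [hσ 0 i e x he hi hx ξ, h1, zero_mul]
  · have h1 : φ.form i e (e x) ξ ≠ 0 := by
      intro h1
      apply h0
      rw [hσ 0 i e x he hi hx ξ, h1, zero_pow (by omega), mul_zero]
    have h2 : ∀ᶠ z in 𝓝 (e x), φ.form i e z ξ ≠ 0 :=
      (φ.holo i e x he hi ξ).continuousAt.eventually_ne h1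
    have h3 : ∀ a : Fin N, fderiv ℂ (fun z => (σ a.succ).f i (e.symm z) / (σ 0).f i (e.symm z)) (e x) =
        fderiv ℂ (fun z => s a.succ (e.symm z) e ξ / s 0 (e.symm z) e ξ) (e x) := by
      intro a
      refine Filter.EventuallyEq.fderiv_eq ?_
      filter_upwards [h2, ev_chart he (goodX_open hp hx), ev_at' he,
        ev_chart he ((L.isOpen i).mem_nhds hi)] with z h4 h5 h6 h7
      have h8 := hσ a.succ i e _ h6.2.1 h7 h5 ξ
      have h9 := hσ 0 i e _ h6.2.1 h7 h5 ξ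
      rw [h6.2.2] at h8 h9
      rw [h8, h9, mul_div_mul_right _ _ (pow_ne_zero _ h4)]
    simp only [h3]
    exact hli

variable {n R m : ℕ} {X E : Type} [TopologicalSpace X] [ChartedSpace (Cm n) X] [TopologicalSpace E]
  {H : Type} [NormedAddCommGroup H] [InnerProductSpace ℂ H] {p : E → X}
  {v : E → Chart n X → (Fin R → Cm n) → H}

/-- `v` is locally bounded on `X` -/
theorem v_bdd (hv : HForm n R m p H v) (hp : IsCoveringMap p) (hs : Function.Surjective p) {x : X}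
    {e : Chart n X} (he : At e x) (ξ : Fin R → Cm n) :
    ∃ C : ℝ, ∀ᶠ x' in 𝓝 x, ∀ y, p y = x' → ‖v y e ξ‖ ≤ C := by
  obtain ⟨y₀, rfl⟩ := hs x
  obtain ⟨F, hF, hFv⟩ := hv.hol y₀ e he
  have h1 : ContinuousAt (fun x' => F (e x', ξ)) (p y₀) :=
    ContinuousAt.comp (g := F) (f := fun x' => (e x', ξ)) (hF ξ).continuousAt
      ((e.continuousAt he.2).prodMk continuousAt_const)
  refine ⟨‖F (e (p y₀), ξ)‖ + 1, ?_⟩
  filter_upwards [h1.norm.eventually_lt_const (lt_add_one _), ev_base hp hFv, ev_at he]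
    with x' h2 h3 h4 y hy
  obtain ⟨y', h5, h6⟩ := h3
  rw [hv.inv y y' e (by rw [hy]; exact h4) (hy.trans h5.symm), h6, h5]
  exact h2.le

/-- local boundedness from a pointwise bound by `v` -/
theorem bdd_of_le (hv : HForm n R m p H v) (hp : IsCoveringMap p) (hs : Function.Surjective p)
    (hm : 1 ≤ m) {k : ℕ} {s : X → Chart n X → (Fin R → Cm n) → ℂ} {C : ℝ}
    (h : ∀ x ∈ GoodX p R m v, ∀ e, At e x → ∀ y, p y = x → ∀ ξ,
      ‖s x e ξ‖ ^ m ≤ C * ‖v y e ξ‖ ^ k) :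
    ∀ x e, At e x → ∀ ξ, ∃ C' : ℝ, ∀ᶠ x' in 𝓝 x, x' ∈ GoodX p R m v → ‖s x' e ξ‖ ≤ C' := by
  intro x e he ξ
  obtain ⟨M, hM⟩ := v_bdd hv hp hs he ξ
  refine ⟨max 1 (|C| * |M| ^ k), ?_⟩
  filter_upwards [hM, ev_at he] with x' h1 h2 h3
  obtain ⟨y, hy⟩ := hs x'
  have h4 := h x' h3 e h2 y hy ξ
  have h5 : C * ‖v y e ξ‖ ^ k ≤ |C| * |M| ^ k := by
    refine mul_le_mul (le_abs_self _) ?_ (by positivity) (abs_nonneg _)
    exact pow_le_pow_left₀ (norm_nonneg _) ((h1 y hy).trans (le_abs_self _)) _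
  rcases le_total ‖s x' e ξ‖ 1 with h6 | h6
  · exact h6.trans (le_max_left _ _)
  · refine le_trans ?_ (le_max_right _ _)
    refine le_trans ?_ (h4.trans h5)
    calc ‖s x' e ξ‖ = ‖s x' e ξ‖ ^ 1 := (pow_one _).symm
      _ ≤ ‖s x' e ξ‖ ^ m := pow_le_pow_right₀ h6 hm

/-- The components of an invariant form are sections. -/
theorem lsec_comp [IsManifold 𝓘(ℂ, Cm n) ω X] (hv : HForm n R m p H v)
    (hp : IsCoveringMap p) (hs : Function.Surjective p)
    (hinv : ∀ y y' e ξ, p y = p y' → v y e ξ = v y' e ξ) (a : H) :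
    LSec p R m m v (fun x e ξ => inner ℂ a (v (Function.surjInv hs x) e ξ)) := by
  refine ⟨?_, ?_, ?_⟩
  · rintro x ⟨y, hy, e', b', γ, hnf'⟩ e he
    subst hy
    have hnf := nf_change hv hp.continuous hnf' he
    set b : Cm n → Cm R := fun z => b' (e' (e.symm z)) with hb
    refine ⟨y, b, γ, fun z => inner ℂ a (γ (b z)), rfl, hnf,
      ((innerSL ℂ a).analyticAt _).comp (AnalyticAt.comp (g := γ) (f := b) hnf.γan hnf.ban), ?_⟩
    filter_upwards [ev_base hp hnf.nf] with x' hx' ξ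
    obtain ⟨y', h1, h2⟩ := hx'
    rw [hinv (Function.surjInv hs x') y' e ξ (by rw [Function.surjInv_eq hs, h1]), h2 ξ, h1,
      inner_smul_right]
  · intro x hx e e' he he' ξ
    have h1 := hv.change (Function.surjInv hs x) e e' (by rw [Function.surjInv_eq hs]; exact he)
      (by rw [Function.surjInv_eq hs]; exact he') ξ
    rw [Function.surjInv_eq hs] at h1
    rw [h1]
  · intro x e he ξ
    obtain ⟨C, hC⟩ := v_bdd hv hp hs he ξ
    refine ⟨‖a‖ * C, ?_⟩
    filter_upwards [hC] with x' h1 _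
    refine (norm_inner_le_norm _ _).trans (mul_le_mul_of_nonneg_left ?_ (norm_nonneg _))
    exact h1 _ (Function.surjInv_eq hs x')

end Vale.Agent.P284.H553.LB
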