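import Vale.Agent.P281.ISO.Ext3

/-!
# P284 (helper553), T1', module LB: the greatest common divisor of holomorphic functions on a line

One variable: `f` is holomorphic on the disc of radius `3ρ`, without zeros on `ρ/2 ≤ |t| ≤ 2ρ`;
`h j` is a family of holomorphic functions. The monic polynomial `Q` of minimal degree such that all
`Q h j / f` are holomorphic on the disc; moments on the circle `|t| = ρ`.
-/

open Set Filter Metric Topology Polynomial

namespace Vale.Agent.P284.H553.Prim

theorem prod_lower {s : Multiset ℂ} {r a : ℝ} {t : ℂ} (h : ∀ b ∈ s, ‖b‖ < r) (ha : 0 ≤ a)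
    (ht : r + a ≤ ‖t‖) : a ^ Multiset.card s ≤ ‖(s.map fun b => t - b).prod‖ := by
  induction s using Multiset.induction_on with
  | empty => simp
  | cons b s ih =>
    rw [Multiset.map_cons, Multiset.prod_cons, norm_mul, Multiset.card_cons, pow_succ']
    have h1 := ih fun c hc => h c (Multiset.mem_cons_of_mem hc)
    have h2 : ‖b‖ < r := h b (Multiset.mem_cons_self b s)
    have h3 : a ≤ ‖t - b‖ := by
      have := norm_sub_norm_le t b
      linarith
    exact mul_le_mul h3 h1 (by positivity) (norm_nonneg _)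

theorem prod_upper {s : Multiset ℂ} {r a : ℝ} {t : ℂ} (h : ∀ b ∈ s, ‖b‖ < r)
    (ht : ‖t‖ + r ≤ a) : ‖(s.map fun b => t - b).prod‖ ≤ a ^ Multiset.card s := by
  induction s using Multiset.induction_on with
  | empty => simp
  | cons b s ih =>
    rw [Multiset.map_cons, Multiset.prod_cons, norm_mul, Multiset.card_cons, pow_succ']
    have h1 := ih fun c hc => h c (Multiset.mem_cons_of_mem hc)
    have h2 : ‖b‖ < r := h b (Multiset.mem_cons_self b s)
    have h3 : ‖t - b‖ ≤ a := (norm_sub_le t b).trans (by linarith)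
    exact mul_le_mul h3 h1 (norm_nonneg _) ((norm_nonneg _).trans h3)

/-- the monic polynomial with the roots `s` -/
noncomputable def pol (s : Multiset ℂ) : ℂ[X] := (s.map fun b => X - C b).prod

theorem pol_monic (s : Multiset ℂ) : (pol s).Monic := monic_multiset_prod_of_monic _ _ fun b _ => monic_X_sub_C b

theorem pol_natDegree (s : Multiset ℂ) : (pol s).natDegree = Multiset.card s :=
  natDegree_multiset_prod_X_sub_C_eq_card s

theorem pol_eval (s : Multiset ℂ) (t : ℂ) : (pol s).eval t = (s.map fun b => t - b).prod := by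
  induction s using Multiset.induction_on with
  | empty => simp [pol]
  | cons b s ih =>
    simp only [pol, Multiset.map_cons, Multiset.prod_cons, eval_mul] at ih ⊢
    rw [ih]
    simp

/-- `f = P g` with a monic polynomial `P` and `g` without zeros; the degree of `P` is bounded. -/
theorem fac {f : ℂ → ℂ} {ρ M c : ℝ} (hρ : 0 < ρ) (hc : 0 < c)
    (hf : DifferentiableOn ℂ f (ball 0 (3 * ρ))) (hM : ∀ t, ‖t‖ ≤ 2 * ρ → ‖f t‖ ≤ M)
    (hc' : ∀ t, ρ / 2 ≤ ‖t‖ → ‖t‖ ≤ 2 * ρ → c ≤ ‖f t‖) {N : ℕ} (hN : M < c * (3 / 2) ^ (N + 1)) :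
    ∃ (s : Multiset ℂ) (g : ℂ → ℂ), Multiset.card s ≤ N ∧ DifferentiableOn ℂ g (ball 0 (3 * ρ)) ∧
      (∀ t, ‖t‖ ≤ 2 * ρ → g t ≠ 0) ∧ (∀ t ∈ ball (0 : ℂ) (3 * ρ), f t = (pol s).eval t * g t) ∧
      ∀ b ∈ s, ‖b‖ < ρ / 2 := by
  have key : ∀ d : ℕ, (∃ (s : Multiset ℂ) (g : ℂ → ℂ), Multiset.card s ≤ d ∧
      DifferentiableOn ℂ g (ball 0 (3 * ρ)) ∧ (∀ t, ‖t‖ ≤ 2 * ρ → g t ≠ 0) ∧
      (∀ t ∈ ball (0 : ℂ) (3 * ρ), f t = (pol s).eval t * g t) ∧ ∀ b ∈ s, ‖b‖ < ρ / 2) ∨
      (∃ (s : Multiset ℂ) (g : ℂ → ℂ), Multiset.card s = d ∧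
      DifferentiableOn ℂ g (ball 0 (3 * ρ)) ∧
      (∀ t ∈ ball (0 : ℂ) (3 * ρ), f t = (pol s).eval t * g t) ∧ ∀ b ∈ s, ‖b‖ < ρ / 2) := by
    intro d
    induction d with
    | zero => exact Or.inr ⟨0, f, rfl, hf, fun t _ => by simp [pol], by simp⟩
    | succ d ih =>
      rcases ih with ⟨s, g, h1, h2⟩ | ⟨s, g, h1, h2, h3, h4⟩
      · exact Or.inl ⟨s, g, by omega, h2⟩
      · by_cases hz : ∀ t, ‖t‖ ≤ 2 * ρ → g t ≠ 0
        · exact Or.inl ⟨s, g, by omega, h2, hz, h3, h4⟩
        · right
          push Not at hz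
          obtain ⟨b, hb, hgb⟩ := hz
          have hb3 : b ∈ ball (0 : ℂ) (3 * ρ) := by
            rw [mem_ball_zero_iff]; linarith
          have hfb : f b = 0 := by rw [h3 b hb3, hgb, mul_zero]
          have hb2 : ‖b‖ < ρ / 2 := by
            by_contra hcon
            have := hc' b (not_lt.1 hcon) hb
            rw [hfb, norm_zero] at this
            linarith
          refine ⟨b ::ₘ s, dslope g b, by rw [Multiset.card_cons, h1], ?_, ?_, ?_⟩
          · exact (Complex.differentiableOn_dslope (isOpen_ball.mem_nhds hb3)).2 h2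
          · intro t ht
            have h5 : g t = (t - b) * dslope g b t := by
              have := sub_smul_dslope g b t
              rw [hgb, sub_zero, smul_eq_mul] at this
              exact this.symm
            rw [h3 t ht, pol_eval, pol_eval, Multiset.map_cons, Multiset.prod_cons, h5]
            ring
          · intro a ha
            rcases Multiset.mem_cons.1 ha with rfl | ha
            · exact hb2
            · exact h4 a ha
  rcases key (N + 1) with ⟨s, g, h1, h2, h3, h4, h5⟩ | ⟨s, g, h1, h2, h4, h5⟩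
  all_goals
    have hle : Multiset.card s ≤ N := by
      by_contra hcon
      have hcd : Multiset.card s = N + 1 := by omega
      -- maximum principle
      have hgM : ∀ t, ‖t‖ ≤ 2 * ρ → ‖g t‖ ≤ M / (3 * ρ / 2) ^ (N + 1) := by
        intro t ht
        have hcl : closure (ball (0 : ℂ) (2 * ρ)) ⊆ ball 0 (3 * ρ) := by
          rw [closure_ball _ (by positivity)]
          exact closedBall_subset_ball (by linarith)
        refine Complex.norm_le_of_forall_mem_frontier_norm_le (U := ball (0 : ℂ) (2 * ρ))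
          isBounded_ball (h2.mono hcl).diffContOnCl ?_ ?_
        · intro u hu
          rw [frontier_ball _ (by positivity), mem_sphere_zero_iff_norm] at hu
          have h6 : (3 * ρ / 2) ^ (N + 1) ≤ ‖(pol s).eval u‖ := by
            rw [pol_eval, ← hcd]
            exact prod_lower h5 (by positivity) (by rw [hu]; linarith)
          have h7 := h4 u (by rw [mem_ball_zero_iff]; linarith)
          rw [le_div_iff₀ (by positivity)]
          calc ‖g u‖ * (3 * ρ / 2) ^ (N + 1) ≤ ‖g u‖ * ‖(pol s).eval u‖ := by gcongr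
            _ = ‖f u‖ := by rw [h7, norm_mul, mul_comm]
            _ ≤ M := hM u hu.le
        · rw [closure_ball _ (by positivity), mem_closedBall_zero_iff]
          exact ht
      have h8 : ‖((ρ / 2 : ℝ) : ℂ)‖ = ρ / 2 := by
        rw [Complex.norm_real, Real.norm_of_nonneg (by positivity)]
      have h9 := hc' ((ρ / 2 : ℝ) : ℂ) (by rw [h8]) (by rw [h8]; linarith)
      have h10 : ‖(pol s).eval ((ρ / 2 : ℝ) : ℂ)‖ ≤ ρ ^ (N + 1) := by
        rw [pol_eval, ← hcd]
        exact prod_upper h5 (by rw [h8]; linarith)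
      have h11 := h4 ((ρ / 2 : ℝ) : ℂ) (by rw [mem_ball_zero_iff, h8]; linarith)
      have h12 := hgM ((ρ / 2 : ℝ) : ℂ) (by rw [h8]; linarith)
      rw [h11, norm_mul] at h9
      have h13 : c ≤ ρ ^ (N + 1) * (M / (3 * ρ / 2) ^ (N + 1)) :=
        h9.trans (mul_le_mul h10 h12 (norm_nonneg _) (by positivity))
      have h14 : ρ ^ (N + 1) * (M / (3 * ρ / 2) ^ (N + 1)) = M / (3 / 2) ^ (N + 1) := by
        rw [show 3 * ρ / 2 = ρ * (3 / 2) by ring, mul_pow]
        field_simp
      rw [h14, le_div_iff₀ (by positivity)] at h13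
      linarith
  · exact ⟨s, g, hle, h2, h3, h4, h5⟩
  · omega

end Vale.Agent.P284.H553.Prim
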