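import Vale.Agent.P284.H553.Prim1

/-!
# P284 (helper553), T1', module LB: the minimal common denominator on a disc
-/

open Set Filter Metric Topology Polynomial

namespace Vale.Agent.P284.H553.Prim

variable {ι : Type*}

/-- `Q h_j / f` extends holomorphically over the closed disc of radius `2ρ` -/
def Clr (ρ : ℝ) (f : ℂ → ℂ) (h : ι → ℂ → ℂ) (Q : ℂ[X]) : Prop :=
  ∀ j, ∀ t, ‖t‖ ≤ 2 * ρ → ∃ φ : ℂ → ℂ, AnalyticAt ℂ φ t ∧ ∀ᶠ s in 𝓝 t, φ s * f s = Q.eval s * h j s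

theorem Clr.add {ρ : ℝ} {f : ℂ → ℂ} {h : ι → ℂ → ℂ} {Q Q' : ℂ[X]} (h1 : Clr ρ f h Q)
    (h2 : Clr ρ f h Q') : Clr ρ f h (Q + Q') := by
  intro j t ht
  obtain ⟨φ, hφ, h3⟩ := h1 j t ht
  obtain ⟨φ', hφ', h4⟩ := h2 j t ht
  refine ⟨φ + φ', hφ.add hφ', ?_⟩
  filter_upwards [h3, h4] with s h5 h6
  rw [Pi.add_apply, add_mul, h5, h6, eval_add, add_mul]

theorem an_eval (Q : ℂ[X]) (t : ℂ) : AnalyticAt ℂ (fun s => Q.eval s) t :=
  (Polynomial.differentiable Q).analyticAt t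

theorem Clr.mul {ρ : ℝ} {f : ℂ → ℂ} {h : ι → ℂ → ℂ} {Q : ℂ[X]} (h1 : Clr ρ f h Q) (R : ℂ[X]) :
    Clr ρ f h (R * Q) := by
  intro j t ht
  obtain ⟨φ, hφ, h3⟩ := h1 j t ht
  refine ⟨fun s => R.eval s * φ s, (an_eval R t).mul hφ, ?_⟩
  filter_upwards [h3] with s h5
  rw [eval_mul, mul_assoc, h5, mul_assoc]

/-- the ideal of the common denominators -/
def clrI (ρ : ℝ) (f : ℂ → ℂ) (h : ι → ℂ → ℂ) : Ideal ℂ[X] where
  carrier := {Q | Clr ρ f h Q}
  add_mem' := fun h1 h2 => Clr.add h1 h2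
  zero_mem' := fun j t _ => ⟨0, analyticAt_const, Eventually.of_forall fun s => by simp⟩
  smul_mem' := fun R Q hQ => Clr.mul hQ R

theorem exists_gen {ρ : ℝ} {f : ℂ → ℂ} {h : ι → ℂ → ℂ} {P : ℂ[X]} (hP : P ≠ 0)
    (hc : Clr ρ f h P) : ∃ Q : ℂ[X], Q.Monic ∧ Clr ρ f h Q ∧ ∀ Q', Clr ρ f h Q' → Q ∣ Q' := by
  obtain ⟨G, hG⟩ := IsPrincipalIdealRing.principal (clrI ρ f h)
  have h1 : ∀ Q', Clr ρ f h Q' ↔ G ∣ Q' := by
    intro Q'
    have : Q' ∈ clrI ρ f h ↔ G ∣ Q' := by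
      rw [hG, ← Ideal.mem_span_singleton, Ideal.submodule_span_eq]
    exact this
  have hG0 : G ≠ 0 := by
    rintro rfl
    exact hP (zero_dvd_iff.1 ((h1 P).1 hc))
  have hlc : G.leadingCoeff ≠ 0 := leadingCoeff_ne_zero.2 hG0
  refine ⟨G * C G.leadingCoeff⁻¹, monic_mul_leadingCoeff_inv hG0, ?_, ?_⟩
  · rw [mul_comm]
    exact Clr.mul ((h1 G).2 dvd_rfl) _
  · intro Q' hQ'
    have h2 := (h1 Q').1 hQ'
    refine (dvd_trans ?_ h2)
    refine ⟨C G.leadingCoeff, ?_⟩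
    rw [mul_assoc, ← C_mul, inv_mul_cancel₀ hlc, C_1, mul_one]

/-- the local quotients glue. -/
theorem Clr.glue {ρ : ℝ} {f : ℂ → ℂ} {h : ι → ℂ → ℂ} {Q : ℂ[X]} (hc : Clr ρ f h Q)
    (hf : ∀ t, ‖t‖ ≤ 2 * ρ → ∀ᶠ s in 𝓝[≠] t, f s ≠ 0) :
    ∃ φ : ι → ℂ → ℂ, (∀ j t, ‖t‖ < 2 * ρ → AnalyticAt ℂ (φ j) t) ∧
      (∀ j t, ‖t‖ ≤ 2 * ρ → φ j t * f t = Q.eval t * h j t) := by
  classical
  have hc' : ∀ j t, ∃ φ : ℂ → ℂ, ‖t‖ ≤ 2 * ρ → (AnalyticAt ℂ φ t ∧
      ∀ᶠ s in 𝓝 t, φ s * f s = Q.eval s * h j s) := by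
    intro j t
    by_cases ht : ‖t‖ ≤ 2 * ρ
    · obtain ⟨φ, h1⟩ := hc j t ht
      exact ⟨φ, fun _ => h1⟩
    · exact ⟨0, fun h => absurd h ht⟩
  choose Φ hΦ using hc'
  refine ⟨fun j t => Φ j t t, ?_, fun j t ht => (hΦ j t ht).2.self_of_nhds⟩
  intro j t ht
  refine (hΦ j t ht.le).1.congr ?_
  have h1 : ∀ᶠ s in 𝓝 t, s ≠ t → f s ≠ 0 := eventually_nhdsWithin_iff.1 (hf t ht.le)
  have h2 : ∀ᶠ s : ℂ in 𝓝 t, ‖s‖ < 2 * ρ := continuous_norm.continuousAt.eventually_lt_const ht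
  filter_upwards [h1, h2, (hΦ j t ht.le).2] with s h3 h4 h5
  by_cases hst : s = t
  · rw [hst]
  · have h6 := (hΦ j s h4.le).2.self_of_nhds
    exact mul_right_cancel₀ (h3 hst) (h5.trans h6.symm)

theorem exists_quot {φ : ℂ → ℂ} {t : ℂ} (hφ : AnalyticAt ℂ φ t) (h0 : φ t = 0) :
    ∃ ψ : ℂ → ℂ, AnalyticAt ℂ ψ t ∧ ∀ s, φ s = (s - t) * ψ s := by
  refine ⟨dslope φ t, ?_, ?_⟩
  · obtain ⟨U, hU, hd⟩ : ∃ U ∈ 𝓝 t, DifferentiableOn ℂ φ U :=
      ⟨_, hφ.eventually_analyticAt, fun s hs => hs.differentiableAt.differentiableWithinAt⟩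
    exact ((Complex.differentiableOn_dslope hU).2 hd).analyticAt hU
  · intro s
    have := sub_smul_dslope φ t s
    rw [h0, sub_zero, smul_eq_mul] at this
    exact this.symm

/-- For the minimal denominator the quotients have no common zeros. -/
theorem no_common {ρ : ℝ} {f : ℂ → ℂ} {h : ι → ℂ → ℂ} {Q : ℂ[X]} (hQ : Q.Monic)
    (hmin : ∀ Q', Clr ρ f h Q' → Q ∣ Q') {j0 : ι} (hj0 : h j0 = f) {φ : ι → ℂ → ℂ}
    (hφ : ∀ j t, ‖t‖ < 2 * ρ → AnalyticAt ℂ (φ j) t)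
    (hφf : ∀ j t, ‖t‖ ≤ 2 * ρ → φ j t * f t = Q.eval t * h j t) (hQc : Clr ρ f h Q)
    (hf : ∀ t, ‖t‖ ≤ 2 * ρ → ∀ᶠ s in 𝓝[≠] t, f s ≠ 0)
    (ha : ∀ t, ‖t‖ ≤ 2 * ρ → AnalyticAt ℂ f t ∧ ∀ j, AnalyticAt ℂ (h j) t) {t₀ : ℂ}
    (ht₀ : ‖t₀‖ < 2 * ρ) (h0 : ∀ j, φ j t₀ = 0) : False := by
  have hnear : ∀ᶠ s : ℂ in 𝓝 t₀, ‖s‖ < 2 * ρ := continuous_norm.continuousAt.eventually_lt_const ht₀
  have hQ0 : Q.eval t₀ = 0 := by
    have h1 : ∀ᶠ s in 𝓝[≠] t₀, φ j0 s = Q.eval s := by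
      filter_upwards [hf t₀ ht₀.le, nhdsWithin_le_nhds hnear] with s h2 h3
      have h4 := hφf j0 s h3.le
      rw [hj0] at h4
      exact mul_right_cancel₀ h2 h4
    have h2 : Tendsto (φ j0) (𝓝[≠] t₀) (𝓝 (φ j0 t₀)) :=
      (hφ j0 t₀ ht₀).continuousAt.tendsto.mono_left nhdsWithin_le_nhds
    have h3 : Tendsto (fun s => Q.eval s) (𝓝[≠] t₀) (𝓝 (Q.eval t₀)) :=
      (an_eval Q t₀).continuousAt.tendsto.mono_left nhdsWithin_le_nhds
    have h4 := tendsto_nhds_unique (h3.congr' (h1.mono fun s hs => hs.symm)) h2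
    rw [h4, h0]
  obtain ⟨Q', hQ'⟩ := dvd_iff_isRoot.2 (show IsRoot Q t₀ from hQ0)
  have hQ'0 : Q' ≠ 0 := by
    rintro rfl
    rw [mul_zero] at hQ'
    exact hQ.ne_zero hQ'
  have hclr : Clr ρ f h Q' := by
    intro j t ht
    by_cases htt : t = t₀
    · subst htt
      obtain ⟨ψ, hψ, h1⟩ := exists_quot (hφ j t ht₀) (h0 j)
      refine ⟨ψ, hψ, ?_⟩
      have h2 : ∀ᶠ s in 𝓝[≠] t, ψ s * f s = Q'.eval s * h j s := by
        filter_upwards [nhdsWithin_le_nhds hnear, self_mem_nhdsWithin] with s h3 h4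
        have h5 := hφf j s h3.le
        rw [h1 s, hQ', eval_mul, eval_sub, eval_X, eval_C] at h5
        have h6 : s - t ≠ 0 := sub_ne_zero.2 h4
        refine mul_left_cancel₀ h6 ?_
        rw [← mul_assoc, h5, mul_assoc]
      have hc1 : ContinuousAt (fun s => ψ s * f s) t := hψ.continuousAt.mul (ha t ht).1.continuousAt
      have hc2 : ContinuousAt (fun s => Q'.eval s * h j s) t :=
        (an_eval Q' t).continuousAt.mul ((ha t ht).2 j).continuousAt
      exact (ContinuousAt.eventuallyEq_nhds_iff_eventuallyEq_nhdsNE hc1 hc2).1 h2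
    · obtain ⟨φ', hφ', h1⟩ := hQc j t ht
      refine ⟨fun s => φ' s / (s - t₀), hφ'.div (by fun_prop) (sub_ne_zero.2 htt), ?_⟩
      filter_upwards [h1, isOpen_ne.mem_nhds htt] with s h2 h3
      rw [hQ', eval_mul, eval_sub, eval_X, eval_C] at h2
      have h6 : s - t₀ ≠ 0 := sub_ne_zero.2 h3
      field_simp
      rw [h2]
  have h5 := hmin Q' hclr
  have h6 := natDegree_le_of_dvd h5 hQ'0
  have h7 : Q.natDegree = 1 + Q'.natDegree := by
    rw [hQ', natDegree_mul (X_sub_C_ne_zero t₀) hQ'0, natDegree_X_sub_C]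
  omega

theorem poly_moment {ρ : ℝ} (hρ : 0 < ρ) {F : ℂ → ℂ} (hF : ContinuousOn F (sphere 0 ρ))
    (hm : ∀ l : ℕ, (∮ t in C(0, ρ), t ^ l * F t) = 0) (D : ℂ[X]) :
    (∮ t in C(0, ρ), D.eval t * F t) = 0 := by
  have hint : ∀ p : ℂ[X], CircleIntegrable (fun t => p.eval t * F t) 0 ρ := fun p =>
    ((Polynomial.differentiable p).continuous.continuousOn.mul hF).circleIntegrable hρ.le
  induction D using Polynomial.induction_on' with
  | add p q hp hq =>
    have : (fun t => (p + q).eval t * F t) = fun t => p.eval t * F t + q.eval t * F t := by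
      funext t
      rw [eval_add, add_mul]
    rw [this, circleIntegral.integral_add (hint p) (hint q), hp, hq, add_zero]
  | monomial l a =>
    have : (fun t => (monomial l a).eval t * F t) = fun t => a * (t ^ l * F t) := by
      funext t
      rw [eval_monomial, mul_assoc]
    rw [this, circleIntegral.integral_const_mul, hm l, mul_zero]

/-- If the moments of `Q h_j / f` vanish, then it extends holomorphically over the disc. -/
theorem clr_of_moments {ρ : ℝ} (hρ : 0 < ρ) {f : ℂ → ℂ} {h : ι → ℂ → ℂ} {s : Multiset ℂ}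
    {g : ℂ → ℂ} (hg : DifferentiableOn ℂ g (ball 0 (3 * ρ))) (hg0 : ∀ t, ‖t‖ ≤ 2 * ρ → g t ≠ 0)
    (hfg : ∀ t ∈ ball (0 : ℂ) (3 * ρ), f t = (pol s).eval t * g t) (hs : ∀ b ∈ s, ‖b‖ < ρ / 2)
    (hh : ∀ j, DifferentiableOn ℂ (h j) (ball 0 (3 * ρ))) {Q : ℂ[X]}
    (hm : ∀ j (l : ℕ), (∮ t in C(0, ρ), t ^ l * (Q.eval t * h j t / f t)) = 0) : Clr ρ f h Q := by
  intro j t ht
  have hPne : ∀ u : ℂ, ρ / 2 ≤ ‖u‖ → (pol s).eval u ≠ 0 := by
    intro u hu h0
    rw [pol_eval, Multiset.prod_eq_zero_iff, Multiset.mem_map] at h0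
    obtain ⟨b, hb, hub⟩ := h0
    rw [sub_eq_zero] at hub
    have := hs b hb
    rw [← hub] at this
    linarith
  have hmem : ∀ u : ℂ, ‖u‖ ≤ 2 * ρ → u ∈ ball (0 : ℂ) (3 * ρ) := fun u hu => by
    rw [mem_ball_zero_iff]; linarith
  have hhan : ∀ u : ℂ, ‖u‖ ≤ 2 * ρ → AnalyticAt ℂ (h j) u := fun u hu =>
    (hh j).analyticAt (isOpen_ball.mem_nhds (hmem u hu))
  have hgan : ∀ u : ℂ, ‖u‖ ≤ 2 * ρ → AnalyticAt ℂ g u := fun u hu =>
    hg.analyticAt (isOpen_ball.mem_nhds (hmem u hu))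
  have hfan : ∀ u : ℂ, ‖u‖ ≤ 2 * ρ → AnalyticAt ℂ f u := by
    intro u hu
    refine ((an_eval (pol s) u).mul (hgan u hu)).congr ?_
    filter_upwards [isOpen_ball.mem_nhds (hmem u hu)] with v hv using (hfg v hv).symm
  rcases lt_or_ge ‖t‖ ρ with h1 | h1
  · set ψ : ℂ → ℂ := fun u => Q.eval u * h j u / g u with hψ
    have hψan : ∀ u : ℂ, ‖u‖ ≤ 2 * ρ → AnalyticAt ℂ ψ u := fun u hu =>
      ((an_eval Q u).mul (hhan u hu)).div (hgan u hu) (hg0 u hu)
    have hcs : ∀ u ∈ sphere (0 : ℂ) ρ, ‖u‖ = ρ := fun u hu => mem_sphere_zero_iff_norm.1 hu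
    have hFcont : ContinuousOn (fun u => Q.eval u * h j u / f u) (sphere 0 ρ) := by
      intro u hu
      have h2 := hcs u hu
      have h3 : f u ≠ 0 := by
        rw [hfg u (hmem u (by linarith))]
        exact mul_ne_zero (hPne u (by linarith)) (hg0 u (by linarith))
      exact (((an_eval Q u).continuousAt.mul (hhan u (by linarith)).continuousAt).div
        (hfan u (by linarith)).continuousAt h3).continuousWithinAt
    set Φ : ℂ → ℂ := fun w => (2 * Real.pi * Complex.I)⁻¹ •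
      ∮ u in C(0, ρ), (u - w)⁻¹ • (Q.eval u * h j u / f u) with hΦ
    have hΦan : ∀ w ∈ ball (0 : ℂ) ρ, AnalyticAt ℂ Φ w := by
      intro w hw
      have h2 := hasFPowerSeriesOn_cauchy_integral (f := fun u => Q.eval u * h j u / f u)
        (c := 0) (R := ⟨ρ, hρ.le⟩) (hFcont.circleIntegrable hρ.le) (by exact_mod_cast hρ)
      refine h2.analyticOnNhd w ?_
      rw [mem_ball_zero_iff] at hw
      simp only [Metric.mem_eball, edist_eq_enorm_sub, sub_zero]
      rw [← ofReal_norm]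
      exact (ENNReal.ofReal_lt_coe_iff (norm_nonneg _)).2 hw
    -- `P Φ = ψ`
    have hPΦ : ∀ w ∈ ball (0 : ℂ) ρ, (pol s).eval w * Φ w = ψ w := by
      intro w hw
      have hcau : (2 * Real.pi * Complex.I)⁻¹ • (∮ u in C(0, ρ), (u - w)⁻¹ • ψ u) = ψ w := by
        refine Complex.two_pi_I_inv_smul_circleIntegral_sub_inv_smul_of_differentiable_on_off_countable
          countable_empty hw (fun u hu => ?_) (fun u hu => ?_)
        · rw [mem_closedBall_zero_iff] at hu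
          exact (hψan u (by linarith)).continuousAt.continuousWithinAt
        · have hu' := mem_ball_zero_iff.1 hu.1
          exact (hψan u (by linarith)).differentiableAt
      obtain ⟨D, hD⟩ := X_sub_C_dvd_sub_C_eval (p := pol s) (a := w)
      have h2 := poly_moment hρ hFcont (fun l => hm j l) D
      have h3 : ∀ u ∈ sphere (0 : ℂ) ρ, D.eval u * (Q.eval u * h j u / f u) =
          (u - w)⁻¹ • ψ u - (pol s).eval w * ((u - w)⁻¹ • (Q.eval u * h j u / f u)) := by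
        intro u hu
        have h4 := hcs u hu
        have h5 : u - w ≠ 0 := by
          rw [sub_ne_zero]
          rintro rfl
          rw [mem_ball_zero_iff] at hw
          linarith
        have h6 : (pol s).eval u - (pol s).eval w = (u - w) * D.eval u := by
          have := congrArg (eval u) hD
          simpa using this
        have h7 : f u = (pol s).eval u * g u := hfg u (hmem u (by linarith))
        have h8 := hPne u (by linarith)
        have h9 := hg0 u (by linarith)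
        simp only [smul_eq_mul, hψ]
        rw [h7]
        field_simp
        linear_combination (- (Q.eval u * h j u)) * h6
      have hint1 : CircleIntegrable (fun u => (u - w)⁻¹ • ψ u) 0 ρ := by
        refine ContinuousOn.circleIntegrable hρ.le fun u hu => ?_
        have h4 := hcs u hu
        have h5 : u - w ≠ 0 := by
          rw [sub_ne_zero]
          rintro rfl
          rw [mem_ball_zero_iff] at hw
          linarith
        have h6 : ContinuousAt (fun v : ℂ => (v - w)⁻¹) u := ContinuousAt.inv₀ (by fun_prop) h5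
        exact (h6.smul (hψan u (by linarith)).continuousAt).continuousWithinAt
      have hint2 : CircleIntegrable (fun u => (pol s).eval w * ((u - w)⁻¹ • (Q.eval u * h j u / f u)))
          0 ρ := by
        refine ContinuousOn.circleIntegrable hρ.le fun u hu => ?_
        have h4 := hcs u hu
        have h5 : u - w ≠ 0 := by
          rw [sub_ne_zero]
          rintro rfl
          rw [mem_ball_zero_iff] at hw
          linarith
        have h6 : ContinuousAt (fun v : ℂ => (v - w)⁻¹) u := ContinuousAt.inv₀ (by fun_prop) h5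
        exact (continuousWithinAt_const).mul (h6.continuousWithinAt.smul (hFcont u hu))
      rw [circleIntegral.integral_congr hρ.le h3, circleIntegral.integral_sub hint1 hint2,
        circleIntegral.integral_const_mul, sub_eq_zero] at h2
      rw [← hcau, h2, hΦ]
      simp only [smul_eq_mul]
      ring
    refine ⟨Φ, hΦan t (mem_ball_zero_iff.2 h1), ?_⟩
    filter_upwards [isOpen_ball.mem_nhds (mem_ball_zero_iff.2 h1)] with w hw
    have hw' := mem_ball_zero_iff.1 hw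
    rw [hfg w (hmem w (by linarith))]
    have h2 := hPΦ w hw
    have h3 := hg0 w (by linarith)
    simp only [hψ] at h2
    rw [eq_div_iff h3] at h2
    linear_combination h2
  · have h2 : f t ≠ 0 := by
      rw [hfg t (hmem t ht)]
      exact mul_ne_zero (hPne t (by linarith)) (hg0 t ht)
    refine ⟨fun u => Q.eval u * h j u / f u, ((an_eval Q t).mul (hhan t ht)).div (hfan t ht) h2, ?_⟩
    filter_upwards [(hfan t ht).continuousAt.eventually_ne h2] with u hu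
    field_simp

/-- The moments of a holomorphic quotient vanish. -/
theorem moments_of_clr {ρ : ℝ} (hρ : 0 < ρ) {f : ℂ → ℂ} {h : ι → ℂ → ℂ} {Q : ℂ[X]}
    (hf : ∀ t, ‖t‖ ≤ 2 * ρ → ∀ᶠ s in 𝓝[≠] t, f s ≠ 0) (hf0 : ∀ t, ‖t‖ = ρ → f t ≠ 0)
    (hc : Clr ρ f h Q) (j : ι) (l : ℕ) :
    (∮ t in C(0, ρ), t ^ l * (Q.eval t * h j t / f t)) = 0 := by
  obtain ⟨φ, h1, h2⟩ := hc.glue hf
  have h3 : ∀ t ∈ sphere (0 : ℂ) ρ, t ^ l * (Q.eval t * h j t / f t) = t ^ l * φ j t := by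
    intro t ht
    have h4 := mem_sphere_zero_iff_norm.1 ht
    rw [← h2 j t (by linarith), mul_div_cancel_right₀ _ (hf0 t h4)]
  rw [circleIntegral.integral_congr hρ.le h3]
  have hd : ∀ t : ℂ, ‖t‖ ≤ ρ → DifferentiableAt ℂ (fun t => t ^ l * φ j t) t := fun t ht =>
    (by fun_prop : DifferentiableAt ℂ (fun t : ℂ => t ^ l) t).mul
      (h1 j t (by linarith)).differentiableAt
  exact Complex.circleIntegral_eq_zero_of_differentiable_on_off_countable hρ.le countable_empty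
    (fun t ht => (hd t (mem_closedBall_zero_iff.1 ht)).continuousAt.continuousWithinAt)
    (fun t ht => hd t (mem_ball_zero_iff.1 ht.1).le)

/-- The factorisation gives a common denominator. -/
theorem clr_pol {ρ : ℝ} {f : ℂ → ℂ} {h : ι → ℂ → ℂ} {s : Multiset ℂ}
    {g : ℂ → ℂ} (hg : DifferentiableOn ℂ g (ball 0 (3 * ρ))) (hg0 : ∀ t, ‖t‖ ≤ 2 * ρ → g t ≠ 0)
    (hfg : ∀ t ∈ ball (0 : ℂ) (3 * ρ), f t = (pol s).eval t * g t)
    (hh : ∀ j, DifferentiableOn ℂ (h j) (ball 0 (3 * ρ))) (hρ : 0 < ρ) : Clr ρ f h (pol s) := by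
  intro j t ht
  have hmem : t ∈ ball (0 : ℂ) (3 * ρ) := by rw [mem_ball_zero_iff]; linarith
  have hgan := hg.analyticAt (isOpen_ball.mem_nhds hmem)
  refine ⟨fun u => h j u / g u, ((hh j).analyticAt (isOpen_ball.mem_nhds hmem)).div hgan
    (hg0 t ht), ?_⟩
  filter_upwards [hgan.continuousAt.eventually_ne (hg0 t ht), isOpen_ball.mem_nhds hmem]
    with u hu hu'
  rw [hfg u hu']
  field_simp

end Vale.Agent.P284.H553.Prim
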