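import Vale.Agent.P284.H553.Prim2

/-!
# P284 (helper553), T1', module LB: the minimal denominator along parallel lines
-/

open Set Filter Metric Topology Polynomial

namespace Vale.Agent.P284.H553.Prim

variable {ι : Type*} {E : Type} [NormedAddCommGroup E] [NormedSpace ℂ E]

/-- a direction and radii -/
structure Rad (h : ι → E → ℂ) (j0 : ι) (x₀ η : E) (r ρ c M : ℝ) : Prop where
  hr : 0 < r
  hρ : 0 < ρ
  hc : 0 < c
  an : ∀ z ∈ ball x₀ r, ∀ t : ℂ, ‖t‖ < 6 * ρ → ∀ j, AnalyticAt ℂ (h j) (z + t • η)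
  bd : ∀ z ∈ ball x₀ r, ∀ t : ℂ, ‖t‖ ≤ 5 * ρ → ∀ j, ‖h j (z + t • η)‖ ≤ M
  low : ∀ z ∈ ball x₀ r, ∀ t : ℂ, ρ / 2 ≤ ‖t‖ → ‖t‖ ≤ 2 * ρ → c ≤ ‖h j0 (z + t • η)‖

theorem exists_rad [FiniteDimensional ℂ E] [Finite ι] {h : ι → E → ℂ} {x₀ : E}
    (hh : ∀ j, AnalyticAt ℂ (h j) x₀) {j0 : ι} (hne : ¬ ∀ᶠ x in 𝓝 x₀, h j0 x = 0)
    {p : E → Prop} (hp : ∀ᶠ x in 𝓝 x₀, p x) :
    ∃ (η : E) (r ρ c M : ℝ), Rad h j0 x₀ η r ρ c M ∧
      ∀ z ∈ ball x₀ r, ∀ t : ℂ, ‖t‖ < 6 * ρ → p (z + t • η) := by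
  have := Fintype.ofFinite ι
  set M : ℝ := ∑ j, (‖h j x₀‖ + 1) with hM
  have h1 : ∀ᶠ x in 𝓝 x₀, (∀ j, AnalyticAt ℂ (h j) x ∧ ‖h j x‖ ≤ M) ∧ p x := by
    refine (eventually_all.2 fun j => ?_).and hp
    have h2 := (hh j).continuousAt.norm.eventually_lt_const
      (show ‖h j x₀‖ < ‖h j x₀‖ + 1 by linarith)
    filter_upwards [h2, (hh j).eventually_analyticAt] with x h3 h4
    refine ⟨h4, h3.le.trans ?_⟩
    exact Finset.single_le_sum (f := fun j => ‖h j x₀‖ + 1) (fun j _ => by positivity)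
      (Finset.mem_univ j)
  obtain ⟨η, r, ρ, c, _, hr, hρ, hc, h2, _, h4⟩ :=
    Vale.Agent.P281.MF.exists_radii (hh j0) (hh j0) hne h1
  refine ⟨η, r, ρ, c, M, ⟨hr, hρ, hc, fun z hz t ht j => ?_, fun z hz t ht j => ?_, h4⟩,
    fun z hz t ht => ?_⟩
  · exact ((h2 z hz t ht).self_of_nhds.2.2.1 j).1
  · exact ((h2 z hz t (by linarith)).self_of_nhds.2.2.1 j).2
  · exact (h2 z hz t ht).self_of_nhds.2.2.2

variable {h : ι → E → ℂ} {j0 : ι} {x₀ η : E} {r ρ c M : ℝ}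

/-- `Q` is the minimal denominator of the `h j / h j0` on the line through `z`. -/
def IsGen (h : ι → E → ℂ) (j0 : ι) (η : E) (ρ : ℝ) (z : E) (Q : ℂ[X]) : Prop :=
  Q.Monic ∧ Clr ρ (fun t => h j0 (z + t • η)) (fun j t => h j (z + t • η)) Q ∧
    ∀ Q', Clr ρ (fun t => h j0 (z + t • η)) (fun j t => h j (z + t • η)) Q' → Q ∣ Q'

theorem line_an (z : E) (t : ℂ) : AnalyticAt ℂ (fun t : ℂ => z + t • η) t := by
  have h1 : AnalyticAt ℂ (fun t : ℂ => t • η) t := analyticAt_id.smul analyticAt_const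
  exact analyticAt_const.add h1

namespace Rad

theorem an' (R : Rad h j0 x₀ η r ρ c M) {z : E} (hz : z ∈ ball x₀ r) {t : ℂ} (ht : ‖t‖ < 6 * ρ)
    (j : ι) : AnalyticAt ℂ (fun t : ℂ => h j (z + t • η)) t :=
  AnalyticAt.comp (g := h j) (f := fun t : ℂ => z + t • η) (R.an z hz t ht j) (line_an z t)

theorem diffOn (R : Rad h j0 x₀ η r ρ c M) {z : E} (hz : z ∈ ball x₀ r) (j : ι) :
    DifferentiableOn ℂ (fun t : ℂ => h j (z + t • η)) (ball 0 (3 * ρ)) := fun t ht =>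
  (R.an' hz (by rw [mem_ball_zero_iff] at ht; have := R.hρ; linarith)
    j).differentiableAt.differentiableWithinAt

theorem ne0 (R : Rad h j0 x₀ η r ρ c M) {z : E} (hz : z ∈ ball x₀ r) {t : ℂ} (h1 : ρ / 2 ≤ ‖t‖)
    (h2 : ‖t‖ ≤ 2 * ρ) : h j0 (z + t • η) ≠ 0 := by
  intro h0
  have := R.low z hz t h1 h2
  rw [h0, norm_zero] at this
  linarith [R.hc]

/-- the zeros on a line are isolated -/
theorem isol (R : Rad h j0 x₀ η r ρ c M) {z : E} (hz : z ∈ ball x₀ r) (t : ℂ)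
    (ht : ‖t‖ ≤ 2 * ρ) : ∀ᶠ s in 𝓝[≠] t, h j0 (z + s • η) ≠ 0 := by
  have hρ := R.hρ
  rcases (R.an' hz (t := t) (by linarith) j0).eventually_eq_zero_or_eventually_ne_zero with h1 | h1
  · exfalso
    have h2 : AnalyticOnNhd ℂ (fun t : ℂ => h j0 (z + t • η)) (closedBall 0 (2 * ρ)) := fun s hs =>
      R.an' hz (by rw [mem_closedBall_zero_iff] at hs; linarith) j0
    have h3 := h2.eqOn_zero_of_preconnected_of_eventuallyEq_zero
      (convex_closedBall 0 (2 * ρ)).isPreconnected (mem_closedBall_zero_iff.2 ht) h1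
    have h4 : ‖((ρ : ℝ) : ℂ)‖ = ρ := by rw [Complex.norm_real, Real.norm_of_nonneg hρ.le]
    exact R.ne0 hz (t := ((ρ : ℝ) : ℂ)) (by rw [h4]; linarith) (by rw [h4]; linarith)
      (h3 (mem_closedBall_zero_iff.2 (by rw [h4]; linarith)))
  · exact h1

/-- existence of the minimal denominator, bound of its degree and of its roots -/
theorem exists_gen (R : Rad h j0 x₀ η r ρ c M) {N : ℕ} (hN : M < c * (3 / 2) ^ (N + 1)) {z : E}
    (hz : z ∈ ball x₀ r) : ∃ Q : ℂ[X], IsGen h j0 η ρ z Q ∧ Q.natDegree ≤ N ∧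
      (∃ γ : ℂ → ℂ, (∀ t, ‖t‖ ≤ 2 * ρ → AnalyticAt ℂ γ t) ∧
        ∀ t, ‖t‖ ≤ 2 * ρ → h j0 (z + t • η) = γ t * Q.eval t) ∧
      (∀ t, ρ ≤ ‖t‖ → (ρ / 2) ^ Q.natDegree ≤ ‖Q.eval t‖) ∧
      (∀ t, ‖t‖ ≤ ρ → ‖Q.eval t‖ ≤ (2 * ρ) ^ Q.natDegree) := by
  have hρ := R.hρ
  obtain ⟨s, g, h1, h2, h3, h4, h5⟩ := fac (f := fun t => h j0 (z + t • η)) hρ R.hc
    (R.diffOn hz j0) (fun t ht => R.bd z hz t (by linarith) j0) (R.low z hz) hN
  have hclr := clr_pol (h := fun j t => h j (z + t • η)) h2 h3 h4 (fun j => R.diffOn hz j) hρ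
  obtain ⟨Q, hQ1, hQ2, hQ3⟩ := Prim.exists_gen (pol_monic s).ne_zero hclr
  have hdvd := hQ3 _ hclr
  -- the roots of `Q` are roots of `pol s`
  have hsp : Q.Splits := IsAlgClosed.splits Q
  have hQr : Q = (Q.roots.map fun b => X - C b).prod := by
    have := hsp.eq_prod_roots
    rw [hQ1.leadingCoeff, C_1, one_mul] at this
    exact this
  have hcard : Multiset.card Q.roots = Q.natDegree := hsp.natDegree_eq_card_roots.symm
  have hroot : ∀ b ∈ Q.roots, ‖b‖ < ρ / 2 := by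
    intro b hb
    have hb1 : Q.eval b = 0 := (mem_roots'.1 hb).2
    obtain ⟨T, hT⟩ := hdvd
    have hb2 : (pol s).eval b = 0 := by rw [hT, eval_mul, hb1, zero_mul]
    rw [pol_eval, Multiset.prod_eq_zero_iff, Multiset.mem_map] at hb2
    obtain ⟨a, ha, hab⟩ := hb2
    rw [sub_eq_zero] at hab
    rw [hab]
    exact h5 a ha
  have h6 : ∀ t, Q.eval t = (Q.roots.map fun b => t - b).prod := by
    intro t
    conv_lhs => rw [hQr]
    exact pol_eval _ _
  refine ⟨Q, ⟨hQ1, hQ2, hQ3⟩, ?_, ?_, ?_, ?_⟩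
  · have := natDegree_le_of_dvd hdvd (pol_monic s).ne_zero
    rw [pol_natDegree] at this
    exact this.trans h1
  · obtain ⟨T, hT⟩ := hdvd
    refine ⟨fun t => T.eval t * g t, fun t ht => ?_, fun t ht => ?_⟩
    · exact (an_eval T t).mul (h2.analyticAt (isOpen_ball.mem_nhds (by
        rw [mem_ball_zero_iff]; linarith)))
    · have := h4 t (by rw [mem_ball_zero_iff]; linarith)
      rw [this, hT, eval_mul]
      ring
  · intro t ht
    have := prod_lower (a := ρ / 2) hroot (by positivity) (t := t) (by linarith)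
    rw [hcard] at this
    rw [h6]
    exact this
  · intro t ht
    have := prod_upper (a := 2 * ρ) hroot (t := t) (by linarith)
    rw [hcard] at this
    rw [h6]
    exact this

end Rad

theorem IsGen.unique {z : E} {Q Q' : ℂ[X]} (h1 : IsGen h j0 η ρ z Q) (h2 : IsGen h j0 η ρ z Q') :
    Q = Q' :=
  eq_of_monic_of_associated h1.1 h2.1 (associated_of_dvd_dvd (h1.2.2 _ h2.2.1) (h2.2.2 _ h1.2.1))

/-- shift of the base point -/
theorem clr_shift (R : Rad h j0 x₀ η r ρ c M) {z : E} {s : ℂ} (hs : ‖s‖ ≤ ρ)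
    (hz' : z + s • η ∈ ball x₀ r) {Q : ℂ[X]}
    (hQ : Clr ρ (fun t => h j0 (z + t • η)) (fun j t => h j (z + t • η)) Q) :
    Clr ρ (fun t => h j0 (z + s • η + t • η)) (fun j t => h j (z + s • η + t • η))
      (Q.comp (X + C s)) := by
  intro j t ht
  have hρ := R.hρ
  have hadd : ∀ u : ℂ, z + s • η + u • η = z + (u + s) • η := fun u => by
    rw [add_smul, add_assoc, add_comm (s • η)]
  have hev : ∀ u : ℂ, (Q.comp (X + C s)).eval u = Q.eval (u + s) := fun u => by simp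
  by_cases h1 : ‖t + s‖ ≤ 2 * ρ
  · obtain ⟨φ, hφ, h2⟩ := hQ j (t + s) h1
    have hc : ContinuousAt (fun u : ℂ => u + s) t := by fun_prop
    refine ⟨fun u => φ (u + s), ?_, ?_⟩
    · exact AnalyticAt.comp (g := φ) (f := fun u : ℂ => u + s) hφ (by
        have : Differentiable ℂ (fun u : ℂ => u + s) := by fun_prop
        exact this.analyticAt t)
    · filter_upwards [hc.eventually h2] with u hu
      simp only [hadd, hev]
      exact hu
  · have h2 : ρ / 2 ≤ ‖t‖ := by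
      have := norm_add_le t s
      push Not at h1
      linarith
    have h3 := R.ne0 hz' h2 ht
    have h4 := R.an' hz' (t := t) (by linarith) j0
    refine ⟨fun u => (Q.comp (X + C s)).eval u * h j (z + s • η + u • η) /
      h j0 (z + s • η + u • η), ((an_eval _ t).mul (R.an' hz' (t := t) (by linarith) j)).div h4 h3,
      ?_⟩
    filter_upwards [h4.continuousAt.eventually_ne h3] with u hu
    field_simp

theorem IsGen.shift (R : Rad h j0 x₀ η r ρ c M) {z : E} (hz : z ∈ ball x₀ r) {s : ℂ}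
    (hs : ‖s‖ ≤ ρ) (hz' : z + s • η ∈ ball x₀ r) {Q : ℂ[X]} (hQ : IsGen h j0 η ρ z Q) :
    IsGen h j0 η ρ (z + s • η) (Q.comp (X + C s)) := by
  refine ⟨hQ.1.comp_X_add_C s, clr_shift R hs hz' hQ.2.1, fun Q' hQ' => ?_⟩
  have hback : z + s • η + (-s) • η = z := by rw [neg_smul]; abel
  have h1 := clr_shift R (z := z + s • η) (s := -s) (by rwa [norm_neg]) (by rwa [hback]) hQ'
  rw [hback] at h1
  obtain ⟨T, hT⟩ := hQ.2.2 _ h1
  refine ⟨T.comp (X + C s), ?_⟩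
  rw [← mul_comp, ← hT, comp_assoc]
  simp

end Vale.Agent.P284.H553.Prim
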