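import Vale.Agent.P284.H553.Prim3

/-!
# P284 (helper553), T1', module LB: the coefficients of the minimal denominator are holomorphic
-/

open Set Filter Metric Topology Polynomial

namespace Vale.Agent.P284.H553.Prim

open Vale.Agent.P281.MF (differentiableOn_circleIntegral)

/-- rows with a nonzero determinant -/
theorem exists_rows {X : Type*} {ν : ℕ} (v : Fin ν → X → ℂ)
    (hv : ∀ a : Fin ν → ℂ, (∀ x, ∑ k, a k * v k x = 0) → a = 0) :
    ∃ J : Fin ν → X, (Matrix.of fun i k => v k (J i)).det ≠ 0 := by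
  classical
  set R : X → (Fin ν → ℂ) := fun x k => v k x with hR
  have hspan : Submodule.span ℂ (range R) = ⊤ := by
    by_contra hcon
    obtain ⟨φ, hφ0, hφ⟩ := Submodule.exists_le_ker_of_lt_top _ (lt_top_iff_ne_top.2 hcon)
    apply hφ0
    have h1 : ∀ u : Fin ν → ℂ, φ u = ∑ k, φ (Pi.single k 1) * u k := by
      intro u
      conv_lhs => rw [show u = ∑ k, u k • (Pi.single k (1 : ℂ) : Fin ν → ℂ) by
        funext i; simp [Finset.sum_apply, Pi.single_apply]]
      rw [map_sum]
      refine Finset.sum_congr rfl fun k _ => ?_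
      rw [map_smul, smul_eq_mul, mul_comm]
    have h2 := hv (fun k => φ (Pi.single k 1)) fun x => by
      have h3 : φ (R x) = 0 := hφ (Submodule.subset_span ⟨x, rfl⟩)
      rw [h1] at h3
      exact h3
    ext k
    have := congrFun h2 k
    simpa using this
  obtain ⟨f, hf1, hf2, hf3⟩ := Submodule.exists_fun_fin_finrank_span_eq ℂ (range R)
  have hfr : Module.finrank ℂ (Submodule.span ℂ (range R)) = ν := by
    rw [hspan, finrank_top, Module.finrank_fin_fun]
  have hcast : ∃ f' : Fin ν → (Fin ν → ℂ), (∀ i, f' i ∈ range R) ∧ LinearIndependent ℂ f' :=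
    ⟨fun i => f (Fin.cast hfr.symm i), fun i => hf1 _, hf3.comp _ (Fin.cast_injective _)⟩
  obtain ⟨f', hf'1, hf'2⟩ := hcast
  choose J hJ using hf'1
  refine ⟨J, ?_⟩
  have h1 : (Matrix.of fun i k => v k (J i)) = Matrix.of f' := by
    ext i k
    rw [Matrix.of_apply, Matrix.of_apply, ← hJ i]
  rw [h1]
  have h2 : IsUnit (Matrix.of f') := Matrix.linearIndependent_rows_iff_isUnit.1 hf'2
  exact ((Matrix.isUnit_iff_isUnit_det _).1 h2).ne_zero

theorem diff_det {E : Type*} [NormedAddCommGroup E] [NormedSpace ℂ E] {ν : ℕ}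
    {A : E → Matrix (Fin ν) (Fin ν) ℂ} {z : E} (h : ∀ i k, DifferentiableAt ℂ (fun z => A z i k) z) :
    DifferentiableAt ℂ (fun z => (A z).det) z := by
  simp only [Matrix.det_apply]
  refine DifferentiableAt.fun_sum fun σ _ => ?_
  refine DifferentiableAt.const_smul ?_ _
  have h1 : ∀ s : Finset (Fin ν), DifferentiableAt ℂ (fun z => ∏ i ∈ s, A z (σ i) i) z := by
    intro s
    induction s using Finset.induction_on with
    | empty => simp
    | insert a s ha ih =>
      simp only [Finset.prod_insert ha]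
      exact (h _ _).mul ih
  exact h1 _

variable {ι : Type*} {E : Type} [NormedAddCommGroup E] [NormedSpace ℂ E]
variable {h : ι → E → ℂ} {j0 : ι} {x₀ η : E} {r ρ c M : ℝ}

/-- the moments -/
noncomputable def mom (h : ι → E → ℂ) (j0 : ι) (η : E) (ρ : ℝ) (x : ι × ℕ) (k : ℕ) (z : E) : ℂ :=
  ∮ t in C(0, ρ), t ^ x.2 * (t ^ k * h x.1 (z + t • η) / h j0 (z + t • η))

/-- the annulus -/
def ann (ρ : ℝ) : Set ℂ := {t : ℂ | ρ / 2 < ‖t‖ ∧ ‖t‖ < 2 * ρ}

theorem ann_open (ρ : ℝ) : IsOpen (ann ρ) :=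
  (isOpen_lt continuous_const continuous_norm).inter (isOpen_lt continuous_norm continuous_const)

theorem sphere_ann (hρ : 0 < ρ) : sphere (0 : ℂ) ρ ⊆ ann ρ := by
  intro t ht
  rw [mem_sphere_zero_iff_norm] at ht
  constructor <;> rw [ht] <;> linarith

theorem Rad.diff2 (R : Rad h j0 x₀ η r ρ c M) (j : ι) {p : E × ℂ} (hp : p.1 ∈ ball x₀ r)
    (hp2 : ‖p.2‖ < 6 * ρ) : DifferentiableAt ℂ (fun p : E × ℂ => h j (p.1 + p.2 • η)) p :=
  DifferentiableAt.comp (g := h j) (f := fun p : E × ℂ => p.1 + p.2 • η) p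
    (R.an p.1 hp p.2 hp2 j).differentiableAt (by fun_prop)

theorem Rad.mom_diff [FiniteDimensional ℂ E] (R : Rad h j0 x₀ η r ρ c M) (x : ι × ℕ) (k : ℕ) :
    DifferentiableOn ℂ (mom h j0 η ρ x k) (ball x₀ r) := by
  have hρ := R.hρ
  refine differentiableOn_circleIntegral (E := E) (F := ℂ) (c := 0) (R := ρ) hρ.le
    (G := fun p : E × ℂ => p.2 ^ x.2 * (p.2 ^ k * h x.1 (p.1 + p.2 • η) / h j0 (p.1 + p.2 • η)))
    isOpen_ball (ann_open ρ) (sphere_ann hρ) ?_
  rintro p ⟨hp1, hp2, hp3⟩
  refine DifferentiableAt.differentiableWithinAt ?_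
  have h1 := R.diff2 x.1 hp1 (by linarith)
  have h2 := R.diff2 j0 hp1 (by linarith)
  have h3 := R.ne0 hp1 hp2.le hp3.le
  have h4 : DifferentiableAt ℂ (fun p : E × ℂ => p.2 ^ x.2) p := by fun_prop
  have h5 : DifferentiableAt ℂ (fun p : E × ℂ => p.2 ^ k) p := by fun_prop
  simp only [div_eq_mul_inv]
  exact h4.mul ((h5.mul h1).mul (h2.inv h3))

theorem Rad.mom_int (R : Rad h j0 x₀ η r ρ c M) {z : E} (hz : z ∈ ball x₀ r) (x : ι × ℕ) (k : ℕ) :
    CircleIntegrable (fun t : ℂ => t ^ x.2 * (t ^ k * h x.1 (z + t • η) / h j0 (z + t • η))) 0 ρ := by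
  have hρ := R.hρ
  refine ContinuousOn.circleIntegrable hρ.le fun t ht => ?_
  rw [mem_sphere_zero_iff_norm] at ht
  have h1 := (R.an' hz (t := t) (by linarith) x.1).continuousAt
  have h2 := (R.an' hz (t := t) (by linarith) j0).continuousAt
  have h3 := R.ne0 hz (t := t) (by linarith) (by linarith)
  have h4 : ContinuousAt (fun t : ℂ => t ^ x.2) t := by fun_prop
  have h5 : ContinuousAt (fun t : ℂ => t ^ k) t := by fun_prop
  exact (h4.mul ((h5.mul h1).div h2 h3)).continuousWithinAt

theorem Rad.mom_sum (R : Rad h j0 x₀ η r ρ c M) {z : E} (hz : z ∈ ball x₀ r) (j : ι) (l : ℕ)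
    {Q : ℂ[X]} {n : ℕ} (hn : Q.natDegree < n) :
    (∮ t in C(0, ρ), t ^ l * (Q.eval t * h j (z + t • η) / h j0 (z + t • η))) =
      ∑ k ∈ Finset.range n, Q.coeff k * mom h j0 η ρ (j, l) k z := by
  have h1 : (fun t : ℂ => t ^ l * (Q.eval t * h j (z + t • η) / h j0 (z + t • η))) = fun t =>
      ∑ k ∈ Finset.range n, Q.coeff k * (t ^ l * (t ^ k * h j (z + t • η) / h j0 (z + t • η))) := by
    funext t
    rw [eval_eq_sum_range' hn, Finset.sum_mul, Finset.sum_div, Finset.mul_sum]
    exact Finset.sum_congr rfl fun k _ => by ring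
  rw [h1, circleIntegral.integral_fun_sum]
  · refine Finset.sum_congr rfl fun k _ => ?_
    rw [circleIntegral.integral_const_mul]
    rfl
  · intro k _
    have := R.mom_int hz (j, l) k
    refine (ContinuousOn.circleIntegrable R.hρ.le ?_)
    intro t ht
    have hρ := R.hρ
    rw [mem_sphere_zero_iff_norm] at ht
    have h1 := (R.an' hz (t := t) (by linarith) j).continuousAt
    have h2 := (R.an' hz (t := t) (by linarith) j0).continuousAt
    have h3 := R.ne0 hz (t := t) (by linarith) (by linarith)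
    have h4 : ContinuousAt (fun t : ℂ => t ^ l) t := by fun_prop
    have h5 : ContinuousAt (fun t : ℂ => t ^ k) t := by fun_prop
    exact (continuousAt_const.mul (h4.mul ((h5.mul h1).div h2 h3))).continuousWithinAt

/-- common denominators are characterised by the moments. -/
theorem Rad.clr_iff (R : Rad h j0 x₀ η r ρ c M) {N : ℕ} (hN : M < c * (3 / 2) ^ (N + 1)) {z : E}
    (hz : z ∈ ball x₀ r) {Q : ℂ[X]} {n : ℕ} (hn : Q.natDegree < n) :
    Clr ρ (fun t => h j0 (z + t • η)) (fun j t => h j (z + t • η)) Q ↔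
      ∀ x, ∑ k ∈ Finset.range n, Q.coeff k * mom h j0 η ρ x k z = 0 := by
  have hρ := R.hρ
  constructor
  · rintro hc ⟨j, l⟩
    rw [← R.mom_sum hz j l hn]
    exact moments_of_clr hρ (R.isol hz) (fun t ht => R.ne0 hz (by linarith) (by linarith)) hc j l
  · intro hm
    obtain ⟨s, g, h1, h2, h3, h4, h5⟩ := fac (f := fun t => h j0 (z + t • η)) hρ R.hc
      (R.diffOn hz j0) (fun t ht => R.bd z hz t (by linarith) j0) (R.low z hz) hN
    refine clr_of_moments hρ h2 h3 h4 h5 (fun j => R.diffOn hz j) fun j l => ?_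
    rw [R.mom_sum hz j l hn]
    exact hm (j, l)

/-- The choice of rows: the degree of the minimal denominator is maximal, and its coefficients are
holomorphic, where some minor of the matrix of the moments is not zero. -/
theorem Rad.sel [FiniteDimensional ℂ E] (R : Rad h j0 x₀ η r ρ c M) {N : ℕ}
    (hN : M < c * (3 / 2) ^ (N + 1)) {Qz : E → ℂ[X]}
    (hQ : ∀ z ∈ ball x₀ r, IsGen h j0 η ρ z (Qz z)) {ν : ℕ}
    (hmax : ∀ z ∈ ball x₀ r, (Qz z).natDegree ≤ ν) {z₁ : E} (hz₁ : z₁ ∈ ball x₀ r)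
    (hν : (Qz z₁).natDegree = ν) :
    ∃ δ : E → ℂ, DifferentiableOn ℂ δ (ball x₀ r) ∧ δ z₁ ≠ 0 ∧ ∀ z ∈ ball x₀ r, δ z ≠ 0 →
      (Qz z).natDegree = ν ∧ ∀ k, DifferentiableAt ℂ (fun z => (Qz z).coeff k) z := by
  classical
  -- the rows at `z₁`
  obtain ⟨J, hJ⟩ := exists_rows (fun (k : Fin ν) (x : ι × ℕ) => mom h j0 η ρ x k z₁) (by
    intro a ha
    set Q : ℂ[X] := ∑ k : Fin ν, C (a k) * X ^ (k : ℕ) with hQdef
    have hcoeff : ∀ k : Fin ν, Q.coeff k = a k := by
      intro k
      rw [hQdef, finsetSum_coeff]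
      simp only [coeff_C_mul, coeff_X_pow]
      rw [Finset.sum_eq_single k]
      · simp
      · intro b _ hb
        have : (k : ℕ) ≠ b := fun h => hb (Fin.ext h.symm)
        simp [this]
      · simp
    by_cases hν0 : ν = 0
    · subst hν0
      exact funext fun k => k.elim0
    have hdeg : Q.natDegree < ν := by
      have h1 : Q.degree < ν := degree_sum_fin_lt a
      by_cases hQ0 : Q = 0
      · rw [hQ0, natDegree_zero]; omega
      · exact (natDegree_lt_iff_degree_lt hQ0).2 h1
    have hclr : Clr ρ (fun t => h j0 (z₁ + t • η)) (fun j t => h j (z₁ + t • η)) Q := by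
      rw [R.clr_iff hN hz₁ hdeg]
      intro x
      rw [← ha x, Finset.sum_range]
      exact Finset.sum_congr rfl fun k _ => by rw [hcoeff]
    have hQ0 : Q = 0 := by
      by_contra hne
      have := natDegree_le_of_dvd ((hQ z₁ hz₁).2.2 Q hclr) hne
      omega
    funext k
    rw [← hcoeff k, hQ0, coeff_zero, Pi.zero_apply])
  set A : E → Matrix (Fin ν) (Fin ν) ℂ := fun z => Matrix.of fun i k => mom h j0 η ρ (J i) k z
    with hA
  set b : E → Fin ν → ℂ := fun z i => - mom h j0 η ρ (J i) ν z with hb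
  have hAd : ∀ z ∈ ball x₀ r, ∀ i k, DifferentiableAt ℂ (fun z => A z i k) z := fun z hz i k =>
    (R.mom_diff (J i) k).differentiableAt (isOpen_ball.mem_nhds hz)
  have hbd : ∀ z ∈ ball x₀ r, ∀ i, DifferentiableAt ℂ (fun z => b z i) z := fun z hz i =>
    ((R.mom_diff (J i) ν).differentiableAt (isOpen_ball.mem_nhds hz)).neg
  refine ⟨fun z => (A z).det, fun z hz => (diff_det (hAd z hz)).differentiableWithinAt, hJ, ?_⟩
  -- degree
  have hdegeq : ∀ z ∈ ball x₀ r, (A z).det ≠ 0 → (Qz z).natDegree = ν := by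
    intro z hz hdet
    refine le_antisymm (hmax z hz) ?_
    by_contra hcon
    push Not at hcon
    have h1 := (R.clr_iff hN hz hcon).1 (hQ z hz).2.1
    have h2 : (A z).mulVec (fun k : Fin ν => (Qz z).coeff k) = 0 := by
      funext i
      have := h1 (J i)
      rw [Finset.sum_range] at this
      rw [Matrix.mulVec, dotProduct, Pi.zero_apply, ← this]
      exact Finset.sum_congr rfl fun k _ => mul_comm _ _
    have h3 := Matrix.eq_zero_of_mulVec_eq_zero hdet h2
    have h4 := congrFun h3 ⟨(Qz z).natDegree, hcon⟩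
    simp only [Pi.zero_apply] at h4
    have h5 : (Qz z).coeff (Qz z).natDegree = 1 := (hQ z hz).1
    rw [h5] at h4
    exact one_ne_zero h4
  intro z hz hdet
  refine ⟨hdegeq z hz hdet, fun k => ?_⟩
  have hev : ∀ᶠ z' in 𝓝 z, z' ∈ ball x₀ r ∧ (A z').det ≠ 0 :=
    (isOpen_ball.mem_nhds hz |> fun h => h) |> fun h =>
      (Filter.Eventually.and h ((diff_det (hAd z hz)).continuousAt.eventually_ne hdet))
  rcases lt_trichotomy k ν with hk | hk | hk
  · have hform : ∀ z' ∈ ball x₀ r, (A z').det ≠ 0 →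
        (Qz z').coeff k = (A z').det⁻¹ * ((A z').updateCol ⟨k, hk⟩ (b z')).det := by
      intro z' hz' hdet'
      have hd := hdegeq z' hz' hdet'
      have h1 := (R.clr_iff hN hz' (n := ν + 1) (by omega)).1 (hQ z' hz').2.1
      have h2 : (A z').mulVec (fun k : Fin ν => (Qz z').coeff k) = b z' := by
        funext i
        have := h1 (J i)
        rw [Finset.sum_range_succ, Finset.sum_range] at this
        have h5 : (Qz z').coeff ν = 1 := by
          have := (hQ z' hz').1
          rw [Monic, leadingCoeff, hd] at this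
          exact this
        rw [h5, one_mul] at this
        rw [Matrix.mulVec, dotProduct, hb]
        rw [eq_neg_iff_add_eq_zero, ← this]
        congr 1
        exact Finset.sum_congr rfl fun k _ => mul_comm _ _
      have h3 : (A z').mulVec ((A z').det • (fun k : Fin ν => (Qz z').coeff k) -
          (A z').cramer (b z')) = 0 := by
        rw [Matrix.mulVec_sub, Matrix.mulVec_smul, h2, Matrix.mulVec_cramer, sub_self]
      have h4 := congrFun (Matrix.eq_zero_of_mulVec_eq_zero hdet' h3) ⟨k, hk⟩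
      rw [Pi.sub_apply, Pi.smul_apply, Pi.zero_apply, sub_eq_zero, Matrix.cramer_apply,
        smul_eq_mul] at h4
      rw [← h4, ← mul_assoc, inv_mul_cancel₀ hdet', one_mul]
    have h5 : DifferentiableAt ℂ (fun z' => (A z').det⁻¹ *
        ((A z').updateCol ⟨k, hk⟩ (b z')).det) z := by
      refine ((diff_det (hAd z hz)).inv hdet).mul (diff_det fun i l => ?_)
      by_cases hl : l = ⟨k, hk⟩
      · subst hl
        simp only [Matrix.updateCol_self]
        exact hbd z hz i
      · simp only [Matrix.updateCol_ne hl]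
        exact hAd z hz i l
    refine h5.congr_of_eventuallyEq ?_
    filter_upwards [hev] with z' hz' using hform z' hz'.1 hz'.2
  · refine (differentiableAt_const (1 : ℂ)).congr_of_eventuallyEq ?_
    filter_upwards [hev] with z' hz'
    have hd := hdegeq z' hz'.1 hz'.2
    have := (hQ z' hz'.1).1
    rw [Monic, leadingCoeff, hd] at this
    rw [hk, this]
  · refine (differentiableAt_const (0 : ℂ)).congr_of_eventuallyEq ?_
    filter_upwards [hev] with z' hz'
    have hd := hdegeq z' hz'.1 hz'.2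
    exact coeff_eq_zero_of_natDegree_lt (by omega)

end Vale.Agent.P284.H553.Prim
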