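import Vale.Agent.P284.H553.Prim4

/-!
# P284 (helper553), T1', module LB: the primitive part of a family of holomorphic functions
-/

open Set Filter Metric Topology Polynomial

namespace Vale.Agent.P284.H553.Prim

open Vale.Agent.P281.MF (differentiableOn_circleIntegral analyticAt_of_differentiableOn)

variable {ι : Type*} {E : Type} [NormedAddCommGroup E] [NormedSpace ℂ E]
variable {h : ι → E → ℂ} {j0 : ι} {x₀ η : E} {r ρ c M : ℝ}

/-- the quotients at the base point -/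
noncomputable def WW (h : ι → E → ℂ) (j0 : ι) (η : E) (ρ : ℝ) (Qz : E → ℂ[X]) (j : ι) (z : E) : ℂ :=
  (2 * Real.pi * Complex.I)⁻¹ * ∮ t in C(0, ρ), t⁻¹ * ((Qz z).eval t * h j (z + t • η) /
    h j0 (z + t • η))

/-- the common factor at the base point -/
noncomputable def GG (h : ι → E → ℂ) (j0 : ι) (η : E) (ρ : ℝ) (Qz : E → ℂ[X]) (z : E) : ℂ :=
  (2 * Real.pi * Complex.I)⁻¹ * ∮ t in C(0, ρ), t⁻¹ * (h j0 (z + t • η) / (Qz z).eval t)

theorem cauchy0 {F : Type*} [NormedAddCommGroup F] [NormedSpace ℂ F] [CompleteSpace F]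
    {φ : ℂ → F} {ρ : ℝ} (hρ : 0 < ρ)
    (hφ : ∀ t : ℂ, ‖t‖ ≤ ρ → DifferentiableAt ℂ φ t) :
    (2 * Real.pi * Complex.I)⁻¹ • (∮ t in C(0, ρ), t⁻¹ • φ t) = φ 0 := by
  have := Complex.two_pi_I_inv_smul_circleIntegral_sub_inv_smul_of_differentiable_on_off_countable
    (f := φ) (c := 0) (R := ρ) (w := 0) countable_empty (mem_ball_self hρ)
    (fun u hu => (hφ u (mem_closedBall_zero_iff.1 hu)).continuousAt.continuousWithinAt)
    (fun u hu => hφ u (mem_ball_zero_iff.1 hu.1).le)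
  simpa using this

/-- the data of all the lines -/
structure Gens (h : ι → E → ℂ) (j0 : ι) (x₀ η : E) (r ρ c M : ℝ) (Qz : E → ℂ[X]) (ν : ℕ) : Prop
    extends Rad h j0 x₀ η r ρ c M where
  gen : ∀ z ∈ ball x₀ r, IsGen h j0 η ρ z (Qz z)
  deg : ∀ z ∈ ball x₀ r, (Qz z).natDegree ≤ ν
  gam : ∀ z ∈ ball x₀ r, ∃ γ : ℂ → ℂ, (∀ t, ‖t‖ ≤ 2 * ρ → AnalyticAt ℂ γ t) ∧
        ∀ t, ‖t‖ ≤ 2 * ρ → h j0 (z + t • η) = γ t * (Qz z).eval t
  lo : ∀ z ∈ ball x₀ r, ∀ t, ρ ≤ ‖t‖ → (ρ / 2) ^ (Qz z).natDegree ≤ ‖(Qz z).eval t‖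
  up : ∀ z ∈ ball x₀ r, ∀ t, ‖t‖ ≤ ρ → ‖(Qz z).eval t‖ ≤ (2 * ρ) ^ (Qz z).natDegree

variable {Qz : E → ℂ[X]} {ν : ℕ}

namespace Gens

/-- the values on a line -/
theorem line (G : Gens h j0 x₀ η r ρ c M Qz ν) {z : E} (hz : z ∈ ball x₀ r) :
    ∃ φ : ι → ℂ → ℂ, (∀ j t, ‖t‖ < 2 * ρ → AnalyticAt ℂ (φ j) t) ∧
      (∀ j t, ‖t‖ ≤ 2 * ρ → φ j t * h j0 (z + t • η) = (Qz z).eval t * h j (z + t • η)) :=
  (G.gen z hz).2.1.glue (G.isol hz)

theorem WW_eq (G : Gens h j0 x₀ η r ρ c M Qz ν) {z : E} (hz : z ∈ ball x₀ r) {φ : ι → ℂ → ℂ}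
    (h1 : ∀ j t, ‖t‖ < 2 * ρ → AnalyticAt ℂ (φ j) t)
    (h2 : ∀ j t, ‖t‖ ≤ 2 * ρ → φ j t * h j0 (z + t • η) = (Qz z).eval t * h j (z + t • η)) (j : ι) :
    WW h j0 η ρ Qz j z = φ j 0 := by
  have hρ := G.hρ
  have h3 : ∀ t ∈ sphere (0 : ℂ) ρ, t⁻¹ * ((Qz z).eval t * h j (z + t • η) / h j0 (z + t • η)) =
      t⁻¹ • φ j t := by
    intro t ht
    rw [mem_sphere_zero_iff_norm] at ht
    rw [← h2 j t (by linarith), mul_div_cancel_right₀ _ (G.ne0 hz (by linarith) (by linarith)),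
      smul_eq_mul]
  rw [WW, circleIntegral.integral_congr hρ.le h3, ← smul_eq_mul]
  exact cauchy0 hρ fun t ht => (h1 j t (by linarith)).differentiableAt

/-- the values of the quotients along the line through `z` -/
theorem WW_line (G : Gens h j0 x₀ η r ρ c M Qz ν) {z : E} (hz : z ∈ ball x₀ r) {φ : ι → ℂ → ℂ}
    (h1 : ∀ j t, ‖t‖ < 2 * ρ → AnalyticAt ℂ (φ j) t)
    (h2 : ∀ j t, ‖t‖ ≤ 2 * ρ → φ j t * h j0 (z + t • η) = (Qz z).eval t * h j (z + t • η))
    {s : ℂ} (hs : ‖s‖ ≤ ρ) (hz' : z + s • η ∈ ball x₀ r) (j : ι) :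
    WW h j0 η ρ Qz j (z + s • η) = φ j s := by
  have hρ := G.hρ
  obtain ⟨φ', h3, h4⟩ := G.line hz'
  rw [G.WW_eq hz' h3 h4 j]
  have hQ' : Qz (z + s • η) = (Qz z).comp (X + C s) :=
    (G.gen _ hz').unique ((G.gen z hz).shift G.toRad hz hs hz')
  have hadd : ∀ u : ℂ, z + s • η + u • η = z + (u + s) • η := fun u => by
    rw [add_smul, add_assoc, add_comm (s • η)]
  have hev : ∀ u : ℂ, ((Qz z).comp (X + C s)).eval u = (Qz z).eval (u + s) := fun u => by simp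
  have hc : ContinuousAt (fun u : ℂ => φ j (u + s)) 0 := by
    refine ContinuousAt.comp (g := φ j) (f := fun u : ℂ => u + s) ?_ (by fun_prop)
    rw [zero_add]
    exact (h1 j s (by linarith)).continuousAt
  have hc' : ContinuousAt (φ' j) 0 := (h3 j 0 (by rw [norm_zero]; linarith)).continuousAt
  have h5 : ∀ᶠ u : ℂ in 𝓝[≠] 0, φ' j u = φ j (u + s) := by
    have h6 : ∀ᶠ u : ℂ in 𝓝 0, ‖u‖ < ρ := by
      have : Continuous fun u : ℂ => ‖u‖ := continuous_norm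
      exact this.continuousAt.eventually_lt_const (by simpa using hρ)
    filter_upwards [G.isol hz' 0 (by rw [norm_zero]; linarith), nhdsWithin_le_nhds h6] with u h7 h8
    refine mul_right_cancel₀ h7 ?_
    rw [h4 j u (by linarith), hQ', hev, hadd, h2 j (u + s) (by
      have := norm_add_le u s
      linarith)]
  have h6 := (ContinuousAt.eventuallyEq_nhds_iff_eventuallyEq_nhdsNE hc' hc).1 h5
  have h7 := h6.self_of_nhds
  simp only [zero_add] at h7
  exact h7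

theorem nonzero (G : Gens h j0 x₀ η r ρ c M Qz ν) {z : E} (hz : z ∈ ball x₀ r)
    (h0 : ∀ j, WW h j0 η ρ Qz j z = 0) : False := by
  have hρ := G.hρ
  obtain ⟨φ, h1, h2⟩ := G.line hz
  refine no_common (f := fun t : ℂ => h j0 (z + t • η)) (h := fun j (t : ℂ) => h j (z + t • η))
    (j0 := j0) (t₀ := 0) (G.gen z hz).1 (G.gen z hz).2.2 rfl h1 h2 (G.gen z hz).2.1 (G.isol hz)
    (fun t ht => ⟨G.an' hz (by linarith) j0, fun j => G.an' hz (by linarith) j⟩)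
    (by rw [norm_zero]; linarith) fun j => ?_
  rw [← G.WW_eq hz h1 h2 j, h0]

theorem GG_mul (G : Gens h j0 x₀ η r ρ c M Qz ν) {z : E} (hz : z ∈ ball x₀ r) (j : ι) :
    h j z = GG h j0 η ρ Qz z * WW h j0 η ρ Qz j z := by
  have hρ := G.hρ
  obtain ⟨φ, h1, h2⟩ := G.line hz
  obtain ⟨γ, h3, h4⟩ := G.gam z hz
  have hQne : ∀ t : ℂ, ‖t‖ = ρ → (Qz z).eval t ≠ 0 := by
    intro t ht h0
    have := G.lo z hz t ht.ge
    rw [h0, norm_zero] at this
    have h5 : 0 < (ρ / 2) ^ (Qz z).natDegree := by positivity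
    linarith
  have h5 : GG h j0 η ρ Qz z = γ 0 := by
    have h6 : ∀ t ∈ sphere (0 : ℂ) ρ, t⁻¹ * (h j0 (z + t • η) / (Qz z).eval t) = t⁻¹ • γ t := by
      intro t ht
      rw [mem_sphere_zero_iff_norm] at ht
      rw [h4 t (by linarith), mul_div_cancel_right₀ _ (hQne t ht), smul_eq_mul]
    rw [GG, circleIntegral.integral_congr hρ.le h6, ← smul_eq_mul]
    exact cauchy0 hρ fun t ht => (h3 t (by linarith)).differentiableAt
  rw [h5, G.WW_eq hz h1 h2 j]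
  -- `γ φ = h j` on the line
  have h6 : ∀ᶠ t in 𝓝[≠] (0 : ℂ), h j (z + t • η) = γ t * φ j t := by
    have h7 : ∀ᶠ u : ℂ in 𝓝 0, ‖u‖ < ρ := by
      have : Continuous fun u : ℂ => ‖u‖ := continuous_norm
      exact this.continuousAt.eventually_lt_const (by simpa using hρ)
    filter_upwards [G.isol hz 0 (by rw [norm_zero]; linarith), nhdsWithin_le_nhds h7] with t h8 h9
    have h10 := h4 t (by linarith)
    have h11 := h2 j t (by linarith)
    have h12 : (Qz z).eval t ≠ 0 := fun h0 => h8 (by rw [h10, h0, mul_zero])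
    refine mul_left_cancel₀ h12 ?_
    rw [← h11, h10]
    ring
  have hc1 : ContinuousAt (fun t : ℂ => h j (z + t • η)) 0 :=
    (G.an' hz (by rw [norm_zero]; linarith) j).continuousAt
  have hc2 : ContinuousAt (fun t : ℂ => γ t * φ j t) 0 :=
    (h3 0 (by rw [norm_zero]; linarith)).continuousAt.mul
      (h1 j 0 (by rw [norm_zero]; linarith)).continuousAt
  have h7 := ((ContinuousAt.eventuallyEq_nhds_iff_eventuallyEq_nhdsNE hc1 hc2).1 h6).self_of_nhds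
  simpa using h7

theorem WW_bd (G : Gens h j0 x₀ η r ρ c M Qz ν) {z : E} (hz : z ∈ ball x₀ r)
    (hd : (Qz z).natDegree = ν) (j : ι) :
    ‖WW h j0 η ρ Qz j z‖ ≤ (2 * ρ) ^ ν * M / c := by
  have hρ := G.hρ
  have hc := G.hc
  have hM : 0 ≤ M := (norm_nonneg _).trans (G.bd z hz 0 (by rw [norm_zero]; positivity) j0)
  rw [WW, ← smul_eq_mul]
  have := circleIntegral.norm_two_pi_i_inv_smul_integral_le_of_norm_le_const (c := (0 : ℂ))
    (R := ρ) (f := fun t => t⁻¹ * ((Qz z).eval t * h j (z + t • η) / h j0 (z + t • η)))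
    (C := ρ⁻¹ * ((2 * ρ) ^ ν * M / c)) hρ.le (by
      intro t ht
      rw [mem_sphere_zero_iff_norm] at ht
      rw [norm_mul, norm_inv, ht, norm_div, norm_mul]
      have h1 := G.up z hz t ht.le
      rw [hd] at h1
      have h2 := G.bd z hz t (by linarith) j
      have h3 := G.low z hz t (by linarith) (by linarith)
      gcongr)
  refine this.trans (le_of_eq ?_)
  rw [← mul_assoc, mul_inv_cancel₀ hρ.ne', one_mul]

theorem GG_bd (G : Gens h j0 x₀ η r ρ c M Qz ν) {z : E} (hz : z ∈ ball x₀ r)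
    (hd : (Qz z).natDegree = ν) :
    ‖GG h j0 η ρ Qz z‖ ≤ M / (ρ / 2) ^ ν := by
  have hρ := G.hρ
  have hM : 0 ≤ M := (norm_nonneg _).trans (G.bd z hz 0 (by rw [norm_zero]; positivity) j0)
  rw [GG, ← smul_eq_mul]
  have := circleIntegral.norm_two_pi_i_inv_smul_integral_le_of_norm_le_const (c := (0 : ℂ))
    (R := ρ) (f := fun t => t⁻¹ * (h j0 (z + t • η) / (Qz z).eval t))
    (C := ρ⁻¹ * (M / (ρ / 2) ^ ν)) hρ.le (by
      intro t ht
      rw [mem_sphere_zero_iff_norm] at ht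
      rw [norm_mul, norm_inv, ht, norm_div]
      have h1 := G.lo z hz t ht.ge
      rw [hd] at h1
      have h2 := G.bd z hz t (by linarith) j0
      gcongr)
  refine this.trans (le_of_eq ?_)
  rw [← mul_assoc, mul_inv_cancel₀ hρ.ne', one_mul]

theorem eval_diff (G : Gens h j0 x₀ η r ρ c M Qz ν) {p : E × ℂ} (hp : p.1 ∈ ball x₀ r)
    (hk : ∀ k, DifferentiableAt ℂ (fun z => (Qz z).coeff k) p.1) :
    DifferentiableAt ℂ (fun p : E × ℂ => (Qz p.1).eval p.2) p := by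
  have h1 : (fun p : E × ℂ => (Qz p.1).eval p.2) =ᶠ[𝓝 p] fun p : E × ℂ =>
      ∑ k ∈ Finset.range (ν + 1), (Qz p.1).coeff k * p.2 ^ k := by
    have h2 : ∀ᶠ q : E × ℂ in 𝓝 p, q.1 ∈ ball x₀ r :=
      continuous_fst.continuousAt.eventually (isOpen_ball.mem_nhds hp)
    filter_upwards [h2] with q hq
    exact eval_eq_sum_range' (by have := G.deg q.1 hq; omega) _
  refine DifferentiableAt.congr_of_eventuallyEq ?_ h1
  refine DifferentiableAt.fun_sum fun k _ => ?_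
  have h3 : DifferentiableAt ℂ (fun q : E × ℂ => (Qz q.1).coeff k) p :=
    DifferentiableAt.comp (g := fun z => (Qz z).coeff k) (f := fun q : E × ℂ => q.1) p (hk k)
      differentiableAt_fst
  have h4 : DifferentiableAt ℂ (fun q : E × ℂ => q.2 ^ k) p := by fun_prop
  exact h3.mul h4

variable [FiniteDimensional ℂ E]

theorem WW_diff (G : Gens h j0 x₀ η r ρ c M Qz ν) {U : Set E} (hU : IsOpen U)
    (hUb : U ⊆ ball x₀ r) (hk : ∀ z ∈ U, ∀ k, DifferentiableAt ℂ (fun z => (Qz z).coeff k) z)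
    (j : ι) : DifferentiableOn ℂ (WW h j0 η ρ Qz j) U := by
  have hρ := G.hρ
  refine DifferentiableOn.const_mul ?_ _
  refine differentiableOn_circleIntegral (E := E) (F := ℂ) (c := 0) (R := ρ) hρ.le
    (G := fun p : E × ℂ => p.2⁻¹ * ((Qz p.1).eval p.2 * h j (p.1 + p.2 • η) / h j0 (p.1 + p.2 • η)))
    hU (ann_open ρ) (sphere_ann hρ) ?_
  rintro p ⟨hp1, hp2, hp3⟩
  refine DifferentiableAt.differentiableWithinAt ?_
  have h1 := G.diff2 j (hUb hp1) (by linarith)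
  have h2 := G.diff2 j0 (hUb hp1) (by linarith)
  have h3 := G.ne0 (hUb hp1) hp2.le hp3.le
  have hp0 : p.2 ≠ 0 := by
    intro h0
    rw [h0, norm_zero] at hp2
    linarith
  have h4 : DifferentiableAt ℂ (fun p : E × ℂ => p.2⁻¹) p := differentiableAt_snd.inv hp0
  have h5 := G.eval_diff (hUb hp1) (hk p.1 hp1)
  simp only [div_eq_mul_inv]
  exact h4.mul ((h5.mul h1).mul (h2.inv h3))

theorem GG_diff (G : Gens h j0 x₀ η r ρ c M Qz ν) {U : Set E} (hU : IsOpen U)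
    (hUb : U ⊆ ball x₀ r) (hk : ∀ z ∈ U, ∀ k, DifferentiableAt ℂ (fun z => (Qz z).coeff k) z) :
    DifferentiableOn ℂ (GG h j0 η ρ Qz) U := by
  have hρ := G.hρ
  refine DifferentiableOn.const_mul ?_ _
  refine differentiableOn_circleIntegral (E := E) (F := ℂ) (c := 0) (R := ρ) hρ.le
    (G := fun p : E × ℂ => p.2⁻¹ * (h j0 (p.1 + p.2 • η) / (Qz p.1).eval p.2))
    hU (ann_open ρ) (sphere_ann hρ) ?_
  rintro p ⟨hp1, hp2, hp3⟩
  refine DifferentiableAt.differentiableWithinAt ?_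
  have h2 := G.diff2 j0 (hUb hp1) (by linarith)
  have hp0 : p.2 ≠ 0 := by
    intro h0
    rw [h0, norm_zero] at hp2
    linarith
  obtain ⟨γ, _, h6⟩ := G.gam p.1 (hUb hp1)
  have h3 : (Qz p.1).eval p.2 ≠ 0 := by
    intro h0
    have := G.ne0 (hUb hp1) hp2.le hp3.le
    rw [h6 p.2 hp3.le, h0, mul_zero] at this
    exact this rfl
  have h4 : DifferentiableAt ℂ (fun p : E × ℂ => p.2⁻¹) p := differentiableAt_snd.inv hp0
  have h5 := G.eval_diff (hUb hp1) (hk p.1 hp1)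
  simp only [div_eq_mul_inv]
  exact h4.mul (h2.mul (h5.inv h3))

end Gens

end Vale.Agent.P284.H553.Prim
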