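import Mathlib.Analysis.InnerProductSpace.TensorProduct
import Mathlib.Analysis.InnerProductSpace.Completion
import Mathlib.Analysis.InnerProductSpace.GramMatrix
import Mathlib.Analysis.Analytic.CPolynomial
import Mathlib.Analysis.Normed.Module.Multilinear.Curry
import Mathlib.Analysis.Complex.Basic

/-!
# P284 (helper553): Hilbert tensor powers and wedge products

`exists_wedge`: for a Hilbert space `H` and a finite index type `ι` there is a Hilbert space `K` and a
map `P : H → (ι → H) → K`, polynomial (analytic along analytic families), with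
`⟪P a u, P a' u'⟫ = ⟪a, a'⟫ det ⟪u i, u' j⟫`.
-/

open scoped InnerProductSpace TensorProduct
open Matrix

noncomputable section

namespace Vale.Agent.P284.H553

section
variable {H : Type} [NormedAddCommGroup H] [InnerProductSpace ℂ H]

/-- the bilinear map into the completed tensor product -/
theorem exists_bil (H K : Type) [NormedAddCommGroup H] [InnerProductSpace ℂ H]
    [NormedAddCommGroup K] [InnerProductSpace ℂ K] :
    ∃ (L : Type) (_ : NormedAddCommGroup L) (_ : InnerProductSpace ℂ L) (_ : CompleteSpace L)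
      (B : H →L[ℂ] K →L[ℂ] L), ∀ a b a' b', ⟪B a b, B a' b'⟫_ℂ = ⟪a, a'⟫_ℂ * ⟪b, b'⟫_ℂ := by
  refine ⟨UniformSpace.Completion (H ⊗[ℂ] K), inferInstance, inferInstance, inferInstance,
    (ContinuousLinearMap.compL ℂ K (H ⊗[ℂ] K) (UniformSpace.Completion (H ⊗[ℂ] K))
      (UniformSpace.Completion.toComplₗᵢ (𝕜 := ℂ) (E := H ⊗[ℂ] K)).toContinuousLinearMap).comp
      (TensorProduct.mkL ℂ H K), ?_⟩
  intro a b a' b'
  simp [UniformSpace.Completion.inner_coe]

theorem exists_tens (H : Type) [NormedAddCommGroup H] [InnerProductSpace ℂ H] (k : ℕ) :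
    ∃ (K : Type) (_ : NormedAddCommGroup K) (_ : InnerProductSpace ℂ K) (_ : CompleteSpace K)
      (T : ContinuousMultilinearMap ℂ (fun _ : Fin k => H) K),
      ∀ u u' : Fin k → H, ⟪T u, T u'⟫_ℂ = ∏ i, ⟪u i, u' i⟫_ℂ := by
  induction k with
  | zero =>
    refine ⟨ℂ, inferInstance, inferInstance, inferInstance,
      ContinuousMultilinearMap.constOfIsEmpty ℂ _ 1, ?_⟩
    intro u u'
    simp
  | succ k ih =>
    obtain ⟨K, i1, i2, i3, T, hT⟩ := ih
    obtain ⟨L, j1, j2, j3, B, hB⟩ := exists_bil H K
    let f : H →L[ℂ] ContinuousMultilinearMap ℂ (fun _ : Fin k => H) L :=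
      ((ContinuousLinearMap.compContinuousMultilinearMapL ℂ (fun _ : Fin k => H) K L).flip T).comp B
    refine ⟨L, j1, j2, j3, f.uncurryLeft, ?_⟩
    intro u u'
    have h (u : Fin (k + 1) → H) : f.uncurryLeft u = B (u 0) (T (Fin.tail u)) := by
      simp [f, ContinuousLinearMap.uncurryLeft_apply]
    rw [h, h, hB, hT, Fin.prod_univ_succ]
    rfl

end

end Vale.Agent.P284.H553
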